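import Crest.Agent.R141.Ass5

/-!
Row 141, part A: the Aizenman–Sims–Starr step, `CavityLemma → PartL`.
-/

set_option autoImplicit false

namespace Crest.Agent.R141.Ass

open Crest.ProbabilityR.Diluted Finset Crest.Agent.PP Filter Topology
open scoped BigOperators

lemma Ex_snoc {κ : Type*} [Fintype κ] (w : κ → ℝ) {N : ℕ} (F : (Fin (N + 1) → κ) → ℝ) :
    Ex w F = Ex w fun hs : Fin N → κ => ∑ a, w a * F (Fin.snoc hs a) := by
  simp only [Ex, wt, mul_sum]
  rw [← Fintype.sum_prod_type']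
  refine (Fintype.sum_equiv ((Equiv.prodComm _ _).trans (Fin.snocEquiv fun _ => κ)) _ _
    fun x => ?_).symm
  change _ = (∏ i, w ((Fin.snoc x.1 x.2 : Fin (N + 1) → κ) i)) * F (Fin.snoc x.1 x.2)
  rw [Fin.prod_univ_castSucc]
  simp only [Fin.snoc_castSucc, Fin.snoc_last, mul_assoc]

lemma Lip.sum {G ι : Type*} [SeminormedAddCommGroup G] [Fintype ι] {W : ι → ℝ} (hW : IsProb W)
    {Φ : ι → G → ℝ} (h : ∀ i, Lip (Φ i)) : Lip fun H => ∑ i, W i * Φ i H := fun H H' => by
  calc ∑ i, W i * Φ i H ≤ ∑ i, W i * (Φ i H' + ‖H - H'‖) :=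
        sum_le_sum fun i _ => mul_le_mul_of_nonneg_left (h i H H') (hW.nonneg i)
    _ = ∑ i, W i * Φ i H' + ‖H - H'‖ := by
        simp only [mul_add, sum_add_distrib, ← sum_mul, hW.sum_one, one_mul]

lemma PP_sum {G C ι : Type*} [SeminormedAddCommGroup G] [Fintype C] [Fintype ι] {w : C → ℝ}
    (hw : ∀ c, 0 ≤ w c) (θ : C → G) (W : ι → ℝ) {Φ : ι → G → ℝ} (h : ∀ i, Lip (Φ i)) (H : G) :
    PP w θ (fun H => ∑ i, W i * Φ i H) H = ∑ i, W i * PP w θ (Φ i) H := by
  unfold PP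
  rw [PE_sum hw _ fun i _ => ((h i).gr θ H).const_mul _]
  simp only [PE_const_mul]

/-- The logarithm of the partition function. -/
noncomputable def logZ (N : ℕ) (H : (Fin N → Bool) → ℝ) : ℝ := Real.log (∑ σ, Real.exp (H σ))

lemma logZ_lip (N : ℕ) : Lip (logZ N) := fun H H' => by
  have h0 : ∀ H : (Fin N → Bool) → ℝ, 0 < ∑ σ, Real.exp (H σ) := fun H =>
    sum_pos (fun _ _ => Real.exp_pos _) univ_nonempty
  unfold logZ
  rw [Real.log_le_iff_le_exp (h0 H), Real.exp_add, Real.exp_log (h0 H'), mul_comm, mul_sum]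
  exact sum_le_sum fun σ _ => Pins.exp_le_of_norm H H' σ

lemma Φ_le_logZ (D : Pins) (N : ℕ) [NeZero N] (H : (Fin N → Bool) → ℝ) :
    D.Φ N H ≤ logZ N H + -(N * Real.log 2) := by
  refine (D.Φm_le_log fun _ => Real.exp_pos _).trans (le_of_eq ?_)
  rw [Fintype.expect_eq_sum_div_card, Real.log_div
    (sum_pos (fun _ _ => Real.exp_pos _) univ_nonempty).ne' (by simp), logZ]
  simp [sub_eq_add_neg]

variable {p : ℕ} (M : Model p)

/-- The Hamiltonian of the external fields. -/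
noncomputable def fieldH {N : ℕ} (hs : Fin N → M.H) : (Fin N → Bool) → ℝ :=
  fun σ => ∑ i, M.h (hs i) * spinVal (σ i)

lemma fieldH_snoc {N : ℕ} (hs : Fin N → M.H) (a : M.H) :
    fieldH M (Fin.snoc hs a : Fin (N + 1) → M.H) = lift M a (fieldH M hs) := by
  funext σ
  simp only [fieldH, lift, Fin.sum_univ_castSucc, Fin.snoc_castSucc, Fin.snoc_last]

lemma press_eq {α : ℝ} (hα : 0 < α) (N : ℕ) [NeZero N] :
    N * M.press α N = Ex M.wh fun hs : Fin N → M.H =>
      PP (fun x => α * N * qU M (Fin p → Fin N) x) (clause M N) (logZ N) (fieldH M hs) := by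
  have hN : (N : ℝ) ≠ 0 := by exact_mod_cast NeZero.ne N
  have hq := qU_isProb M (Fin p → Fin N)
  have hw : ∀ x, 0 ≤ α * N * qU M (Fin p → Fin N) x := fun x =>
    mul_nonneg (by positivity) (hq.nonneg x)
  rw [Model.press, ← mul_assoc, mul_one_div_cancel hN, one_mul, Ex]
  simp only [PP, ← PE_const_mul]
  rw [← PE_sum hw _ fun hs _ => ((logZ_lip N).gr (clause M N) (fieldH M hs)).const_mul _,
    PE_norm _ hq.sum_one]
  refine tsum_congr fun n => ?_
  congr 1
  refine Eq.trans ?_ (Eq.trans (Ex_qU M fun (c : Fin n → M.Θ) (idx : Fin n → Fin p → Fin N) =>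
    ∑ hs : Fin N → M.H, wt M.wh hs *
      logPartition N (fun k => M.θ (c k)) idx fun i => M.h (hs i)).symm ?_)
  · refine sum_congr rfl fun c _ => ?_
    congr 1
    dsimp only
    rw [expect_sum_comm]
    refine sum_congr rfl fun hs _ => ?_
    rw [← mul_expect, Fintype.expect_eq_sum_div_card, div_eq_inv_mul]
    rfl
  · congr 1
    funext l
    refine sum_congr rfl fun hs _ => ?_
    congr 1
    simp only [logPartition, logZ, Pi.add_apply, Finset.sum_apply, fieldH, clause, add_comm]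

/-- The averaged pinned free energy. -/
noncomputable def AA (D : Pins) (α : ℝ) (N : ℕ) : ℝ :=
  Ex M.wh fun hs : Fin N → M.H =>
    PP (fun x => α * N * qU M (Fin p → Fin N) x) (clause M N) (D.Φ N) (fieldH M hs)

lemma AA_le (D : Pins) {α : ℝ} (hα : 0 < α) (N : ℕ) [NeZero N] :
    AA M D α N + N * Real.log 2 ≤ N * M.press α N := by
  have hw : ∀ x, 0 ≤ α * N * qU M (Fin p → Fin N) x := fun x =>
    mul_nonneg (by positivity) ((qU_isProb M _).nonneg x)
  have h := Ex_mono (wh_isProb M) fun hs : Fin N → M.H =>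
    PP_le_add hw (clause M N) (D.Φ_lip N) (logZ_lip N) (Φ_le_logZ D N) (fieldH M hs)
  rw [Ex_add, Ex_const (wh_isProb M), ← press_eq M hα] at h
  unfold AA
  linarith

lemma AA_step (hp : 2 ≤ p) {α : ℝ} (hα : 0 < α) (D : Pins) (N : ℕ) [NeZero N] {t : ℝ}
    (key : ∀ Y : (Fin N → Bool) → ℝ, (∀ σ, 0 < Y σ) →
      PE (fun c => α * (p - 1) * M.w c) (edgeF M D Y) + t ≤
        PE (fun c => α * p * M.w c) fun k c => ∑ a, M.wh a * siteF M D Y k c a) :
    AA M D α N + t ≤ AA M D α (N + 1) + (3 * Lm M * (α * p - lamS p α N) +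
      (1 - ((N : ℝ) / (N + 1)) ^ D.K) * (-Real.log D.c)) := by
  have hp0 : 0 < p := by omega
  have hp1 : (0 : ℝ) ≤ p - 1 := by
    have : (1 : ℝ) ≤ p := by exact_mod_cast hp0
    linarith
  have hl0 : 0 ≤ lam0 p α N := by unfold lam0; positivity
  have hw₀ : ∀ x, 0 ≤ lam0 p α N * qU M (Fin p → Fin N) x := fun x =>
    mul_nonneg hl0 ((qU_isProb M _).nonneg x)
  have hw₁ : ∀ x, 0 ≤ α * (N + 1 : ℕ) * qU M (Fin p → Fin (N + 1)) x := fun x =>
    mul_nonneg (by positivity) ((qU_isProb M _).nonneg x)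
  have hwS : ∀ x, 0 ≤ α * p * qU M (Fin (p - 1) → Fin N) x := fun x =>
    mul_nonneg (by positivity) ((qU_isProb M _).nonneg x)
  have hwE : ∀ x, 0 ≤ α * (p - 1) * qU M (Fin p → Fin N) x := fun x =>
    mul_nonneg (by positivity) ((qU_isProb M _).nonneg x)
  set G := PP (fun x => α * p * qU M (Fin (p - 1) → Fin N) x) (clauseC M N) (D.Φ' N) with hG
  have hGl : Lip G := PP_lip hwS _ (D.Φ'_lip N)
  have h5 : ∀ H, PP (fun x => α * (p - 1) * qU M (Fin p → Fin N) x) (clause M N) (D.Φ N) H ≤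
      ∑ a, M.wh a * G (lift M a H) + -t := by
    intro H
    have hY : ∀ σ, 0 < Real.exp (H σ) := fun _ => Real.exp_pos _
    have := key _ hY
    rw [PE_sum (fun c => mul_nonneg (by positivity) ((w_isProb M).nonneg c)) _ fun a _ =>
      (gr_of_sub fun k c => abs_siteF_sub_le M D hY k c a).const_mul _] at this
    simp only [PE_const_mul] at this
    simp only [hG, PP_edge, PP_site]
    linarith
  unfold AA
  rw [Ex_snoc M.wh (N := N), ← Ex_const (ι := Fin N) (wh_isProb M) t, ← Ex_add,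
    ← Ex_const (ι := Fin N) (wh_isProb M) (3 * Lm M * (α * p - lamS p α N) +
      (1 - ((N : ℝ) / (N + 1)) ^ D.K) * (-Real.log D.c)), ← Ex_add]
  refine Ex_mono (wh_isProb M) fun hs => ?_
  simp only [fieldH_snoc]
  set H₀ := fieldH M hs
  have h7 := step_down M hp0 hα N (D.Φ_lip N) H₀
  have h6 := PP_le_add hw₀ (clause M N) (PP_lip hwE (clause M N) (D.Φ_lip N))
    (Lip.sum (wh_isProb M) fun a => hGl.lift M a) h5 H₀
  rw [PP_sum hw₀ (clause M N) M.wh fun a => hGl.lift M a] at h6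
  have h1 : ∀ a, PP (fun x => lam0 p α N * qU M (Fin p → Fin N) x) (clause M N)
      (fun H => G (lift M a H)) H₀ ≤
      PP (fun x => α * (N + 1 : ℕ) * qU M (Fin p → Fin (N + 1)) x) (clause M (N + 1))
        (D.Φ (N + 1)) (lift M a H₀) + (2 * Lm M * (α * p - lamS p α N) +
          (1 - ((N : ℝ) / (N + 1)) ^ D.K) * (-Real.log D.c)) := by
    intro a
    have e1 := PP_le_add hw₁ (clause M (N + 1)) (D.Φ'_lip N) (D.Φ_lip (N + 1)) (D.Φ'_le N)
      (lift M a H₀)
    have e2 := (step_up M hp0 hα N (D.Φ'_lip N) (lift M a H₀)).1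
    have e3 : PP (fun x => lam0 p α N * qU M (Fin p → Fin N) x) (clauseO M N) G (lift M a H₀) =
        PP (fun x => lam0 p α N * qU M (Fin p → Fin N) x) (clause M N)
          (fun H => G (lift M a H)) H₀ := by
      simp only [PP, lift_add_sum]
    rw [← hG, e3] at e2
    linarith
  have h2 := sum_le_sum fun a (_ : a ∈ univ) => mul_le_mul_of_nonneg_left (h1 a) (M.wh_nonneg a)
  simp only [mul_add, sum_add_distrib, ← sum_mul, M.wh_sum, one_mul] at h2
  linarith

lemma tendsto_ratio_pow (k : ℕ) :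
    Tendsto (fun N : ℕ => ((N : ℝ) / (N + 1)) ^ k) atTop (𝓝 1) := by
  simpa using (tendsto_natCast_div_add_atTop (1 : ℝ)).pow k

lemma cesaro {A : ℕ → ℝ} {t δ : ℝ} (hδ : 0 < δ) (h : ∀ᶠ N in atTop, A N + t ≤ A (N + 1)) :
    ∀ᶠ N : ℕ in atTop, N * (t - δ) ≤ A N := by
  obtain ⟨N₀, hN₀⟩ := eventually_atTop.1 h
  have h1 : ∀ n : ℕ, A N₀ + n * t ≤ A (N₀ + n) := by
    intro n
    induction n with
    | zero => simp
    | succ n ih =>
      have := hN₀ (N₀ + n) (by omega)
      rw [← add_assoc]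
      push_cast
      linarith
  have h2 : ∀ᶠ N : ℕ in atTop, (N₀ * t - A N₀) / δ ≤ N :=
    tendsto_natCast_atTop_atTop.eventually_ge_atTop _
  filter_upwards [h2, eventually_ge_atTop N₀] with N hN hN'
  obtain ⟨n, rfl⟩ := Nat.exists_eq_add_of_le hN'
  rw [div_le_iff₀ hδ] at hN
  have := h1 n
  push_cast at hN ⊢
  linarith

end Crest.Agent.R141.Ass

namespace Crest.Agent.R141

open Ass Crest.ProbabilityR.Diluted Filter Topology

theorem partL_of_cavity (h : CavityLemma) : PartL := by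
  intro p hp M α hα b hb ε hε
  have hp1 : (1 : ℝ) ≤ p := by exact_mod_cast (by omega : 1 ≤ p)
  have hε' : 0 < ε / 6 := by positivity
  obtain ⟨k₀, ht₁, ht₂⟩ := ((poi_tail (lam := α * p) (by positivity) (2 * Hm M) (2 * Lm M) hε').and
    (poi_tail (lam := α * (p - 1)) (mul_nonneg hα.le (by linarith)) (2 * Hm M) (2 * Lm M)
      hε')).exists
  obtain ⟨r, m, hm, D, hcav⟩ := avgCav_of_cavity h hε' (Hm M + Lm M * k₀) (k₀ * p)
  have herr : Tendsto (fun N : ℕ => 3 * Lm M * (α * p - lamS p α N) +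
      (1 - ((N : ℝ) / (N + 1)) ^ D.K) * (-Real.log D.c)) atTop
      (𝓝 (3 * Lm M * (α * p - α * p * 1) + (1 - 1) * (-Real.log D.c))) := by
    simp only [lamS_eq (by omega : 0 < p)]
    exact ((((tendsto_ratio_pow _).const_mul _).const_sub _).const_mul _).add
      (((tendsto_ratio_pow _).const_sub _).mul_const _)
  rw [mul_one, sub_self, sub_self, mul_zero, zero_mul, add_zero] at herr
  have hstep : ∀ᶠ N : ℕ in atTop,
      AA M D α N + (b - Real.log 2 - 5 * (ε / 6)) ≤ AA M D α (N + 1) := by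
    filter_upwards [herr.eventually (ge_mem_nhds hε'), eventually_gt_atTop 0] with N hN hN0
    have : NeZero N := ⟨hN0.ne'⟩
    have := AA_step M hp hα D N fun Y hY =>
      edge_le_site M hp hα hm (fun T => hb r m T hm) hcav ht₁ ht₂ hY
    linarith
  filter_upwards [cesaro hε' hstep, eventually_gt_atTop 0] with N hN hN0
  have : NeZero N := ⟨hN0.ne'⟩
  have h1 := AA_le M D hα N
  have hN' : (0 : ℝ) < N := by exact_mod_cast hN0
  refine le_of_mul_le_mul_left ?_ hN'
  linarith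

end Crest.Agent.R141
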