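import Crest.Agent.R141.Defs
import Crest.Agent.Lib.ProdProb

/-!
Row 141, part A: Poisson calculus.  `PE w F` is the expectation of `F n l` for a Poisson family
`l : Fin n → C` with intensities `w`; `PP w θ Φ H` is the expectation of `Φ (H + ∑ jumps)`.
-/

set_option autoImplicit false

namespace Crest.Agent.R141.Ass

open Crest.ProbabilityR.Diluted Finset Crest.Agent.PP Filter Topology
open scoped BigOperators Nat

/-! ### Poisson weights -/

lemma poi_nonneg {lam : ℝ} (h : 0 ≤ lam) (n : ℕ) : 0 ≤ poissonWeight lam n := by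
  unfold poissonWeight; positivity

lemma hasSum_poi (lam : ℝ) : HasSum (poissonWeight lam) 1 := by
  have h := (NormedSpace.expSeries_div_hasSum_exp lam).mul_left (Real.exp (-lam))
  rw [← Real.exp_eq_exp_ℝ, ← Real.exp_add, neg_add_cancel, Real.exp_zero] at h
  refine h.congr_fun fun n => ?_
  rw [poissonWeight, mul_div_assoc]

lemma hasSum_poi_mul (lam : ℝ) : HasSum (fun n : ℕ => poissonWeight lam n * n) lam := by
  rw [← hasSum_nat_add_iff' 1]
  have h := (hasSum_poi lam).mul_left lam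
  simp only [range_one, sum_singleton, Nat.cast_zero, mul_zero, sub_zero]
  rw [mul_one] at h
  refine h.congr_fun fun n => ?_
  simp only [poissonWeight, Nat.factorial_succ]
  push_cast
  field_simp
  ring

lemma hasSum_poi_lin (lam A B : ℝ) :
    HasSum (fun n : ℕ => poissonWeight lam n * (A + B * n)) (A + B * lam) := by
  have h := ((hasSum_poi lam).mul_left A).add ((hasSum_poi_mul lam).mul_left B)
  rw [mul_one] at h
  refine h.congr_fun fun n => ?_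
  ring

lemma poi_tail {lam : ℝ} (hlam : 0 ≤ lam) (A B : ℝ) {ε : ℝ} (hε : 0 < ε) :
    ∀ᶠ k₀ : ℕ in atTop,
      ∑' n : ℕ, poissonWeight lam n * (if n ≤ k₀ then 0 else A + B * n) ≤ ε := by
  have h : Tendsto (fun k₀ : ℕ => ∑' n : ℕ, poissonWeight lam n *
      (if n ≤ k₀ then 0 else A + B * n)) atTop (𝓝 (∑' _ : ℕ, (0 : ℝ))) := by
    refine tendsto_tsum_of_dominated_convergence
      (bound := fun n => poissonWeight lam n * (|A| + |B| * n)) (hasSum_poi_lin lam _ _).summable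
      (fun n => ?_) (Eventually.of_forall fun k₀ n => ?_)
    · refine tendsto_const_nhds.congr' ?_
      filter_upwards [eventually_ge_atTop n] with k hk
      simp [hk]
    · rw [Real.norm_eq_abs, abs_mul, abs_of_nonneg (poi_nonneg hlam n)]
      refine mul_le_mul_of_nonneg_left ?_ (poi_nonneg hlam n)
      split_ifs
      · rw [abs_zero]; positivity
      · refine (abs_add_le _ _).trans ?_
        rw [abs_mul, Nat.abs_cast]
  rw [tsum_zero] at h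
  exact h.eventually (ge_mem_nhds hε)

/-! ### Poisson expectations -/

section PE

variable {C : Type*} [Fintype C]

lemma Ex_const' (w : C → ℝ) (n : ℕ) (c : ℝ) :
    Ex w (fun _ : Fin n → C => c) = (∑ x, w x) ^ n * c := by
  have h := Ex_prod (ι := Fin n) w (fun _ _ => 1)
  simp only [prod_const_one, mul_one, prod_const, card_univ, Fintype.card_fin] at h
  rw [← h, ← Ex_mul_const]
  simp

lemma Ex_mono' {ι : Type*} [Fintype ι] [DecidableEq ι] {w : C → ℝ} (hw : ∀ c, 0 ≤ w c)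
    {F G : (ι → C) → ℝ} (h : ∀ l, F l ≤ G l) : Ex w F ≤ Ex w G :=
  sum_le_sum fun l _ => mul_le_mul_of_nonneg_left (h l) (prod_nonneg fun _ _ => hw _)

lemma abs_Ex_le {w : C → ℝ} (hw : ∀ c, 0 ≤ w c) {n : ℕ} {F : (Fin n → C) → ℝ} {a : ℝ}
    (h : ∀ l, |F l| ≤ a) : |Ex w F| ≤ (∑ x, w x) ^ n * a := by
  rw [abs_le, ← mul_neg, ← Ex_const', ← Ex_const']
  exact ⟨Ex_mono' hw fun l => (abs_le.1 (h l)).1, Ex_mono' hw fun l => (abs_le.1 (h l)).2⟩

/-- Poisson expectation. -/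
noncomputable def PE (w : C → ℝ) (F : ∀ n : ℕ, (Fin n → C) → ℝ) : ℝ :=
  ∑' n : ℕ, Real.exp (-∑ x, w x) / n ! * Ex w (F n)

/-- Linear growth in the number of points. -/
def Gr (F : ∀ n : ℕ, (Fin n → C) → ℝ) : Prop := ∃ A B : ℝ, ∀ n l, |F n l| ≤ A + B * n

omit [Fintype C] in
lemma Gr.add {F G : ∀ n : ℕ, (Fin n → C) → ℝ} (hF : Gr F) (hG : Gr G) :
    Gr fun n l => F n l + G n l := by
  obtain ⟨A, B, h⟩ := hF
  obtain ⟨A', B', h'⟩ := hG
  refine ⟨A + A', B + B', fun n l => (abs_add_le _ _).trans ?_⟩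
  linarith [h n l, h' n l]

omit [Fintype C] in
lemma Gr.const_mul {F : ∀ n : ℕ, (Fin n → C) → ℝ} (hF : Gr F) (c : ℝ) :
    Gr fun n l => c * F n l := by
  obtain ⟨A, B, h⟩ := hF
  refine ⟨|c| * A, |c| * B, fun n l => ?_⟩
  rw [abs_mul, mul_assoc, ← mul_add]
  exact mul_le_mul_of_nonneg_left (h n l) (abs_nonneg _)

omit [Fintype C] in
lemma Gr.const (c : ℝ) : Gr fun (n : ℕ) (_ : Fin n → C) => c := ⟨|c|, 0, fun _ _ => by simp⟩

omit [Fintype C] in
lemma Gr.sum {ι : Type*} (s : Finset ι) {F : ι → ∀ n : ℕ, (Fin n → C) → ℝ}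
    (hF : ∀ i ∈ s, Gr (F i)) : Gr fun n l => ∑ i ∈ s, F i n l := by
  classical
  induction s using Finset.induction_on with
  | empty => simpa using Gr.const (C := C) 0
  | insert a s ha ih =>
    simp only [sum_insert ha]
    exact (hF a (mem_insert_self _ _)).add (ih fun i hi => hF i (mem_insert_of_mem hi))

lemma abs_term_le {w : C → ℝ} (hw : ∀ c, 0 ≤ w c) {F : ∀ n : ℕ, (Fin n → C) → ℝ} {n : ℕ} {a : ℝ}
    (h : ∀ l, |F n l| ≤ a) :
    |Real.exp (-∑ x, w x) / n ! * Ex w (F n)| ≤ poissonWeight (∑ x, w x) n * a := by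
  rw [abs_mul, abs_of_nonneg (by positivity), poissonWeight]
  refine (mul_le_mul_of_nonneg_left (abs_Ex_le hw h) (by positivity)).trans (le_of_eq ?_)
  ring

lemma Gr.summable {w : C → ℝ} (hw : ∀ c, 0 ≤ w c) {F : ∀ n : ℕ, (Fin n → C) → ℝ} (hF : Gr F) :
    Summable fun n : ℕ => Real.exp (-∑ x, w x) / n ! * Ex w (F n) := by
  obtain ⟨A, B, h⟩ := hF
  exact Summable.of_norm_bounded (hasSum_poi_lin (∑ x, w x) A B).summable
    fun n => abs_term_le hw (h n)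

lemma PE_mono {w : C → ℝ} (hw : ∀ c, 0 ≤ w c) {F G : ∀ n : ℕ, (Fin n → C) → ℝ} (hF : Gr F)
    (hG : Gr G) (h : ∀ n l, F n l ≤ G n l) : PE w F ≤ PE w G :=
  (hF.summable hw).tsum_le_tsum
    (fun n => mul_le_mul_of_nonneg_left (Ex_mono' hw (h n)) (by positivity)) (hG.summable hw)

lemma PE_add {w : C → ℝ} (hw : ∀ c, 0 ≤ w c) {F G : ∀ n : ℕ, (Fin n → C) → ℝ} (hF : Gr F)
    (hG : Gr G) : PE w (fun n l => F n l + G n l) = PE w F + PE w G := by
  unfold PE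
  rw [← (hF.summable hw).tsum_add (hG.summable hw)]
  simp only [Ex_add, mul_add]

lemma PE_const_mul (w : C → ℝ) (c : ℝ) (F : ∀ n : ℕ, (Fin n → C) → ℝ) :
    PE w (fun n l => c * F n l) = c * PE w F := by
  unfold PE
  rw [← tsum_mul_left]
  simp only [Ex_const_mul, mul_left_comm]

lemma PE_num (w : C → ℝ) (g : ℕ → ℝ) :
    PE w (fun n _ => g n) = ∑' n, poissonWeight (∑ x, w x) n * g n := by
  unfold PE
  refine tsum_congr fun n => ?_
  rw [Ex_const', poissonWeight]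
  ring

lemma PE_lin (w : C → ℝ) (A B : ℝ) : PE w (fun n _ => A + B * n) = A + B * ∑ x, w x := by
  rw [PE_num w fun n => A + B * n, (hasSum_poi_lin _ A B).tsum_eq]

lemma PE_const (w : C → ℝ) (c : ℝ) : PE w (fun _ _ => c) = c := by
  simpa using PE_lin w c 0

lemma PE_sum {w : C → ℝ} (hw : ∀ c, 0 ≤ w c) {ι : Type*} (s : Finset ι)
    {F : ι → ∀ n : ℕ, (Fin n → C) → ℝ} (hF : ∀ i ∈ s, Gr (F i)) :
    PE w (fun n l => ∑ i ∈ s, F i n l) = ∑ i ∈ s, PE w (F i) := by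
  classical
  induction s using Finset.induction_on with
  | empty => simpa using PE_const w 0
  | insert a s ha ih =>
    simp only [sum_insert ha]
    rw [PE_add hw (hF a (mem_insert_self _ _)) (Gr.sum s fun i hi => hF i (mem_insert_of_mem hi)),
      ih fun i hi => hF i (mem_insert_of_mem hi)]

lemma PE_le_add {w : C → ℝ} (hw : ∀ c, 0 ≤ w c) {F G : ∀ n : ℕ, (Fin n → C) → ℝ} (hF : Gr F)
    (hG : Gr G) {t : ℝ} (h : ∀ n l, F n l ≤ G n l + t) : PE w F ≤ PE w G + t := by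
  have := PE_mono hw hF (hG.add (Gr.const t)) h
  rwa [PE_add hw hG (Gr.const t), PE_const] at this

lemma PE_norm (lam : ℝ) {q : C → ℝ} (hq : ∑ x, q x = 1) (F : ∀ n : ℕ, (Fin n → C) → ℝ) :
    PE (fun c => lam * q c) F = ∑' n, poissonWeight lam n * Ex q (F n) := by
  unfold PE
  refine tsum_congr fun n => ?_
  rw [← mul_sum, hq, mul_one, poissonWeight]
  have : Ex (fun c => lam * q c) (F n) = lam ^ n * Ex q (F n) := by
    simp only [Ex, wt, prod_mul_distrib, prod_const, card_univ, Fintype.card_fin, mul_sum, mul_assoc]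
  rw [this]
  ring

/-- Comparison with a tail error. -/
lemma PE_le_tail {w : C → ℝ} (hw : ∀ c, 0 ≤ w c) {F G : ∀ n : ℕ, (Fin n → C) → ℝ} (hF : Gr F)
    (hG : Gr G) {e A B ε : ℝ} {k₀ : ℕ} (he : 0 ≤ e)
    (h1 : ∀ n ≤ k₀, ∀ l, F n l ≤ G n l + e) (h2 : ∀ n l, F n l ≤ G n l + (A + B * n))
    (ht : ∑' n : ℕ, poissonWeight (∑ x, w x) n * (if n ≤ k₀ then 0 else A + B * n) ≤ ε) :
    PE w F ≤ PE w G + e + ε := by
  have hT : Gr fun (n : ℕ) (_ : Fin n → C) => if n ≤ k₀ then 0 else A + B * n := by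
    refine ⟨|A|, |B|, fun n _ => ?_⟩
    dsimp only
    split_ifs
    · rw [abs_zero]; positivity
    · refine (abs_add_le _ _).trans ?_
      rw [abs_mul, Nat.abs_cast]
  have := PE_le_add hw hF (hG.add hT) (t := e) fun n l => by
    split_ifs with h
    · linarith [h1 n h l]
    · linarith [h2 n l]
  rw [PE_add hw hG hT, PE_num w fun n => if n ≤ k₀ then 0 else A + B * n] at this
  linarith

end PE

/-! ### Poisson jumps -/

section PP

variable {G : Type*} [SeminormedAddCommGroup G] {C : Type*} [Fintype C]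

/-- `1`-Lipschitz functions. -/
def Lip (Φ : G → ℝ) : Prop := ∀ H H', Φ H ≤ Φ H' + ‖H - H'‖

lemma Lip.abs_sub_le {Φ : G → ℝ} (h : Lip Φ) (H H' : G) : |Φ H - Φ H'| ≤ ‖H - H'‖ := by
  have h1 := h H H'
  have h2 := h H' H
  rw [norm_sub_rev] at h2
  rw [abs_le]
  constructor <;> linarith

omit [Fintype C] in
lemma norm_jumps_le {θ : C → G} {L : ℝ} (hθ : ∀ c, ‖θ c‖ ≤ L) {n : ℕ} (l : Fin n → C) :
    ‖∑ k, θ (l k)‖ ≤ L * n := by
  refine (norm_sum_le _ _).trans ((sum_le_sum fun k _ => hθ (l k)).trans ?_)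
  simp [mul_comm]

omit [Fintype C] in
lemma Lip.jump {Φ : G → ℝ} (h : Lip Φ) {θ : C → G} {L : ℝ} (hθ : ∀ c, ‖θ c‖ ≤ L) (H : G) {n : ℕ}
    (l : Fin n → C) : |Φ (H + ∑ k, θ (l k)) - Φ H| ≤ L * n := by
  refine (h.abs_sub_le _ _).trans ?_
  rw [add_sub_cancel_left]
  exact norm_jumps_le hθ l

lemma norm_le_sum (θ : C → G) (c : C) : ‖θ c‖ ≤ ∑ x, ‖θ x‖ :=
  single_le_sum (f := fun x => ‖θ x‖) (fun _ _ => norm_nonneg _) (mem_univ c)

lemma Lip.gr {Φ : G → ℝ} (h : Lip Φ) (θ : C → G) (H : G) :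
    Gr fun n (l : Fin n → C) => Φ (H + ∑ k, θ (l k)) := by
  refine ⟨|Φ H|, ∑ x, ‖θ x‖, fun n l => ?_⟩
  have h1 := h.jump (norm_le_sum θ) H l
  have h2 := abs_sub_abs_le_abs_sub (Φ (H + ∑ k, θ (l k))) (Φ H)
  linarith

/-- Expectation of `Φ` after Poisson jumps. -/
noncomputable def PP (w : C → ℝ) (θ : C → G) (Φ : G → ℝ) (H : G) : ℝ :=
  PE w fun n (l : Fin n → C) => Φ (H + ∑ k, θ (l k))

lemma PP_lip {w : C → ℝ} (hw : ∀ c, 0 ≤ w c) (θ : C → G) {Φ : G → ℝ} (h : Lip Φ) :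
    Lip (PP w θ Φ) := fun H H' =>
  PE_le_add hw (h.gr θ H) (h.gr θ H') fun n l => by
    have := h (H + ∑ k, θ (l k)) (H' + ∑ k, θ (l k))
    rwa [add_sub_add_right_eq_sub] at this

lemma PP_le_add {w : C → ℝ} (hw : ∀ c, 0 ≤ w c) (θ : C → G) {Φ Φ' : G → ℝ} (h : Lip Φ)
    (h' : Lip Φ') {t : ℝ} (hle : ∀ H, Φ H ≤ Φ' H + t) (H : G) : PP w θ Φ H ≤ PP w θ Φ' H + t :=
  PE_le_add hw (h.gr θ H) (h'.gr θ H) fun _ _ => hle _

lemma abs_PP_sub_le {w : C → ℝ} (hw : ∀ c, 0 ≤ w c) {θ : C → G} {L : ℝ} (hθ : ∀ c, ‖θ c‖ ≤ L)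
    {Φ : G → ℝ} (h : Lip Φ) (H : G) : |PP w θ Φ H - Φ H| ≤ L * ∑ x, w x := by
  have g1 : Gr fun (n : ℕ) (_ : Fin n → C) => Φ H + L * n :=
    ⟨|Φ H|, |L|, fun n _ => (abs_add_le _ _).trans (by rw [abs_mul, Nat.abs_cast])⟩
  have g2 : Gr fun (n : ℕ) (_ : Fin n → C) => Φ H + (-L) * n :=
    ⟨|Φ H|, |L|, fun n _ => (abs_add_le _ _).trans (by rw [abs_mul, Nat.abs_cast, abs_neg])⟩
  have h1 := PE_mono hw (h.gr θ H) g1 fun n l => by linarith [(abs_le.1 (h.jump hθ H l)).2]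
  have h2 := PE_mono hw g2 (h.gr θ H) fun n l => by linarith [(abs_le.1 (h.jump hθ H l)).1]
  rw [PE_lin] at h1 h2
  unfold PP
  rw [abs_le]
  constructor <;> linarith

/-- The one-jump operator. -/
noncomputable def Qop (w : C → ℝ) (θ : C → G) : Module.End ℝ (G → ℝ) where
  toFun Φ := fun H => ∑ c, w c * Φ (H + θ c)
  map_add' Φ Φ' := by
    funext H
    simp only [Pi.add_apply, mul_add, sum_add_distrib]
  map_smul' a Φ := by
    funext H
    simp only [Pi.smul_apply, smul_eq_mul, RingHom.id_apply, mul_sum, mul_left_comm]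

lemma Qop_apply (w : C → ℝ) (θ : C → G) (Φ : G → ℝ) (H : G) :
    Qop w θ Φ H = ∑ c, w c * Φ (H + θ c) := rfl

lemma Qop_pow (w : C → ℝ) (θ : C → G) (n : ℕ) (Φ : G → ℝ) (H : G) :
    (Qop w θ ^ n) Φ H = Ex w fun l : Fin n → C => Φ (H + ∑ k, θ (l k)) := by
  induction n generalizing H with
  | zero => simp [Ex, wt]
  | succ n ih =>
    rw [pow_succ', Module.End.mul_apply, Qop_apply]
    simp only [ih, Ex, wt, mul_sum]
    rw [← Fintype.sum_prod_type']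
    refine Fintype.sum_equiv (Fin.consEquiv fun _ => C) _ _ fun x => ?_
    simp only [Fin.consEquiv_apply, Fin.prod_univ_succ, Fin.sum_univ_succ, Fin.cons_zero,
      Fin.cons_succ, mul_assoc, add_assoc]

lemma Qop_commute {C' : Type*} [Fintype C'] (w : C → ℝ) (θ : C → G) (w' : C' → ℝ) (θ' : C' → G) :
    Commute (Qop w θ) (Qop w' θ') := by
  refine LinearMap.ext fun Φ => funext fun H => ?_
  simp only [Module.End.mul_apply, Qop_apply, mul_sum]
  rw [sum_comm]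
  refine sum_congr rfl fun c' _ => sum_congr rfl fun c _ => ?_
  rw [add_right_comm, mul_left_comm]

lemma PP_eq (w : C → ℝ) (θ : C → G) (Φ : G → ℝ) (H : G) :
    PP w θ Φ H = ∑' n : ℕ, Real.exp (-∑ x, w x) / n ! * (Qop w θ ^ n) Φ H := by
  simp only [Qop_pow, PP, PE]

/-- Superposition of Poisson families. -/
theorem PP_super {C₁ C₂ : Type*} [Fintype C₁] [Fintype C₂] {w : C → ℝ} {θ : C → G}
    {w₁ : C₁ → ℝ} {θ₁ : C₁ → G} {w₂ : C₂ → ℝ} {θ₂ : C₂ → G} (hw₁ : ∀ c, 0 ≤ w₁ c)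
    (hw₂ : ∀ c, 0 ≤ w₂ c)
    (hQ : ∀ F : G → ℝ, ∑ c, w c * F (θ c) = ∑ c, w₁ c * F (θ₁ c) + ∑ c, w₂ c * F (θ₂ c))
    {Φ : G → ℝ} (h : Lip Φ) (H : G) : PP w θ Φ H = PP w₁ θ₁ (PP w₂ θ₂ Φ) H := by
  have hQ' : Qop w θ = Qop w₁ θ₁ + Qop w₂ θ₂ :=
    LinearMap.ext fun Φ => funext fun H => hQ fun x => Φ (H + x)
  have hlam : ∑ c, w c = ∑ c, w₁ c + ∑ c, w₂ c := by simpa using hQ fun _ => 1
  set l₁ := ∑ c, w₁ c with hl₁
  set l₂ := ∑ c, w₂ c with hl₂
  have hl₁0 : 0 ≤ l₁ := sum_nonneg fun c _ => hw₁ c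
  have hl₂0 : 0 ≤ l₂ := sum_nonneg fun c _ => hw₂ c
  set L₁ := ∑ c, ‖θ₁ c‖ with hL₁
  set L₂ := ∑ c, ‖θ₂ c‖ with hL₂
  have hL₁0 : 0 ≤ L₁ := sum_nonneg fun c _ => norm_nonneg _
  have hL₂0 : 0 ≤ L₂ := sum_nonneg fun c _ => norm_nonneg _
  set a : ℕ × ℕ → ℝ := fun x => Real.exp (-l₁) / x.1 ! *
    (Real.exp (-l₂) / x.2 ! * (Qop w₁ θ₁ ^ x.1) ((Qop w₂ θ₂ ^ x.2) Φ) H) with ha
  have hbound : ∀ x : ℕ × ℕ, ‖a x‖ ≤ (poissonWeight l₁ x.1 * (|Φ H| + 1 + L₁ * x.1)) *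
      (poissonWeight l₂ x.2 * (1 + L₂ * x.2)) := by
    rintro ⟨m, n⟩
    have h1 : |(Qop w₁ θ₁ ^ m) ((Qop w₂ θ₂ ^ n) Φ) H| ≤
        l₁ ^ m * (l₂ ^ n * ((|Φ H| + 1 + L₁ * m) * (1 + L₂ * n))) := by
      rw [Qop_pow]
      refine abs_Ex_le hw₁ fun l => ?_
      rw [Qop_pow]
      refine abs_Ex_le hw₂ fun l' => ?_
      have e1 := h.jump (norm_le_sum θ₁) H l
      have e2 := h.jump (norm_le_sum θ₂) (H + ∑ k, θ₁ (l k)) l'
      have e3 := abs_sub_abs_le_abs_sub (Φ (H + ∑ k, θ₁ (l k))) (Φ H)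
      have e4 := abs_sub_abs_le_abs_sub (Φ (H + ∑ k, θ₁ (l k) + ∑ k, θ₂ (l' k)))
        (Φ (H + ∑ k, θ₁ (l k)))
      have e5 : 0 ≤ (|Φ H| + L₁ * m) * (L₂ * n) := by positivity
      rw [← hL₁] at e1
      rw [← hL₂] at e2
      nlinarith
    simp only [ha, Real.norm_eq_abs, abs_mul, poissonWeight]
    rw [abs_of_nonneg (by positivity), abs_of_nonneg (by positivity)]
    refine (mul_le_mul_of_nonneg_left (mul_le_mul_of_nonneg_left h1 (by positivity))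
      (by positivity)).trans (le_of_eq ?_)
    ring
  have hsum : Summable a := by
    refine Summable.of_norm_bounded ?_ hbound
    refine Summable.mul_of_nonneg (hasSum_poi_lin l₁ _ _).summable (hasSum_poi_lin l₂ _ _).summable
      (fun m => ?_) fun n => ?_
    · exact mul_nonneg (poi_nonneg hl₁0 m) (by positivity)
    · exact mul_nonneg (poi_nonneg hl₂0 n) (by positivity)
  have e1 : PP w₁ θ₁ (PP w₂ θ₂ Φ) H = ∑' x, a x := by
    rw [hsum.tsum_prod, PP_eq]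
    refine tsum_congr fun m => ?_
    simp only [ha]
    rw [tsum_mul_left, ← hl₁]
    congr 1
    simp only [Qop_pow w₁, Ex, mul_sum]
    rw [Summable.tsum_finsetSum]
    · refine sum_congr rfl fun l _ => ?_
      rw [PP_eq, ← tsum_mul_left]
      exact tsum_congr fun n => by ring
    · intro l _
      have := ((h.gr θ₂ (H + ∑ k, θ₁ (l k))).summable hw₂).mul_left (wt w₁ l)
      refine this.congr fun n => ?_
      rw [Qop_pow]
      ring
  rw [e1, PP_eq, ← Finset.HasAntidiagonal.sigmaAntidiagonalEquivProd.tsum_eq a]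
  refine Eq.trans ?_ ((Finset.HasAntidiagonal.sigmaAntidiagonalEquivProd.summable_iff.2
    hsum).tsum_sigma' (fun n => (hasSum_fintype _).summable)).symm
  refine tsum_congr fun n => ?_
  rw [tsum_fintype]
  simp only [Function.comp, Finset.HasAntidiagonal.sigmaAntidiagonalEquivProd_apply]
  rw [Finset.sum_coe_sort (antidiagonal n) a, hQ', (Qop_commute w₁ θ₁ w₂ θ₂).add_pow', hlam,
    LinearMap.sum_apply, Finset.sum_apply, mul_sum]
  refine sum_congr rfl fun x hx => ?_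
  have hx' : x.1 + x.2 = n := mem_antidiagonal.1 hx
  rw [LinearMap.smul_apply, Pi.smul_apply, Module.End.mul_apply, nsmul_eq_mul]
  simp only [ha]
  rw [← hx', Nat.cast_add_choose, neg_add, Real.exp_add]
  field_simp

lemma abs_PP_sub_PP_le {C₁ C₂ : Type*} [Fintype C₁] [Fintype C₂] {w : C → ℝ} {θ : C → G}
    {w₁ : C₁ → ℝ} {θ₁ : C₁ → G} {w₂ : C₂ → ℝ} {θ₂ : C₂ → G} (hw₁ : ∀ c, 0 ≤ w₁ c)
    (hw₂ : ∀ c, 0 ≤ w₂ c)
    (hQ : ∀ F : G → ℝ, ∑ c, w c * F (θ c) = ∑ c, w₁ c * F (θ₁ c) + ∑ c, w₂ c * F (θ₂ c))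
    {L : ℝ} (hθ : ∀ c, ‖θ₂ c‖ ≤ L) {Φ : G → ℝ} (h : Lip Φ) (H : G) :
    |PP w θ Φ H - PP w₁ θ₁ Φ H| ≤ L * ∑ c, w₂ c := by
  rw [PP_super hw₁ hw₂ hQ h]
  have h1 := PP_le_add hw₁ θ₁ (PP_lip hw₂ θ₂ h) h (t := L * ∑ c, w₂ c)
    (fun H => by linarith [(abs_le.1 (abs_PP_sub_le hw₂ hθ h H)).2]) H
  have h2 := PP_le_add hw₁ θ₁ h (PP_lip hw₂ θ₂ h) (t := L * ∑ c, w₂ c)
    (fun H => by linarith [(abs_le.1 (abs_PP_sub_le hw₂ hθ h H)).1]) H
  rw [abs_le]
  constructor <;> linarith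

/-- Increasing the rate by `t' - t` changes the expectation by at most `L (t' - t)`. -/
lemma abs_PP_rate_le {q : C → ℝ} (hq : ∀ c, 0 ≤ q c) {θ : C → G} {L : ℝ}
    (hθ : ∀ c, ‖θ c‖ ≤ L) {t t' : ℝ} (ht : 0 ≤ t) (htt : t ≤ t') {Φ : G → ℝ} (h : Lip Φ) (H : G) :
    |PP (fun c => t' * q c) θ Φ H - PP (fun c => t * q c) θ Φ H| ≤ L * ((t' - t) * ∑ c, q c) := by
  rw [mul_sum]
  refine abs_PP_sub_PP_le (w₂ := fun c => (t' - t) * q c) (θ₂ := θ)
    (fun c => mul_nonneg ht (hq c)) (fun c => mul_nonneg (by linarith) (hq c)) (fun F => ?_) hθ h H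
  rw [← sum_add_distrib]
  exact sum_congr rfl fun c _ => by ring

end PP

end Crest.Agent.R141.Ass
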