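import Crest.Agent.R141.Defs
import Crest.Agent.Lib.ProdProb

/-!
Row 141, part A: bounds and multiplicativity for finite trials.
-/

set_option autoImplicit false

namespace Crest.Agent.R141.Ass

open Crest.ProbabilityR.Diluted Finset Crest.Agent.PP
open scoped BigOperators

section kernels

variable {L S : Type*} [Fintype L] [DecidableEq L] [Fintype S]

lemma sum_prod_eq_one {q : L → S → ℝ} (hq : ∀ l, ∑ s, q l s = 1) :
    ∑ t : L → S, ∏ l, q l (t l) = 1 := by
  have := Finset.prod_univ_sum (fun _ : L => (univ : Finset S)) q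
  rw [Fintype.piFinset_univ] at this
  rw [← this]
  simp [hq]

lemma sum_prod_le {q : L → S → ℝ} (h0 : ∀ l s, 0 ≤ q l s) (hq : ∀ l, ∑ s, q l s = 1)
    {F : (L → S) → ℝ} {a : ℝ} (hF : ∀ t, F t ≤ a) : ∑ t : L → S, (∏ l, q l (t l)) * F t ≤ a := by
  calc ∑ t : L → S, (∏ l, q l (t l)) * F t ≤ ∑ t : L → S, (∏ l, q l (t l)) * a :=
        sum_le_sum fun t _ => mul_le_mul_of_nonneg_left (hF t) (prod_nonneg fun _ _ => h0 _ _)
    _ = a := by rw [← sum_mul, sum_prod_eq_one hq, one_mul]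

lemma le_sum_prod {q : L → S → ℝ} (h0 : ∀ l s, 0 ≤ q l s) (hq : ∀ l, ∑ s, q l s = 1)
    {F : (L → S) → ℝ} {a : ℝ} (hF : ∀ t, a ≤ F t) : a ≤ ∑ t : L → S, (∏ l, q l (t l)) * F t := by
  have := sum_prod_le h0 hq (F := fun t => -F t) (a := -a) fun t => neg_le_neg (hF t)
  simp only [mul_neg, sum_neg_distrib] at this
  linarith

lemma sum_prod_pos {q : L → S → ℝ} (h0 : ∀ l s, 0 ≤ q l s) (hq : ∀ l, ∑ s, q l s = 1)
    {F : (L → S) → ℝ} (hF : ∀ t, 0 < F t) : 0 < ∑ t : L → S, (∏ l, q l (t l)) * F t := by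
  have hne : Nonempty (L → S) := by
    by_contra h
    rw [not_nonempty_iff] at h
    have := sum_prod_eq_one hq
    simp at this
  obtain ⟨t₀, ht₀⟩ := Finite.exists_min F
  exact (hF t₀).trans_le (le_sum_prod h0 hq ht₀)

lemma sum_curry_prod {I : Type*} [Fintype I] [DecidableEq I] (q : I × L → S → ℝ)
    (F : I → (L → S) → ℝ) :
    ∑ s : I × L → S, (∏ x, q x (s x)) * ∏ i, F i (fun l => s (i, l)) =
      ∏ i, ∑ t : L → S, (∏ l, q (i, l) (t l)) * F i t := by
  rw [Finset.prod_univ_sum, Fintype.piFinset_univ]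
  refine Fintype.sum_equiv (Equiv.curry I L S) _ _ fun s => ?_
  rw [Fintype.prod_prod_type, ← prod_mul_distrib]
  rfl

end kernels

section trial

variable (T : FT) {L : Type} [Fintype L] [DecidableEq L]

lemma nm_pos (mm : ℕ → ℝ) {Z : (L → T.S) → ℝ} (hZ : ∀ s, 0 < Z s) (d : ℕ) (s : L → T.S) :
    0 < nm (fun d => pk (T.κ d)) mm Z d s := by
  induction d generalizing s with
  | zero => exact hZ s
  | succ d ih =>
    rw [nm_succ]
    refine Real.rpow_pos_of_pos ?_ _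
    exact sum_prod_pos (q := fun l s' => T.κ d (s l) s') (fun _ _ => T.κ_nonneg _ _ _)
      (fun _ => T.κ_sum _ _) fun t => Real.rpow_pos_of_pos (ih t) _

lemma nm_bounds {mm : ℕ → ℝ} (hm : ∀ d, 0 < mm d) {Z : (L → T.S) → ℝ} {lo hi : ℝ} (hlo : 0 < lo)
    (hZ : ∀ s, lo ≤ Z s ∧ Z s ≤ hi) (d : ℕ) (s : L → T.S) :
    lo ≤ nm (fun d => pk (T.κ d)) mm Z d s ∧ nm (fun d => pk (T.κ d)) mm Z d s ≤ hi := by
  induction d generalizing s with
  | zero => exact hZ s
  | succ d ih =>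
    have hhi : 0 < hi := hlo.trans_le ((hZ s).1.trans (hZ s).2)
    have h1 : lo ^ mm d ≤ pk (T.κ d) (fun ω' => nm (fun d => pk (T.κ d)) mm Z d ω' ^ mm d) s :=
      le_sum_prod (q := fun l s' => T.κ d (s l) s') (fun _ _ => T.κ_nonneg _ _ _)
        (fun _ => T.κ_sum _ _) fun t => Real.rpow_le_rpow hlo.le (ih t).1 (hm d).le
    have h2 : pk (T.κ d) (fun ω' => nm (fun d => pk (T.κ d)) mm Z d ω' ^ mm d) s ≤ hi ^ mm d :=
      sum_prod_le (q := fun l s' => T.κ d (s l) s') (fun _ _ => T.κ_nonneg _ _ _)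
        (fun _ => T.κ_sum _ _) fun t =>
          Real.rpow_le_rpow (hlo.le.trans (ih t).1) (ih t).2 (hm d).le
    have hp : 0 ≤ 1 / mm d := (one_div_pos.2 (hm d)).le
    have h0 : 0 ≤ lo ^ mm d := Real.rpow_nonneg hlo.le _
    rw [nm_succ]
    constructor
    · refine le_trans (le_of_eq ?_) (Real.rpow_le_rpow h0 h1 hp)
      rw [one_div, Real.rpow_rpow_inv hlo.le (hm d).ne']
    · refine (Real.rpow_le_rpow (h0.trans h1) h2 hp).trans (le_of_eq ?_)
      rw [one_div, Real.rpow_rpow_inv hhi.le (hm d).ne']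

lemma mrev_pos {r : ℕ} {m : Fin r → ℝ} (hm : AdmissibleExponents m) (d : ℕ) : 0 < mrev m d := by
  unfold mrev
  split_ifs
  · exact (hm.2 _).1
  · exact one_pos

lemma abs_val_le {r : ℕ} {m : Fin r → ℝ} (hm : AdmissibleExponents m) {W : (L → ℝ) → ℝ} {a : ℝ}
    (hW : ∀ x, Real.exp (-a) ≤ W x ∧ W x ≤ Real.exp a) : |T.val m L W| ≤ a := by
  have h := nm_bounds T (mrev_pos hm) (Z := fun s' : L → T.S => W fun l => T.x (s' l))
    (Real.exp_pos _) (fun s => hW _) r
  rw [abs_le]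
  constructor
  · refine le_sum_prod (q := fun _ s => T.init s) (fun _ _ => T.init_nonneg _)
      (fun _ => T.init_sum) fun s => ?_
    rw [Real.le_log_iff_exp_le ((Real.exp_pos _).trans_le (h s).1)]
    exact (h s).1
  · refine sum_prod_le (q := fun _ s => T.init s) (fun _ _ => T.init_nonneg _)
      (fun _ => T.init_sum) fun s => ?_
    rw [Real.log_le_iff_le_exp ((Real.exp_pos _).trans_le (h s).1)]
    exact (h s).2

lemma nm_prod {I : Type} [Fintype I] [DecidableEq I] (mm : ℕ → ℝ) {Z : I → (L → T.S) → ℝ}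
    (hZ : ∀ i s, 0 < Z i s) (d : ℕ) (s : I × L → T.S) :
    nm (fun d => pk (T.κ d)) mm (fun s' : I × L → T.S => ∏ i, Z i fun l => s' (i, l)) d s =
      ∏ i, nm (fun d => pk (T.κ d)) mm (Z i) d fun l => s (i, l) := by
  induction d generalizing s with
  | zero => rfl
  | succ d ih =>
    simp only [nm_succ, ih]
    rw [Real.finsetProd_rpow _ _ fun i _ => ?_]
    · congr 1
      unfold pk
      rw [← sum_curry_prod (fun x s' => T.κ d (s x) s')
        fun i t => nm (fun d => fun F s => ∑ s' : L → T.S, (∏ l, T.κ d (s l) (s' l)) * F s')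
          mm (Z i) d t ^ mm d]
      refine sum_congr rfl fun s' _ => ?_
      rw [Real.finsetProd_rpow _ _ fun i _ => ?_]
      exact (nm_pos T mm (hZ i) d _).le
    · exact (sum_prod_pos (q := fun l s' => T.κ d (s (i, l)) s') (fun _ _ => T.κ_nonneg _ _ _)
        (fun _ => T.κ_sum _ _) fun t => Real.rpow_pos_of_pos (nm_pos T mm (hZ i) d t) _).le

lemma val_prod {I : Type} [Fintype I] [DecidableEq I] {r : ℕ} (m : Fin r → ℝ)
    {W : I → (L → ℝ) → ℝ} (hW : ∀ i x, 0 < W i x) :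
    T.val m (I × L) (fun x => ∏ i, W i fun l => x (i, l)) = ∑ i, T.val m L (W i) := by
  have hp : IsProb T.init := ⟨T.init_nonneg, T.init_sum⟩
  have h1 := nm_prod T (mrev m) (Z := fun i (s' : L → T.S) => W i fun l => T.x (s' l))
    (fun i s => hW i _) r
  change Ex T.init (fun s : I × L → T.S => Real.log (nm (fun d => pk (T.κ d)) (mrev m)
    (fun s' : I × L → T.S => ∏ i, W i fun l => T.x (s' (i, l))) r s)) =
    ∑ i, Ex T.init fun s : L → T.S => Real.log (nm (fun d => pk (T.κ d)) (mrev m)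
      (fun s' => W i fun l => T.x (s' l)) r s)
  simp only [h1]
  have h2 : ∀ s : I × L → T.S, Real.log (∏ i, nm (fun d => pk (T.κ d)) (mrev m)
      (fun s' : L → T.S => W i fun l => T.x (s' l)) r fun l => s (i, l)) =
      ∑ i, Real.log (nm (fun d => pk (T.κ d)) (mrev m)
        (fun s' : L → T.S => W i fun l => T.x (s' l)) r fun l => s (i, l)) := fun s =>
    Real.log_prod fun i _ => (nm_pos T _ (fun s => hW i _) r _).ne'
  simp only [h2, Ex_sum]
  refine sum_congr rfl fun i _ => ?_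
  exact Ex_inj hp (fun l : L => (i, l)) (fun a b h => (Prod.ext_iff.1 h).2)
    fun s : L → T.S => Real.log (nm (fun d => pk (T.κ d)) (mrev m)
      (fun s' => W i fun l => T.x (s' l)) r s)

end trial

section bar

lemma tilt_pos (x : ℝ) (s : Bool) : 0 < tilt x s :=
  div_pos (Real.exp_pos _) (mul_pos two_pos (Real.cosh_pos _))

lemma tilt_sum (x : ℝ) : ∑ s, tilt x s = 1 := by
  have := (Real.cosh_pos x).ne'
  simp only [Fintype.sum_bool, tilt, spinVal, if_true, Bool.false_eq_true, if_false, mul_one,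
    mul_neg]
  rw [← add_div, div_eq_one_iff_eq (by positivity), Real.cosh_eq]
  ring

variable {L : Type} [Fintype L] [DecidableEq L]

lemma bar_eq (V : (L → Bool) → ℝ) (x : L → ℝ) :
    bar V x = ∑ σ : L → Bool, (∏ l, tilt (x l) (σ l)) * V σ :=
  sum_congr rfl fun _ _ => mul_comm _ _

lemma bar_bounds {V : (L → Bool) → ℝ} {lo hi : ℝ} (hV : ∀ σ, lo ≤ V σ ∧ V σ ≤ hi) (x : L → ℝ) :
    lo ≤ bar V x ∧ bar V x ≤ hi := by
  rw [bar_eq]
  exact ⟨le_sum_prod (q := fun l s => tilt (x l) s) (fun _ _ => (tilt_pos _ _).le)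
      (fun _ => tilt_sum _) fun σ => (hV σ).1,
    sum_prod_le (q := fun l s => tilt (x l) s) (fun _ _ => (tilt_pos _ _).le)
      (fun _ => tilt_sum _) fun σ => (hV σ).2⟩

/-- The weight of `k` extra clauses on cavity spins. -/
noncomputable def Vedge {p k : ℕ} (θs : Fin k → Inter p) (τ : Fin k × Fin p → Bool) : ℝ :=
  Real.exp (∑ j, θs j fun ℓ => τ (j, ℓ))

/-- The weight of a new spin with field `h` and `k` clauses on cavity spins. -/
noncomputable def Vsite {p k : ℕ} (h : ℝ) (θs : Fin k → Inter p)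
    (τ : Fin k × Fin (p - 1) → Bool) : ℝ :=
  (1 / 2) * ∑ ε : Bool, Real.exp (h * spinVal ε +
    ∑ j, θs j fun ℓ => if hl : ℓ.val < p - 1 then τ (j, ⟨ℓ.val, hl⟩) else ε)

lemma edgeTerm_pos {p : ℕ} (θ : Inter p) (x : Fin p → ℝ) : 0 < edgeTerm θ x :=
  sum_pos (fun _ _ => mul_pos (Real.exp_pos _) (prod_pos fun _ _ => tilt_pos _ _)) univ_nonempty

lemma bar_Vedge {p k : ℕ} (θs : Fin k → Inter p) :
    bar (Vedge θs) = fun x => ∏ j, edgeTerm (θs j) fun ℓ => x (j, ℓ) := by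
  funext x
  rw [bar_eq]
  simp only [Vedge, Real.exp_sum]
  rw [sum_curry_prod (fun y s => tilt (x y) s) fun j t => Real.exp (θs j t)]
  exact prod_congr rfl fun j _ => sum_congr rfl fun _ _ => mul_comm _ _

lemma bar_Vsite {p k : ℕ} (h : ℝ) (θs : Fin k → Inter p) :
    bar (Vsite h θs) = fun x => siteTerm h θs fun j ℓ => x (j, ℓ) := by
  funext x
  rw [bar_eq]
  simp only [Vsite, siteTerm, Real.exp_add, Real.exp_sum]
  simp only [mul_left_comm _ (1 / 2 : ℝ), ← mul_sum]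
  congr 1
  simp only [mul_sum]
  rw [sum_comm]
  refine sum_congr rfl fun ε _ => ?_
  simp only [mul_left_comm _ (Real.exp (h * spinVal ε)), ← mul_sum]
  congr 1
  rw [sum_curry_prod (fun y s => tilt (x y) s) fun j (t : Fin (p - 1) → Bool) =>
    Real.exp (θs j fun ℓ => if hl : ℓ.val < p - 1 then t ⟨ℓ.val, hl⟩ else ε)]
  refine prod_congr rfl fun j _ => ?_
  rw [siteMessage, Real.exp_log]
  · exact sum_congr rfl fun _ _ => mul_comm _ _
  · exact sum_pos (fun _ _ => mul_pos (Real.exp_pos _) (prod_pos fun _ _ => tilt_pos _ _))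
      univ_nonempty

lemma abs_sum_inter_le {p k : ℕ} {θs : Fin k → Inter p} {L : ℝ} (hθ : ∀ j s, |θs j s| ≤ L)
    (t : Fin k → Fin p → Bool) : |∑ j, θs j (t j)| ≤ L * k := by
  refine (abs_sum_le_sum_abs _ _).trans ((sum_le_sum fun j _ => hθ j (t j)).trans ?_)
  simp [mul_comm]

lemma Vedge_bounds {p k : ℕ} {θs : Fin k → Inter p} {L a : ℝ} (hθ : ∀ j s, |θs j s| ≤ L)
    (ha : L * k ≤ a) (τ : Fin k × Fin p → Bool) :
    Real.exp (-a) ≤ Vedge θs τ ∧ Vedge θs τ ≤ Real.exp a := by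
  have := abs_le.1 (abs_sum_inter_le hθ fun j ℓ => τ (j, ℓ))
  exact ⟨Real.exp_le_exp.2 (by linarith), Real.exp_le_exp.2 (by linarith)⟩

lemma Vsite_bounds {p k : ℕ} {h : ℝ} {θs : Fin k → Inter p} {L a : ℝ} (hθ : ∀ j s, |θs j s| ≤ L)
    (ha : |h| + L * k ≤ a) (τ : Fin k × Fin (p - 1) → Bool) :
    Real.exp (-a) ≤ Vsite h θs τ ∧ Vsite h θs τ ≤ Real.exp a := by
  have key : ∀ ε : Bool, Real.exp (-a) ≤ Real.exp (h * spinVal ε +
      ∑ j, θs j fun ℓ => if hl : ℓ.val < p - 1 then τ (j, ⟨ℓ.val, hl⟩) else ε) ∧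
      Real.exp (h * spinVal ε +
      ∑ j, θs j fun ℓ => if hl : ℓ.val < p - 1 then τ (j, ⟨ℓ.val, hl⟩) else ε) ≤ Real.exp a := by
    intro ε
    have h1 := abs_le.1 (abs_sum_inter_le hθ
      fun j ℓ => if hl : ℓ.val < p - 1 then τ (j, ⟨ℓ.val, hl⟩) else ε)
    have h2 : |h * spinVal ε| ≤ |h| := by cases ε <;> simp [spinVal]
    have h3 := abs_le.1 h2
    exact ⟨Real.exp_le_exp.2 (by linarith), Real.exp_le_exp.2 (by linarith)⟩
  have h1 := key true
  have h2 := key false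
  rw [Vsite, Fintype.sum_bool]
  constructor <;> linarith

end bar

end Crest.Agent.R141.Ass
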