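import Crest.Agent.R141.Ass1
import Crest.Agent.R141.Ass2

/-!
Row 141, part A: the pinned functional and the averaged cavity lemma.
-/

set_option autoImplicit false

namespace Crest.Agent.R141.Ass

open Crest.ProbabilityR.Diluted Finset Crest.Agent.PP
open scoped BigOperators

/-- The pinning data of the cavity lemma. -/
structure Pins where
  K : ℕ
  X : Type
  P : Type
  [fin : Fintype P]
  [ne : Nonempty P]
  Ψ : P → (X → ℝ) → ℝ
  pin : P → X → (Fin K → Bool) → ℝ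
  c : ℝ
  c_pos : 0 < c
  pin_bd : ∀ π x σ, c ≤ pin π x σ ∧ pin π x σ ≤ 1
  Ψ_one : ∀ π, Ψ π (fun _ => 1) = 0
  Ψ_lip : ∀ π (F G : X → ℝ) (t : ℝ), (∀ x, 0 < F x) → (∀ x, F x ≤ Real.exp t * G x) →
    Ψ π F ≤ t + Ψ π G

attribute [instance] Pins.fin Pins.ne

lemma expect_inj_le {α β : Type*} [Fintype α] [Fintype β] [Nonempty α] (j : α → β)
    (hj : Function.Injective j) {f : β → ℝ} {lo M : ℝ} (hf : ∀ b, lo ≤ f b ∧ f b ≤ lo + M) :
    𝔼 a, f (j a) ≤ 𝔼 b, f b + (1 - (Fintype.card α : ℝ) / Fintype.card β) * M := by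
  classical
  have : Nonempty β := ⟨j (Classical.arbitrary α)⟩
  have ha : (0 : ℝ) < Fintype.card α := by exact_mod_cast Fintype.card_pos
  have hb : (0 : ℝ) < Fintype.card β := by exact_mod_cast Fintype.card_pos
  have hab : (Fintype.card α : ℝ) ≤ Fintype.card β := by
    exact_mod_cast Fintype.card_le_of_injective j hj
  have h1 : ∑ a, (f (j a) - lo) ≤ ∑ b, (f b - lo) := by
    rw [← sum_image (s := univ) (g := j) (f := fun b => f b - lo) fun a _ b _ h => hj h]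
    exact sum_le_sum_of_subset_of_nonneg (subset_univ _) fun b _ _ => by linarith [(hf b).1]
  have h2 : 𝔼 a, f (j a) ≤ lo + M := expect_le univ_nonempty fun a _ => (hf _).2
  simp only [sum_sub_distrib, sum_const, card_univ, nsmul_eq_mul] at h1
  rw [← Fintype.card_mul_expect, ← Fintype.card_mul_expect] at h1
  set A := 𝔼 a, f (j a)
  set B := 𝔼 b, f b
  have h3 : (Fintype.card α : ℝ) / Fintype.card β * (A - lo) ≤ B - lo := by
    rw [div_mul_eq_mul_div, div_le_iff₀ hb]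
    linarith
  have h4 : (Fintype.card α : ℝ) / Fintype.card β ≤ 1 := (div_le_one hb).2 hab
  have h5 := mul_le_mul_of_nonneg_left (show A - lo ≤ M by linarith) (sub_nonneg.2 h4)
  linarith

namespace Pins

variable (D : Pins)

/-- The pinned functional for given pins. -/
noncomputable def φ {N : ℕ} (π : D.P) (u : Fin D.K → Fin N) (Y : (Fin N → Bool) → ℝ) : ℝ :=
  D.Ψ π fun x => 𝔼 σ : Fin N → Bool, Y σ * D.pin π x fun k => σ (u k)

lemma pin_pos (π : D.P) (x : D.X) (σ : Fin D.K → Bool) : 0 < D.pin π x σ :=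
  D.c_pos.trans_le (D.pin_bd π x σ).1

lemma φ_le {N : ℕ} (π : D.P) (u : Fin D.K → Fin N) {Y Y' : (Fin N → Bool) → ℝ} {t : ℝ}
    (hY : ∀ σ, 0 < Y σ) (h : ∀ σ, Y σ ≤ Real.exp t * Y' σ) : D.φ π u Y ≤ t + D.φ π u Y' := by
  refine D.Ψ_lip π _ _ t (fun x => expect_pos (fun σ _ => mul_pos (hY σ) (D.pin_pos _ _ _))
    univ_nonempty) fun x => ?_
  rw [mul_expect]
  refine expect_le_expect fun σ _ => ?_
  rw [← mul_assoc]
  exact mul_le_mul_of_nonneg_right (h σ) (D.pin_pos _ _ _).le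

lemma φ_bounds {N : ℕ} (π : D.P) (u : Fin D.K → Fin N) {Y : (Fin N → Bool) → ℝ}
    (hY : ∀ σ, 0 < Y σ) :
    Real.log (𝔼 σ, Y σ) + Real.log D.c ≤ D.φ π u Y ∧ D.φ π u Y ≤ Real.log (𝔼 σ, Y σ) := by
  have h0 : 0 < 𝔼 σ, Y σ := expect_pos (fun σ _ => hY σ) univ_nonempty
  constructor
  · have := D.Ψ_lip π (fun _ => 1) (fun x => 𝔼 σ : Fin N → Bool, Y σ * D.pin π x fun k => σ (u k))
      (-(Real.log (𝔼 σ, Y σ) + Real.log D.c)) (fun _ => one_pos) fun x => by
        rw [Real.exp_neg, Real.exp_add, Real.exp_log h0, Real.exp_log D.c_pos,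
          le_inv_mul_iff₀ (mul_pos h0 D.c_pos), mul_one, expect_mul]
        exact expect_le_expect fun σ _ =>
          mul_le_mul_of_nonneg_left (D.pin_bd π x _).1 (hY σ).le
    rw [D.Ψ_one] at this
    unfold φ
    linarith
  · have := D.Ψ_lip π (fun x => 𝔼 σ : Fin N → Bool, Y σ * D.pin π x fun k => σ (u k)) (fun _ => 1)
      (Real.log (𝔼 σ, Y σ)) (fun x => expect_pos
        (fun σ _ => mul_pos (hY σ) (D.pin_pos _ _ _)) univ_nonempty) fun x => by
        rw [Real.exp_log h0, mul_one]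
        exact expect_le_expect fun σ _ => mul_le_of_le_one_right (hY σ).le (D.pin_bd π x _).2
    rw [D.Ψ_one, add_zero] at this
    exact this

/-- The pinned functional averaged over the pins. -/
noncomputable def Φm {N : ℕ} (Y : (Fin N → Bool) → ℝ) : ℝ :=
  𝔼 π, 𝔼 u : Fin D.K → Fin N, D.φ π u Y

lemma Φm_le {N : ℕ} [NeZero N] {Y Y' : (Fin N → Bool) → ℝ} {t : ℝ}
    (hY : ∀ σ, 0 < Y σ) (h : ∀ σ, Y σ ≤ Real.exp t * Y' σ) : D.Φm Y ≤ t + D.Φm Y' := by
  have : t + D.Φm Y' = 𝔼 π, 𝔼 u : Fin D.K → Fin N, (t + D.φ π u Y') := by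
    simp only [expect_add_distrib, Fintype.expect_const, Φm]
  rw [this]
  exact expect_le_expect fun π _ => expect_le_expect fun u _ => D.φ_le π u hY h

lemma Φm_le_log {N : ℕ} [NeZero N] {Y : (Fin N → Bool) → ℝ} (hY : ∀ σ, 0 < Y σ) :
    D.Φm Y ≤ Real.log (𝔼 σ, Y σ) :=
  expect_le univ_nonempty fun π _ => expect_le univ_nonempty fun u _ => (D.φ_bounds π u hY).2

lemma abs_Φm_sub_le {N : ℕ} [NeZero N] {Y V : (Fin N → Bool) → ℝ} {a : ℝ}
    (hY : ∀ σ, 0 < Y σ) (hV : ∀ σ, Real.exp (-a) ≤ V σ ∧ V σ ≤ Real.exp a) :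
    |D.Φm (fun σ => Y σ * V σ) - D.Φm Y| ≤ a := by
  have h1 := D.Φm_le (Y := fun σ => Y σ * V σ) (Y' := Y) (t := a)
    (fun σ => mul_pos (hY σ) ((Real.exp_pos _).trans_le (hV σ).1)) fun σ => by
      rw [mul_comm]
      exact mul_le_mul_of_nonneg_right (hV σ).2 (hY σ).le
  have h2 := D.Φm_le (Y := Y) (Y' := fun σ => Y σ * V σ) (t := a) hY fun σ => by
    rw [mul_left_comm]
    refine le_mul_of_one_le_right (hY σ).le ?_
    have := mul_le_mul_of_nonneg_left (hV σ).1 (Real.exp_pos a).le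
    rwa [← Real.exp_add, add_neg_cancel, Real.exp_zero] at this
  rw [abs_le]
  constructor <;> linarith

/-- The pinned functional of a Hamiltonian. -/
noncomputable def Φ (N : ℕ) (H : (Fin N → Bool) → ℝ) : ℝ := D.Φm fun σ => Real.exp (H σ)

lemma exp_le_of_norm {α : Type*} [Fintype α] (H H' : α → ℝ) (σ : α) :
    Real.exp (H σ) ≤ Real.exp ‖H - H'‖ * Real.exp (H' σ) := by
  rw [← Real.exp_add, Real.exp_le_exp]
  have := norm_le_pi_norm (H - H') σ
  rw [Real.norm_eq_abs, Pi.sub_apply] at this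
  linarith [le_abs_self (H σ - H' σ)]

lemma Φ_lip (N : ℕ) [NeZero N] : Lip (D.Φ N) := fun H H' => by
  rw [add_comm]
  exact D.Φm_le (fun _ => Real.exp_pos _) (exp_le_of_norm H H')

/-- The pinned functional on `N + 1` spins with pins among the first `N`. -/
noncomputable def Φ' (N : ℕ) (H : (Fin (N + 1) → Bool) → ℝ) : ℝ :=
  D.Φm fun σ : Fin N → Bool => (1 / 2) * ∑ ε : Bool, Real.exp (H (Fin.snoc σ ε))

lemma Φ'_lip (N : ℕ) [NeZero N] : Lip (D.Φ' N) := fun H H' => by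
  rw [add_comm]
  refine D.Φm_le (fun _ => mul_pos (by norm_num)
    (sum_pos (fun _ _ => Real.exp_pos _) univ_nonempty)) fun σ => ?_
  rw [mul_left_comm, mul_sum _ _ (Real.exp _)]
  exact mul_le_mul_of_nonneg_left (sum_le_sum fun ε _ => exp_le_of_norm H H' _) (by norm_num)

lemma expect_snoc {N : ℕ} (F : (Fin (N + 1) → Bool) → ℝ) :
    𝔼 σ', F σ' = 𝔼 σ : Fin N → Bool, (1 / 2) * ∑ ε : Bool, F (Fin.snoc σ ε) := by
  rw [← Fintype.expect_equiv ((Equiv.prodComm _ _).trans (Fin.snocEquiv fun _ => Bool))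
    (fun x : (Fin N → Bool) × Bool => F (Fin.snoc x.1 x.2)) F fun x => rfl,
    ← univ_product_univ, expect_product]
  refine expect_congr rfl fun σ _ => ?_
  rw [Fintype.expect_eq_sum_div_card]
  simp only [Fintype.card_bool, Nat.cast_ofNat]
  ring

lemma Φ'_le (N : ℕ) [NeZero N] (H : (Fin (N + 1) → Bool) → ℝ) :
    D.Φ' N H ≤ D.Φ (N + 1) H + (1 - ((N : ℝ) / (N + 1)) ^ D.K) * (-Real.log D.c) := by
  have h1 : D.Φ' N H = 𝔼 π, 𝔼 u : Fin D.K → Fin N,
      D.φ π (fun k => (u k).castSucc) fun σ => Real.exp (H σ) := by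
    refine expect_congr rfl fun π _ => expect_congr rfl fun u _ => ?_
    unfold φ
    congr 1
    funext x
    rw [expect_snoc]
    refine expect_congr rfl fun σ _ => ?_
    simp only [Fin.snoc_castSucc, mul_assoc, sum_mul]
  have h2 : D.Φ (N + 1) H + (1 - ((N : ℝ) / (N + 1)) ^ D.K) * (-Real.log D.c) =
      𝔼 π, (𝔼 u : Fin D.K → Fin (N + 1), D.φ π u (fun σ => Real.exp (H σ)) +
        (1 - ((N : ℝ) / (N + 1)) ^ D.K) * (-Real.log D.c)) := by
    simp only [expect_add_distrib, Fintype.expect_const, Φ, Φm]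
  rw [h1, h2]
  refine expect_le_expect fun π _ => ?_
  have := expect_inj_le (fun (u : Fin D.K → Fin N) k => (u k).castSucc)
    (fun u u' h => funext fun k => Fin.castSucc_injective _ (congrFun h k))
    (f := fun u => D.φ π u fun σ => Real.exp (H σ))
    (lo := Real.log (𝔼 σ, Real.exp (H σ)) + Real.log D.c) (M := -Real.log D.c) fun u => by
      have := D.φ_bounds π u (Y := fun σ => Real.exp (H σ)) fun _ => Real.exp_pos _
      exact ⟨this.1, by linarith [this.2]⟩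
  simpa [div_pow] using this

end Pins

/-- The cavity property on average over the pins. -/
def AvgCav (D : Pins) {r : ℕ} (m : Fin r → ℝ) (ε a : ℝ) (q : ℕ) : Prop :=
  ∀ (N : ℕ), 0 < N → ∀ (Y : (Fin N → Bool) → ℝ), (∀ σ, 0 < Y σ) →
    ∃ (I : Type) (_ : Fintype I) (W : I → ℝ) (T : I → FT), (∀ i, 0 ≤ W i) ∧ ∑ i, W i = 1 ∧
      ∀ (L : Type) [Fintype L] [DecidableEq L], Fintype.card L ≤ q →
        ∀ V : (L → Bool) → ℝ, (∀ σ, Real.exp (-a) ≤ V σ ∧ V σ ≤ Real.exp a) →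
          |(𝔼 v : L → Fin N, D.Φm fun σ => Y σ * V fun l => σ (v l)) - D.Φm Y -
            ∑ i, W i * (T i).val m L (bar V)| ≤ ε

theorem avgCav_of_cavity (h : CavityLemma) {ε : ℝ} (hε : 0 < ε) (a : ℝ) (q : ℕ) :
    ∃ (r : ℕ) (m : Fin r → ℝ), AdmissibleExponents m ∧ ∃ D : Pins, AvgCav D m ε a q := by
  obtain ⟨r, m, hm, K, X, P, finP, neP, Ψ, pin, c, hc, hpin, hΨ1, hΨ, hcav⟩ := h ε hε a q
  refine ⟨r, m, hm, ⟨K, X, P, Ψ, pin, c, hc, hpin, hΨ1, hΨ⟩, fun N hN Y hY => ?_⟩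
  obtain ⟨e, he, hJ⟩ := hcav N hN Y hY
  choose J finJ w T hw0 hw1 hb using hJ
  have : NeZero N := ⟨hN.ne'⟩
  have hP : (0 : ℝ) < Fintype.card P := by exact_mod_cast Fintype.card_pos
  have hU : (0 : ℝ) < Fintype.card (Fin K → Fin N) := by exact_mod_cast Fintype.card_pos
  have key : ∀ g : (π : P) → (u : Fin K → Fin N) → J π u → ℝ,
      ∑ i : (Σ x : P × (Fin K → Fin N), J x.1 x.2),
        ((Fintype.card P : ℝ)⁻¹ * (Fintype.card (Fin K → Fin N) : ℝ)⁻¹ * w i.1.1 i.1.2 i.2) *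
          g i.1.1 i.1.2 i.2 = 𝔼 π, 𝔼 u, ∑ j, w π u j * g π u j := by
    intro g
    rw [Fintype.sum_sigma, Fintype.sum_prod_type]
    simp only [Fintype.expect_eq_sum_div_card, div_eq_inv_mul, mul_sum, mul_assoc]
  refine ⟨Σ x : P × (Fin K → Fin N), J x.1 x.2, inferInstance,
    fun i => (Fintype.card P : ℝ)⁻¹ * (Fintype.card (Fin K → Fin N) : ℝ)⁻¹ * w i.1.1 i.1.2 i.2,
    fun i => T i.1.1 i.1.2 i.2, fun i => mul_nonneg (by positivity) (hw0 _ _ _), ?_,
    fun L _ _ hL V hV => ?_⟩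
  · have := key fun _ _ _ => 1
    simp only [mul_one, hw1, Fintype.expect_const] at this
    exact this
  · rw [key fun π u j => (T π u j).val m L (bar V)]
    refine le_trans ?_ he
    simp only [Pins.Φm, Pins.φ]
    rw [expect_comm]
    simp only [expect_comm (univ : Finset (L → Fin N)), ← expect_sub_distrib]
    refine (abs_expect_le _ _).trans (expect_le_expect fun π _ => ?_)
    refine (abs_expect_le _ _).trans (expect_le_expect fun u _ => ?_)
    exact hb π u L hL V hV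

end Crest.Agent.R141.Ass
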