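import Crest.Agent.R141.Ass3

/-!
Row 141, part A: the cavity inequality for a fixed base system.
-/

set_option autoImplicit false

namespace Crest.Agent.R141.Ass

open Crest.ProbabilityR.Diluted Finset Crest.Agent.PP
open scoped BigOperators

lemma PE_sum_coord {C : Type*} [Fintype C] (lam : ℝ) {q : C → ℝ} (hq : IsProb q) (g : C → ℝ) :
    PE (fun c => lam * q c) (fun _ l => ∑ j, g (l j)) = lam * ∑ c, q c * g c := by
  rw [PE_norm lam hq.sum_one]
  have h1 : ∀ n : ℕ, Ex q (fun l : Fin n → C => ∑ j, g (l j)) = n * ∑ c, q c * g c := by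
    intro n
    rw [Ex_sum]
    have : ∀ j : Fin n, Ex q (fun l : Fin n → C => g (l j)) = ∑ c, q c * g c := fun j => by
      simpa using Ex_prod_on hq {j} fun _ => g
    simp [this]
  simp only [h1, ← mul_assoc]
  exact ((hasSum_poi_mul lam).mul_right _).tsum_eq

variable {p : ℕ} (M : Model p)

/-- A bound for the interactions. -/
noncomputable def Lm : ℝ := ∑ c : M.Θ, ∑ s, |M.θ c s|

/-- A bound for the fields. -/
noncomputable def Hm : ℝ := ∑ a, |M.h a|

lemma abs_θ_le (c : M.Θ) (s : Fin p → Bool) : |M.θ c s| ≤ Lm M :=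
  (single_le_sum (f := fun s => |M.θ c s|) (fun _ _ => abs_nonneg _) (mem_univ s)).trans
    (single_le_sum (f := fun c => ∑ s, |M.θ c s|)
      (fun _ _ => sum_nonneg fun _ _ => abs_nonneg _) (mem_univ c))

lemma abs_h_le (a : M.H) : |M.h a| ≤ Hm M :=
  single_le_sum (f := fun a => |M.h a|) (fun _ _ => abs_nonneg _) (mem_univ a)

lemma Lm_nonneg : 0 ≤ Lm M := sum_nonneg fun _ _ => sum_nonneg fun _ _ => abs_nonneg _

lemma Hm_nonneg : 0 ≤ Hm M := sum_nonneg fun _ _ => abs_nonneg _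

lemma w_isProb : IsProb M.w := by
  refine ⟨fun c => mul_nonneg (M.wb_nonneg _) (prod_nonneg fun _ _ => M.wf_nonneg _), ?_⟩
  rw [Fintype.sum_prod_type]
  simp only [Model.w, ← mul_sum]
  rw [sum_prod_eq_one (q := fun _ g => M.wf g) fun _ => M.wf_sum]
  simpa using M.wb_sum

lemma wh_isProb : IsProb M.wh := ⟨M.wh_nonneg, M.wh_sum⟩

lemma abs_sum_le {ι : Type*} [Fintype ι] {W : ι → ℝ} (hW : IsProb W) {f : ι → ℝ} {a : ℝ}
    (h : ∀ i, |f i| ≤ a) : |∑ i, W i * f i| ≤ a := by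
  refine (abs_sum_le_sum_abs _ _).trans ?_
  calc ∑ i, |W i * f i| ≤ ∑ i, W i * a := sum_le_sum fun i _ => by
        rw [abs_mul, abs_of_nonneg (hW.nonneg i)]
        exact mul_le_mul_of_nonneg_left (h i) (hW.nonneg i)
    _ = a := by rw [← sum_mul, hW.sum_one, one_mul]

/-- The pinned functional after adding a new spin. -/
noncomputable def siteF (D : Pins) {N : ℕ} (Y : (Fin N → Bool) → ℝ) (k : ℕ) (c : Fin k → M.Θ)
    (a : M.H) : ℝ :=
  𝔼 v : Fin k × Fin (p - 1) → Fin N,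
    D.Φm fun σ => Y σ * Vsite (M.h a) (fun j => M.θ (c j)) fun y => σ (v y)

/-- The pinned functional after adding clauses. -/
noncomputable def edgeF (D : Pins) {N : ℕ} (Y : (Fin N → Bool) → ℝ) (k : ℕ) (c : Fin k → M.Θ) :
    ℝ :=
  𝔼 v : Fin k × Fin p → Fin N, D.Φm fun σ => Y σ * Vedge (fun j => M.θ (c j)) fun y => σ (v y)

lemma Vsite_bd (k : ℕ) (c : Fin k → M.Θ) (a : M.H) {t : ℝ} (ht : Hm M + Lm M * k ≤ t)
    (τ : Fin k × Fin (p - 1) → Bool) :
    Real.exp (-t) ≤ Vsite (M.h a) (fun j => M.θ (c j)) τ ∧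
      Vsite (M.h a) (fun j => M.θ (c j)) τ ≤ Real.exp t :=
  Vsite_bounds (fun j s => abs_θ_le M (c j) s) (by linarith [abs_h_le M a]) τ

lemma Vedge_bd (k : ℕ) (c : Fin k → M.Θ) {t : ℝ} (ht : Hm M + Lm M * k ≤ t)
    (τ : Fin k × Fin p → Bool) :
    Real.exp (-t) ≤ Vedge (fun j => M.θ (c j)) τ ∧ Vedge (fun j => M.θ (c j)) τ ≤ Real.exp t :=
  Vedge_bounds (fun j s => abs_θ_le M (c j) s) (by linarith [Hm_nonneg M]) τ

lemma abs_expect_sub_le {ι : Type*} [Fintype ι] [Nonempty ι] {f : ι → ℝ} {b a : ℝ}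
    (h : ∀ i, |f i - b| ≤ a) : |𝔼 i, f i - b| ≤ a := by
  rw [abs_le]
  constructor
  · have : b - a ≤ 𝔼 i, f i := le_expect univ_nonempty fun i _ => by linarith [(abs_le.1 (h i)).1]
    linarith
  · have : 𝔼 i, f i ≤ b + a := expect_le univ_nonempty fun i _ => by linarith [(abs_le.1 (h i)).2]
    linarith

lemma abs_siteF_sub_le (D : Pins) {N : ℕ} [NeZero N] {Y : (Fin N → Bool) → ℝ} (hY : ∀ σ, 0 < Y σ)
    (k : ℕ) (c : Fin k → M.Θ) (a : M.H) : |siteF M D Y k c a - D.Φm Y| ≤ Hm M + Lm M * k :=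
  abs_expect_sub_le fun _ => D.abs_Φm_sub_le hY fun _ => Vsite_bd M k c a le_rfl _

lemma abs_edgeF_sub_le (D : Pins) {N : ℕ} [NeZero N] {Y : (Fin N → Bool) → ℝ} (hY : ∀ σ, 0 < Y σ)
    (k : ℕ) (c : Fin k → M.Θ) : |edgeF M D Y k c - D.Φm Y| ≤ Hm M + Lm M * k :=
  abs_expect_sub_le fun _ => D.abs_Φm_sub_le hY fun _ => Vedge_bd M k c le_rfl _

lemma gr_of_sub {C : Type*} {F : ∀ n : ℕ, (Fin n → C) → ℝ} {b A B : ℝ}
    (h : ∀ n l, |F n l - b| ≤ A + B * n) : Gr F :=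
  ⟨|b| + A, B, fun n l => by linarith [abs_sub_abs_le_abs_sub (F n l) b, h n l]⟩

theorem edge_le_site (hp : 2 ≤ p) {α : ℝ} (hα : 0 < α) {b ε : ℝ} {r : ℕ} {m : Fin r → ℝ}
    (hm : AdmissibleExponents m) (hb : ∀ T : FT, b ≤ M.gen α (T.val m)) {D : Pins} {k₀ : ℕ}
    (hcav : AvgCav D m ε (Hm M + Lm M * k₀) (k₀ * p))
    (ht₁ : ∑' n : ℕ, poissonWeight (α * p) n *
      (if n ≤ k₀ then 0 else 2 * Hm M + 2 * Lm M * n) ≤ ε)
    (ht₂ : ∑' n : ℕ, poissonWeight (α * (p - 1)) n *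
      (if n ≤ k₀ then 0 else 2 * Hm M + 2 * Lm M * n) ≤ ε)
    {N : ℕ} [NeZero N] {Y : (Fin N → Bool) → ℝ} (hY : ∀ σ, 0 < Y σ) :
    PE (fun c => α * (p - 1) * M.w c) (edgeF M D Y) + (b - Real.log 2 - 4 * ε) ≤
      PE (fun c => α * p * M.w c) fun k c => ∑ a, M.wh a * siteF M D Y k c a := by
  obtain ⟨I, finI, W, T, hW0, hW1, hc⟩ := hcav N (NeZero.pos N) Y hY
  have hW : IsProb W := ⟨hW0, hW1⟩
  have hp1 : (1 : ℝ) ≤ p := by exact_mod_cast (by omega : 1 ≤ p)
  have hws : ∀ c, 0 ≤ α * p * M.w c := fun c =>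
    mul_nonneg (by positivity) ((w_isProb M).nonneg c)
  have hwe : ∀ c, 0 ≤ α * (p - 1) * M.w c := fun c =>
    mul_nonneg (mul_nonneg hα.le (by linarith)) ((w_isProb M).nonneg c)
  have hε : 0 ≤ ε := (abs_nonneg _).trans (hc (Fin 0) (by simp) (fun _ => 1) fun _ => by
    have := Hm_nonneg M
    have := Lm_nonneg M
    exact ⟨Real.exp_le_one_iff.2 (neg_nonpos.2 (by positivity)), Real.one_le_exp (by positivity)⟩)
  have hle : ∀ k ≤ k₀, Hm M + Lm M * k ≤ Hm M + Lm M * k₀ := fun k hk => by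
    have : (k : ℝ) ≤ k₀ := by exact_mod_cast hk
    have := mul_le_mul_of_nonneg_left this (Lm_nonneg M)
    linarith
  -- the values of the trials
  set sv : I → ∀ k : ℕ, (Fin k → M.Θ) → M.H → ℝ := fun i k c a =>
    (T i).val m (Fin k × Fin (p - 1)) (bar (Vsite (M.h a) fun j => M.θ (c j))) with hsv
  set ev : I → ∀ k : ℕ, (Fin k → M.Θ) → ℝ := fun i k c =>
    (T i).val m (Fin k × Fin p) (bar (Vedge fun j => M.θ (c j))) with hev
  have bsv : ∀ i k c a, |sv i k c a| ≤ Hm M + Lm M * k := fun i k c a =>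
    abs_val_le (T i) hm fun x => bar_bounds (Vsite_bd M k c a le_rfl) x
  have bev : ∀ i k c, |ev i k c| ≤ Hm M + Lm M * k := fun i k c =>
    abs_val_le (T i) hm fun x => bar_bounds (Vedge_bd M k c le_rfl) x
  have gsv : ∀ i, Gr fun k c => ∑ a, M.wh a * sv i k c a := fun i =>
    ⟨_, _, fun k c => abs_sum_le (wh_isProb M) (bsv i k c)⟩
  have gev : ∀ i, Gr (ev i) := fun i => ⟨_, _, bev i⟩
  have hgen : ∀ i, M.gen α ((T i).val m) = Real.log 2 +
      PE (fun c => α * p * M.w c) (fun k c => ∑ a, M.wh a * sv i k c a) -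
      PE (fun c => α * (p - 1) * M.w c) (ev i) := by
    intro i
    have e1 : ev i = fun k c => ∑ j, (T i).val m (Fin p) (fun x => edgeTerm (M.θ (c j)) x) := by
      funext k c
      simp only [hev, bar_Vedge]
      exact val_prod (T i) m (W := fun j x => edgeTerm (M.θ (c j)) x) fun j x => edgeTerm_pos _ _
    rw [e1, PE_sum_coord _ (w_isProb M) fun c => (T i).val m (Fin p) fun x => edgeTerm (M.θ c) x,
      PE_norm _ (w_isProb M).sum_one]
    simp only [hsv, bar_Vsite]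
    rfl
  have hsum : ∀ f : M.H → ℝ, ∀ t : ℝ, ∑ a, M.wh a * (f a + t) = ∑ a, M.wh a * f a + t := by
    intro f t
    simp only [mul_add, sum_add_distrib, ← sum_mul, M.wh_sum, one_mul]
  have hswap : ∀ k c, ∑ i, W i * ∑ a, M.wh a * sv i k c a = ∑ a, M.wh a * ∑ i, W i * sv i k c a := by
    intro k c
    simp only [mul_sum]
    rw [sum_comm]
    exact sum_congr rfl fun _ _ => sum_congr rfl fun _ _ => mul_left_comm _ _ _
  have g1 : Gr fun k c => ∑ i, W i * ∑ a, M.wh a * sv i k c a :=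
    Gr.sum _ fun i _ => (gsv i).const_mul _
  have g2 : Gr fun k c => ∑ i, W i * ev i k c := Gr.sum _ fun i _ => (gev i).const_mul _
  have g3 : Gr fun k c => ∑ a, M.wh a * siteF M D Y k c a :=
    Gr.sum _ fun a _ => (gr_of_sub fun k c => abs_siteF_sub_le M D hY k c a).const_mul _
  have g4 : Gr (edgeF M D Y) := gr_of_sub (abs_edgeF_sub_le M D hY)
  have h1 := PE_le_tail hws (g1.add (Gr.const (D.Φm Y))) g3 (e := ε) (A := 2 * Hm M)
    (B := 2 * Lm M) (ε := ε) (k₀ := k₀) hε (fun k hk c => ?_) (fun k c => ?_)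
    (by rwa [← mul_sum, (w_isProb M).sum_one, mul_one])
  rotate_left
  · rw [hswap, ← hsum, ← hsum]
    refine sum_le_sum fun a _ => mul_le_mul_of_nonneg_left ?_ (M.wh_nonneg a)
    have := hc (Fin k × Fin (p - 1)) (by
      simp only [Fintype.card_prod, Fintype.card_fin]
      exact Nat.mul_le_mul hk (Nat.sub_le _ _)) _ (Vsite_bd M k c a (hle k hk))
    have := (abs_le.1 this).1
    simp only [hsv, siteF]
    linarith
  · rw [hswap, ← hsum, ← hsum]
    refine sum_le_sum fun a _ => mul_le_mul_of_nonneg_left ?_ (M.wh_nonneg a)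
    have e1 := (abs_le.1 (abs_sum_le hW fun i => bsv i k c a)).2
    have e2 := (abs_le.1 (abs_siteF_sub_le M D hY k c a)).1
    linarith
  have h2 := PE_le_tail hwe g4 (g2.add (Gr.const (D.Φm Y))) (e := ε) (A := 2 * Hm M)
    (B := 2 * Lm M) (ε := ε) (k₀ := k₀) hε (fun k hk c => ?_) (fun k c => ?_)
    (by rwa [← mul_sum, (w_isProb M).sum_one, mul_one])
  rotate_left
  · have := hc (Fin k × Fin p) (by
      simp only [Fintype.card_prod, Fintype.card_fin]
      exact Nat.mul_le_mul_right _ hk) _ (Vedge_bd M k c (hle k hk))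
    have := (abs_le.1 this).2
    simp only [hev, edgeF]
    linarith
  · have e1 := (abs_le.1 (abs_sum_le hW fun i => bev i k c)).1
    have e2 := (abs_le.1 (abs_edgeF_sub_le M D hY k c)).2
    linarith
  rw [PE_add hws g1 (Gr.const _), PE_const, PE_sum hws _ fun i _ => (gsv i).const_mul _] at h1
  rw [PE_add hwe g2 (Gr.const _), PE_const, PE_sum hwe _ fun i _ => (gev i).const_mul _] at h2
  simp only [PE_const_mul] at h1 h2
  have h3 : ∑ i, W i * b ≤ ∑ i, W i * M.gen α ((T i).val m) :=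
    sum_le_sum fun i _ => mul_le_mul_of_nonneg_left (hb (T i)) (hW0 i)
  simp only [hgen, mul_sub, mul_add, sum_sub_distrib, sum_add_distrib, ← sum_mul, hW1,
    one_mul] at h3
  simp only [mul_sub] at h1 h2 ⊢
  linarith

end Crest.Agent.R141.Ass
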