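import Crest.Agent.R141.Ass4

/-!
Row 141, part A: comparison of the systems with `N` and `N + 1` spins.
-/

set_option autoImplicit false

namespace Crest.Agent.R141.Ass

open Crest.ProbabilityR.Diluted Finset Crest.Agent.PP
open scoped BigOperators

lemma Ex_unif {ι κ : Type*} [Fintype ι] [Fintype κ] [DecidableEq κ] (G : (κ → ι) → ℝ) :
    Ex (fun _ : ι => (Fintype.card ι : ℝ)⁻¹) G = 𝔼 a, G a := by
  rw [Fintype.expect_eq_sum_div_card, div_eq_inv_mul, mul_sum]
  simp [Ex, wt]

lemma sum_split {α β : Type*} [Fintype α] [Fintype β] (j : α → β) (hj : Function.Injective j)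
    (F : β → ℝ) : ∑ y, F y = ∑ x, F (j x) + ∑ y, ind (y ∉ Set.range j) * F y := by
  classical
  rw [← sum_image (s := univ) (g := j) (f := F) fun a _ b _ h => hj h,
    ← sum_filter_add_sum_filter_not univ (· ∈ Set.range j)]
  congr 1
  · refine sum_congr ?_ fun _ _ => rfl
    ext y
    simp
  · rw [sum_filter]
    refine sum_congr rfl fun y _ => ?_
    by_cases h : y ∈ Set.range j
    · rw [if_neg (not_not.2 h), ind_neg (not_not.2 h), zero_mul]
    · rw [if_pos h, ind_pos h, one_mul]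

variable {p : ℕ} (M : Model p)

/-- The law of a clause type and a uniform index. -/
noncomputable def qU (ι : Type) [Fintype ι] (x : M.Θ × ι) : ℝ :=
  M.w x.1 * (Fintype.card ι : ℝ)⁻¹

lemma qU_isProb (ι : Type) [Fintype ι] [Nonempty ι] : IsProb (qU M ι) := by
  refine ⟨fun x => mul_nonneg ((w_isProb M).nonneg _) (by positivity), ?_⟩
  have : (Fintype.card ι : ℝ) ≠ 0 := by exact_mod_cast Fintype.card_ne_zero
  rw [Fintype.sum_prod_type]
  simp only [qU, sum_const, card_univ, nsmul_eq_mul]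
  simp only [mul_left_comm (Fintype.card ι : ℝ), mul_inv_cancel₀ this, mul_one]
  exact (w_isProb M).sum_one

lemma Ex_qU {ι : Type} [Fintype ι] {k : ℕ} (F : (Fin k → M.Θ) → (Fin k → ι) → ℝ) :
    Ex (qU M ι) (fun l => F (fun j => (l j).1) fun j => (l j).2) =
      Ex M.w fun c => 𝔼 a, F c a := by
  have := Ex_pair M.w (fun _ : ι => (Fintype.card ι : ℝ)⁻¹) F
  simp only [Ex_unif] at this
  exact this

lemma PE_qU {L : Type} [Fintype L] [DecidableEq L] {N : ℕ} [NeZero N] (lam : ℝ)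
    (F : ∀ k : ℕ, (Fin k → M.Θ) → (Fin k × L → Fin N) → ℝ) :
    PE (fun x => lam * qU M (L → Fin N) x)
        (fun k l => F k (fun j => (l j).1) fun y => (l y.1).2 y.2) =
      PE (fun c => lam * M.w c) fun k c => 𝔼 v, F k c v := by
  rw [PE_norm _ (qU_isProb M _).sum_one, PE_norm _ (w_isProb M).sum_one]
  refine tsum_congr fun k => ?_
  rw [Ex_qU M fun c (a : Fin k → L → Fin N) => F k c fun y => a y.1 y.2]
  congr 2
  funext c
  exact Fintype.expect_equiv (Equiv.curry _ _ _).symm _ _ fun _ => rfl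

/-- The Hamiltonian of one clause. -/
noncomputable def clause (N : ℕ) (x : M.Θ × (Fin p → Fin N)) : (Fin N → Bool) → ℝ :=
  fun σ => M.θ x.1 fun ℓ => σ (x.2 ℓ)

lemma norm_clause_le (N : ℕ) (x : M.Θ × (Fin p → Fin N)) : ‖clause M N x‖ ≤ Lm M :=
  (pi_norm_le_iff_of_nonneg (Lm_nonneg M)).2 fun _ => abs_θ_le M _ _

/-- Indices with the new site in the last position. -/
def canon {N : ℕ} (i : Fin (p - 1) → Fin N) : Fin p → Fin (N + 1) :=
  fun ℓ => if h : ℓ.val < p - 1 then (i ⟨ℓ.val, h⟩).castSucc else Fin.last N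

/-- The Hamiltonian of a clause that contains the new site. -/
noncomputable def clauseC (N : ℕ) (x : M.Θ × (Fin (p - 1) → Fin N)) : (Fin (N + 1) → Bool) → ℝ :=
  clause M (N + 1) (x.1, canon x.2)

/-- The Hamiltonian of a clause among the old sites. -/
noncomputable def clauseO (N : ℕ) (x : M.Θ × (Fin p → Fin N)) : (Fin (N + 1) → Bool) → ℝ :=
  clause M (N + 1) (x.1, fun ℓ => (x.2 ℓ).castSucc)

/-- A Hamiltonian of the old sites with a field at the new site. -/
noncomputable def lift {N : ℕ} (a : M.H) (H : (Fin N → Bool) → ℝ) : (Fin (N + 1) → Bool) → ℝ :=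
  fun σ => H (fun i => σ i.castSucc) + M.h a * spinVal (σ (Fin.last N))

lemma lift_add_sum {N k : ℕ} (a : M.H) (H : (Fin N → Bool) → ℝ)
    (l : Fin k → M.Θ × (Fin p → Fin N)) :
    lift M a H + ∑ j, clauseO M N (l j) = lift M a (H + ∑ j, clause M N (l j)) := by
  funext σ
  simp only [lift, Pi.add_apply, Finset.sum_apply, clauseO, clause]
  ring

lemma Lip.lift {N : ℕ} {Φ : ((Fin (N + 1) → Bool) → ℝ) → ℝ} (h : Lip Φ) (a : M.H) :
    Lip fun H => Φ (lift M a H) := fun H H' => by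
  refine (h _ (Ass.lift M a H')).trans (add_le_add le_rfl ?_)
  refine (pi_norm_le_iff_of_nonneg (norm_nonneg _)).2 fun σ => ?_
  simp only [Ass.lift, Pi.sub_apply, add_sub_add_right_eq_sub]
  exact norm_le_pi_norm (H - H') _

lemma PP_edge (D : Pins) (N : ℕ) [NeZero N] (lam : ℝ) (H : (Fin N → Bool) → ℝ) :
    PP (fun x => lam * qU M (Fin p → Fin N) x) (clause M N) (D.Φ N) H =
      PE (fun c => lam * M.w c) (edgeF M D fun σ => Real.exp (H σ)) := by
  refine Eq.trans ?_ (PE_qU M lam fun k c v => D.Φm fun σ =>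
    Real.exp (H σ) * Vedge (fun j => M.θ (c j)) fun y => σ (v y))
  unfold PP
  congr 1
  funext k l
  unfold Pins.Φ
  congr 1
  funext σ
  simp only [Pi.add_apply, Finset.sum_apply, Real.exp_add, Vedge, clause]

lemma PP_site (D : Pins) (N : ℕ) [NeZero N] (lam : ℝ) (H : (Fin N → Bool) → ℝ) (a : M.H) :
    PP (fun x => lam * qU M (Fin (p - 1) → Fin N) x) (clauseC M N) (D.Φ' N) (lift M a H) =
      PE (fun c => lam * M.w c) fun k c => siteF M D (fun σ => Real.exp (H σ)) k c a := by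
  refine Eq.trans ?_ (PE_qU M lam fun k c v => D.Φm fun σ =>
    Real.exp (H σ) * Vsite (M.h a) (fun j => M.θ (c j)) fun y => σ (v y))
  unfold PP
  congr 1
  funext k l
  unfold Pins.Φ'
  congr 1
  funext σ
  rw [Vsite, mul_left_comm, mul_sum _ _ (Real.exp (H σ))]
  congr 1
  refine sum_congr rfl fun ε _ => ?_
  rw [← Real.exp_add]
  congr 1
  simp only [Pi.add_apply, Finset.sum_apply, lift, clauseC, clause, Fin.snoc_castSucc,
    Fin.snoc_last, add_assoc]
  congr 2
  refine sum_congr rfl fun j _ => ?_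
  congr 1
  funext ℓ
  unfold canon
  split_ifs
  · rw [Fin.snoc_castSucc]
  · rw [Fin.snoc_last]

lemma sum_perm (e : Equiv.Perm (Fin p)) (F : Inter p → ℝ) :
    ∑ c, M.w c * F (fun s => M.θ c fun ℓ => s (e ℓ)) = ∑ c, M.w c * F (M.θ c) := by
  refine Fintype.sum_equiv ((Equiv.refl _).prodCongr (e.arrowCongr (Equiv.refl _))) _ _ fun c => ?_
  have h1 : M.w (((Equiv.refl _).prodCongr (e.arrowCongr (Equiv.refl _))) c) = M.w c := by
    simp only [Model.w, Equiv.prodCongr_apply, Prod.map_fst, Prod.map_snd, Equiv.refl_apply,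
      Equiv.arrowCongr_apply, Equiv.coe_refl, Function.comp, id]
    congr 1
    exact Fintype.prod_equiv e.symm _ _ fun _ => rfl
  rw [h1]
  congr 2
  funext s
  simp only [Model.θ, Equiv.prodCongr_apply, Prod.map_fst, Prod.map_snd, Equiv.refl_apply,
    Equiv.arrowCongr_apply, Equiv.coe_refl, Function.comp, id]
  congr 3
  exact Fintype.prod_equiv e _ _ fun j => by simp

/-- Index tuples of the larger system that contain the new site at most once. -/
def jmap (hp : 0 < p) (N : ℕ) :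
    (Fin p → Fin N) ⊕ (Fin p × (Fin (p - 1) → Fin N)) → Fin p → Fin (N + 1) :=
  Sum.elim (fun i ℓ => (i ℓ).castSucc)
    fun x ℓ => canon x.2 (Equiv.swap x.1 ⟨p - 1, by omega⟩ ℓ)

lemma canon_eq_last {N : ℕ} (hp : 0 < p) (i : Fin (p - 1) → Fin N) (ℓ : Fin p) :
    canon i ℓ = Fin.last N ↔ ℓ = ⟨p - 1, by omega⟩ := by
  unfold canon
  split_ifs with h
  · exact ⟨fun h' => absurd h' (Fin.castSucc_ne_last _), fun h' => by subst h'; simp at h⟩
  · exact ⟨fun _ => Fin.ext (by have := ℓ.2; simp only; omega), fun _ => rfl⟩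

lemma jmap_injective (hp : 0 < p) (N : ℕ) : Function.Injective (jmap hp N) := by
  rintro (i | ⟨l, i⟩) (i' | ⟨l', i'⟩) h
  · congr 1
    exact funext fun ℓ => Fin.castSucc_injective _ (congrFun h ℓ)
  · have := congrFun h l'
    simp only [jmap, Sum.elim_inl, Sum.elim_inr, Equiv.swap_apply_left] at this
    rw [(canon_eq_last hp i' _).2 rfl] at this
    exact absurd this (Fin.castSucc_ne_last _)
  · have := congrFun h l
    simp only [jmap, Sum.elim_inl, Sum.elim_inr, Equiv.swap_apply_left] at this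
    rw [(canon_eq_last hp i _).2 rfl] at this
    exact absurd this.symm (Fin.castSucc_ne_last _)
  · have h1 := congrFun h l
    simp only [jmap, Sum.elim_inr, Equiv.swap_apply_left] at h1
    rw [(canon_eq_last hp i _).2 rfl, eq_comm, canon_eq_last hp, Equiv.swap_apply_eq_iff,
      Equiv.swap_apply_right] at h1
    subst h1
    have h2 : canon i = canon i' := by
      funext ℓ
      have := congrFun h (Equiv.swap l ⟨p - 1, by omega⟩ ℓ)
      simpa only [jmap, Sum.elim_inr, Equiv.swap_apply_self] using this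
    congr 2
    funext ℓ
    have := congrFun h2 ⟨ℓ.val, by omega⟩
    simp only [canon, ℓ.2, dif_pos] at this
    exact Fin.castSucc_injective _ this

lemma clause_split (hp : 0 < p) (N : ℕ) (F : ((Fin (N + 1) → Bool) → ℝ) → ℝ) :
    ∑ x, M.w x.1 * F (clause M (N + 1) x) =
      (∑ x, M.w x.1 * F (clauseO M N x) + p * ∑ x, M.w x.1 * F (clauseC M N x)) +
        ∑ x, ind (x.2 ∉ Set.range (jmap hp N)) * M.w x.1 * F (clause M (N + 1) x) := by
  have h0 : ∀ {ι : Type} [Fintype ι] (g : M.Θ × ι → ℝ), ∑ x, g x = ∑ y, ∑ c, g (c, y) :=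
    fun g => Fintype.sum_prod_type_right g
  rw [h0, h0, h0, h0, sum_split _ (jmap_injective hp N), Fintype.sum_sum_type,
    Fintype.sum_prod_type]
  congr 1
  · congr 1
    have : ∀ (l : Fin p) (i : Fin (p - 1) → Fin N),
        ∑ c, M.w c * F (clause M (N + 1) (c, jmap hp N (Sum.inr (l, i)))) =
          ∑ c, M.w c * F (clauseC M N (c, i)) := fun l i =>
      sum_perm M (Equiv.swap l ⟨p - 1, by omega⟩) fun θ => F fun σ => θ fun ℓ => σ (canon i ℓ)
    refine (sum_congr rfl fun l _ => sum_congr rfl fun i _ => this l i).trans ?_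
    simp only [sum_const, card_univ, Fintype.card_fin, nsmul_eq_mul]
  · simp only [mul_sum, mul_assoc]

/-- Rate of the old clauses in the system with `N + 1` spins. -/
noncomputable def lam0 (p : ℕ) (α : ℝ) (N : ℕ) : ℝ := α * (N + 1) / (N + 1) ^ p * N ^ p

/-- Rate of the clauses with the new site exactly once. -/
noncomputable def lamS (p : ℕ) (α : ℝ) (N : ℕ) : ℝ := α * (N + 1) / (N + 1) ^ p * p * N ^ (p - 1)

lemma lamS_eq (hp : 0 < p) (α : ℝ) (N : ℕ) :
    lamS p α N = α * p * ((N : ℝ) / (N + 1)) ^ (p - 1) := by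
  obtain ⟨k, rfl⟩ : ∃ k, p = k + 1 := ⟨p - 1, by omega⟩
  simp only [lamS, Nat.add_sub_cancel, div_pow, pow_succ]
  field_simp

lemma lam0_eq (hp : 0 < p) (α : ℝ) (N : ℕ) :
    lam0 p α N = α * N * ((N : ℝ) / (N + 1)) ^ (p - 1) := by
  obtain ⟨k, rfl⟩ : ∃ k, p = k + 1 := ⟨p - 1, by omega⟩
  simp only [lam0, Nat.add_sub_cancel, div_pow, pow_succ]
  field_simp

lemma lamS_le (hp : 0 < p) {α : ℝ} (hα : 0 < α) (N : ℕ) : lamS p α N ≤ α * p := by
  rw [lamS_eq hp]
  exact mul_le_of_le_one_right (by positivity)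
    (pow_le_one₀ (by positivity) ((div_le_one (by positivity)).2 (by linarith)))

lemma le_lam0 (hp : 0 < p) {α : ℝ} (hα : 0 < α) (N : ℕ) :
    α * N ≤ lam0 p α N + α * (p - 1) := by
  rw [lam0_eq hp]
  have hN : (0 : ℝ) ≤ N := Nat.cast_nonneg N
  have h1 : (N : ℝ) / (N + 1) = 1 + -(1 / (N + 1)) := by field_simp; ring
  have h0 : 1 / ((N : ℝ) + 1) ≤ 1 := (div_le_one (by positivity)).2 (by linarith)
  have h2 := one_add_mul_le_pow (a := -(1 / ((N : ℝ) + 1))) (by linarith) (p - 1)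
  rw [← h1, Nat.cast_sub hp, Nat.cast_one] at h2
  have hp1 : (0 : ℝ) ≤ p - 1 := by
    have : (1 : ℝ) ≤ p := by exact_mod_cast hp
    linarith
  have h3 : (N : ℝ) * (1 / (N + 1)) ≤ 1 := by
    rw [mul_one_div, div_le_one (by positivity)]; linarith
  have h4 := mul_le_mul_of_nonneg_left h2 (by positivity : 0 ≤ α * N)
  have h5 := mul_le_mul_of_nonneg_left h3 (by positivity : 0 ≤ α * (p - 1))
  nlinarith

/-- Decomposition of the clauses of the system with `N + 1` spins. -/
lemma step_up (hp : 0 < p) {α : ℝ} (hα : 0 < α) (N : ℕ) [NeZero N]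
    {Φ : ((Fin (N + 1) → Bool) → ℝ) → ℝ} (hΦ : Lip Φ) (H : (Fin (N + 1) → Bool) → ℝ) :
    PP (fun x => lam0 p α N * qU M (Fin p → Fin N) x) (clauseO M N)
        (PP (fun x => α * p * qU M (Fin (p - 1) → Fin N) x) (clauseC M N) Φ) H ≤
      PP (fun x => α * (N + 1 : ℕ) * qU M (Fin p → Fin (N + 1)) x) (clause M (N + 1)) Φ H +
        2 * Lm M * (α * p - lamS p α N) ∧
      lam0 p α N + lamS p α N ≤ α * (N + 1) := by
  have hN : (0 : ℝ) < N := by exact_mod_cast NeZero.pos N
  set β₀ : ℝ := α * (N + 1) / (N + 1) ^ p with hβ₀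
  have hβ₀0 : 0 ≤ β₀ := by positivity
  have hw := (w_isProb M).nonneg
  have e0 : ∀ x, lam0 p α N * qU M (Fin p → Fin N) x = β₀ * M.w x.1 := fun x => by
    simp only [lam0, qU, Fintype.card_fun, Fintype.card_fin, Nat.cast_pow, ← hβ₀]
    field_simp
  have eS : ∀ x, lamS p α N * qU M (Fin (p - 1) → Fin N) x = β₀ * p * M.w x.1 := fun x => by
    simp only [lamS, qU, Fintype.card_fun, Fintype.card_fin, Nat.cast_pow, ← hβ₀]
    field_simp
  have e1 : ∀ x, α * (N + 1 : ℕ) * qU M (Fin p → Fin (N + 1)) x = β₀ * M.w x.1 := fun x => by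
    simp only [qU, Fintype.card_fun, Fintype.card_fin, Nat.cast_pow, hβ₀]
    push_cast
    field_simp
  have hl0 : 0 ≤ lam0 p α N := by unfold lam0; positivity
  have hlS : 0 ≤ lamS p α N := by unfold lamS; positivity
  set w₀ := fun x => lam0 p α N * qU M (Fin p → Fin N) x with hw₀
  set wS := fun x => lamS p α N * qU M (Fin (p - 1) → Fin N) x with hwS
  set wR := fun x : M.Θ × (Fin p → Fin (N + 1)) =>
    β₀ * (ind (x.2 ∉ Set.range (jmap hp N)) * M.w x.1) with hwR
  have hw₀0 : ∀ x, 0 ≤ w₀ x := fun x => mul_nonneg hl0 ((qU_isProb M _).nonneg x)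
  have hwS0 : ∀ x, 0 ≤ wS x := fun x => mul_nonneg hlS ((qU_isProb M _).nonneg x)
  have hwR0 : ∀ x, 0 ≤ wR x := fun x => mul_nonneg hβ₀0 (mul_nonneg (ind_nonneg _) (hw _))
  have hQ : ∀ F : ((Fin (N + 1) → Bool) → ℝ) → ℝ,
      ∑ x, (α * (N + 1 : ℕ) * qU M (Fin p → Fin (N + 1)) x) * F (clause M (N + 1) x) =
        ∑ x, Sum.elim w₀ wS x * F (Sum.elim (clauseO M N) (clauseC M N) x) +
          ∑ x, wR x * F (clause M (N + 1) x) := by
    intro F
    rw [Fintype.sum_sum_type]
    simp only [Sum.elim_inl, Sum.elim_inr, hw₀, hwS, hwR, e0, eS, e1, mul_assoc, ← mul_sum]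
    rw [clause_split M hp N F]
    simp only [mul_assoc]
    ring
  have hmass : α * (N + 1) = lam0 p α N + lamS p α N + ∑ x, wR x := by
    have := hQ fun _ => 1
    rw [Fintype.sum_sum_type] at this
    simp only [mul_one, Sum.elim_inl, Sum.elim_inr, hw₀, hwS, ← mul_sum,
      (qU_isProb M _).sum_one] at this
    rw [← this]
    push_cast
    ring
  have hR0 : 0 ≤ ∑ x, wR x := sum_nonneg fun x _ => hwR0 x
  refine ⟨?_, by linarith⟩
  have h1 := abs_PP_sub_PP_le (w₁ := Sum.elim w₀ wS) (by rintro (x | x); exacts [hw₀0 x, hwS0 x])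
    hwR0 hQ (norm_clause_le M (N + 1)) hΦ H
  rw [PP_super (w := Sum.elim w₀ wS) (θ := Sum.elim (clauseO M N) (clauseC M N))
    (θ₁ := clauseO M N) (θ₂ := clauseC M N) hw₀0 hwS0
    (fun F => Fintype.sum_sum_type _) hΦ] at h1
  have h2 := PP_le_add hw₀0 (clauseO M N)
    (PP_lip (fun x => mul_nonneg (by positivity : 0 ≤ α * p) ((qU_isProb M _).nonneg x))
      (clauseC M N) hΦ) (PP_lip hwS0 (clauseC M N) hΦ) (t := Lm M * (α * p - lamS p α N))
    (fun H => by
      have := abs_PP_rate_le (qU_isProb M (Fin (p - 1) → Fin N)).nonneg (θ := clauseC M N)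
        (fun x => norm_clause_le M (N + 1) _) hlS (lamS_le hp hα N) hΦ H
      rw [(qU_isProb M _).sum_one, mul_one] at this
      linarith [(abs_le.1 this).2]) H
  have h3 : ∑ x, wR x ≤ α * p - lamS p α N := by linarith [le_lam0 hp hα N]
  have h4 := mul_le_mul_of_nonneg_left h3 (Lm_nonneg M)
  linarith [(abs_le.1 h1).1]

/-- Decomposition of the clauses of the system with `N` spins. -/
lemma step_down (hp : 0 < p) {α : ℝ} (hα : 0 < α) (N : ℕ) [NeZero N]
    {Φ : ((Fin N → Bool) → ℝ) → ℝ} (hΦ : Lip Φ) (H : (Fin N → Bool) → ℝ) :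
    PP (fun x => α * N * qU M (Fin p → Fin N) x) (clause M N) Φ H ≤
      PP (fun x => lam0 p α N * qU M (Fin p → Fin N) x) (clause M N)
        (PP (fun x => α * (p - 1) * qU M (Fin p → Fin N) x) (clause M N) Φ) H +
        Lm M * (α * p - lamS p α N) := by
  have hl0 : 0 ≤ lam0 p α N := by unfold lam0; positivity
  have hp1 : (0 : ℝ) ≤ p - 1 := by
    have : (1 : ℝ) ≤ p := by exact_mod_cast hp
    linarith
  have hq := qU_isProb M (Fin p → Fin N)
  rw [← PP_super (w := fun x => (lam0 p α N + α * (p - 1)) * qU M (Fin p → Fin N) x)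
    (θ := clause M N) (fun x => mul_nonneg hl0 (hq.nonneg x))
    (fun x => mul_nonneg (by positivity) (hq.nonneg x))
    (fun F => by simp only [add_mul, sum_add_distrib]) hΦ]
  have h1 := abs_PP_rate_le hq.nonneg (norm_clause_le M N) (by positivity : 0 ≤ α * N)
    (le_lam0 hp hα N) hΦ H
  rw [hq.sum_one, mul_one] at h1
  have h2 := (step_up M hp hα N (Φ := fun _ => 0) (fun _ _ => by simp) 0).2
  have h3 := mul_le_mul_of_nonneg_left
    (show lam0 p α N + α * (p - 1) - α * N ≤ α * p - lamS p α N by linarith) (Lm_nonneg M)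
  linarith [(abs_le.1 h1).1]

end Crest.Agent.R141.Ass
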