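import Crest.Agent.R141.Defs

/-!
Row 141, part B1: finite Markov trials are realized by measurable trials.
-/

set_option autoImplicit false
set_option linter.unusedSectionVars false
set_option linter.unusedVariables false

namespace Crest.Agent.R141

open Crest.ProbabilityR.Diluted MeasureTheory Filter Topology

namespace Bridge

/-- The law of a map from the unit interval. -/
noncomputable def law {S : Type} (φ : unitInterval → S) (s : S) : ℝ :=
  (volume : Measure unitInterval).real (φ ⁻¹' {s})

lemma law_nonneg {S : Type} (φ : unitInterval → S) (s : S) : 0 ≤ law φ s := measureReal_nonneg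

section
variable {S : Type} [Fintype S] [MeasurableSpace S] [DiscreteMeasurableSpace S]

lemma integral_pi {L : Type} [Fintype L] [DecidableEq L] (φ : L → unitInterval → S)
    (hφ : ∀ l, Measurable (φ l)) (F : (L → S) → ℝ) :
    ∫ v : L → unitInterval, F (fun l => φ l (v l)) ∂(Measure.pi fun _ => volume) =
      ∑ s : L → S, (∏ l, law (φ l) (s l)) * F s := by
  have : ∀ l, IsProbabilityMeasure ((volume : Measure unitInterval).map (φ l)) :=
    fun l => Measure.isProbabilityMeasure_map (hφ l).aemeasurable
  have h := measurePreserving_pi (fun _ : L => (volume : Measure unitInterval))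
    (fun l => volume.map (φ l)) (f := φ) fun l => ⟨hφ l, rfl⟩
  rw [← integral_map h.measurable.aemeasurable (Measurable.of_discrete (f := F)).aestronglyMeasurable,
    h.map_eq, integral_fintype Integrable.of_finite]
  refine Finset.sum_congr rfl fun s _ => ?_
  rw [smul_eq_mul, measureReal_def, Measure.pi_singleton, ENNReal.toReal_prod]
  congr 1
  refine Finset.prod_congr rfl fun l _ => ?_
  rw [Measure.map_apply (hφ l) (measurableSet_singleton _)]
  rfl

lemma sum_law {φ : unitInterval → S} (hφ : Measurable φ) : ∑ s, law φ s = 1 := by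
  have : IsProbabilityMeasure ((volume : Measure unitInterval).map φ) :=
    Measure.isProbabilityMeasure_map hφ.aemeasurable
  have h := integral_fintype (μ := (volume : Measure unitInterval).map φ) (f := fun _ => (1 : ℝ))
    Integrable.of_finite
  rw [integral_const, probReal_univ, smul_eq_mul, mul_one] at h
  rw [h]
  refine Finset.sum_congr rfl fun s _ => ?_
  rw [smul_eq_mul, mul_one, measureReal_def, Measure.map_apply hφ (measurableSet_singleton _)]
  rfl

lemma exists_sampler (w : S → ℝ) (hw : ∀ s, 0 ≤ w s) (hs : ∑ s, w s = 1) :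
    ∃ φ : unitInterval → S, Measurable φ ∧ law φ = w := by
  classical
  have hne : Nonempty S := by
    by_contra h
    rw [not_nonempty_iff] at h
    simp at hs
  let μ : Measure S := ∑ s, ENNReal.ofReal (w s) • Measure.dirac s
  have h1 : ∀ s, μ {s} = ENNReal.ofReal (w s) := by
    intro s
    simp only [μ, Measure.finsetSum_apply, Measure.smul_apply, smul_eq_mul,
      Measure.dirac_apply' _ (measurableSet_singleton s)]
    rw [Finset.sum_eq_single s]
    · simp
    · intro t _ ht
      simp [ht]
    · simp
  have : IsProbabilityMeasure μ := by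
    constructor
    simp only [μ, Measure.finsetSum_apply, Measure.smul_apply, smul_eq_mul, measure_univ, mul_one]
    rw [← ENNReal.ofReal_sum_of_nonneg fun s _ => hw s, hs, ENNReal.ofReal_one]
  obtain ⟨φ, hφ, hφ'⟩ := Measure.exists_measurable_map_eq μ
  refine ⟨φ, hφ, funext fun s => ?_⟩
  rw [law, measureReal_def, ← Measure.map_apply hφ (measurableSet_singleton _), hφ', h1,
    ENNReal.toReal_ofReal (hw s)]

end

/-- The state after level `j`. -/
def st {S : Type} {r : ℕ} (φ0 : unitInterval → S) (φ : ℕ → S → unitInterval → S) :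
    ℕ → (Fin (r + 1) → unitInterval) → S
  | 0, u => φ0 (u 0)
  | j + 1, u => φ (r - 1 - j) (st φ0 φ j u) (u (Fin.ofNat (r + 1) (j + 1)))

lemma st_zero {S : Type} {r : ℕ} (φ0 : unitInterval → S) (φ : ℕ → S → unitInterval → S)
    (u : Fin (r + 1) → unitInterval) : st φ0 φ 0 u = φ0 (u 0) := rfl

lemma st_succ {S : Type} {r : ℕ} (φ0 : unitInterval → S) (φ : ℕ → S → unitInterval → S) (j : ℕ)
    (u : Fin (r + 1) → unitInterval) :
    st φ0 φ (j + 1) u = φ (r - 1 - j) (st φ0 φ j u) (u (Fin.ofNat (r + 1) (j + 1))) := rfl

lemma st_congr {S : Type} {r : ℕ} (φ0 : unitInterval → S) (φ : ℕ → S → unitInterval → S) (j : ℕ)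
    (hj : j ≤ r) {u u' : Fin (r + 1) → unitInterval} (h : ∀ i : Fin (r + 1), i.val ≤ j → u i = u' i) :
    st φ0 φ j u = st φ0 φ j u' := by
  induction j with
  | zero => rw [st_zero, st_zero, h 0 le_rfl]
  | succ j ih =>
    rw [st_succ, st_succ, ih (by omega) fun i hi => h i (by omega), h]
    exact Nat.mod_le _ _

section
variable {S : Type} [Fintype S] [MeasurableSpace S] [DiscreteMeasurableSpace S] {r : ℕ}
  {φ0 : unitInterval → S} {φ : ℕ → S → unitInterval → S}

lemma measurable_st (h0 : Measurable φ0) (h : ∀ d s, Measurable (φ d s)) (j : ℕ) :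
    Measurable (st (r := r) φ0 φ j) := by
  induction j with
  | zero => exact h0.comp (measurable_pi_apply 0)
  | succ j ih =>
    have h1 : Measurable fun p : S × unitInterval => φ (r - 1 - j) p.1 p.2 :=
      measurable_from_prod_countable_right fun s => h _ s
    exact h1.comp (ih.prodMk (measurable_pi_apply _))

lemma suffix_eq (h : ∀ d s, Measurable (φ d s)) (m : Fin r → ℝ) {L : Type} [Fintype L]
    [DecidableEq L] (Z : (L → S) → ℝ) (d : ℕ) (hd : d ≤ r) :
    ((List.finRange r).drop (r - d)).foldr (fun d acc => pmStep (m d) d.succ acc)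
      (fun u : L → Fin (r + 1) → unitInterval => Z fun l => st φ0 φ r (u l)) =
    fun u => nm (fun d => pk fun s => law (φ d s)) (mrev m) Z d fun l => st φ0 φ (r - d) (u l) := by
  induction d with
  | zero =>
    rw [Nat.sub_zero, List.drop_of_length_le (by simp)]
    rfl
  | succ d ih =>
    have hj : r - (d + 1) < (List.finRange r).length := by
      simp only [List.length_finRange]
      omega
    have hj' : r - (d + 1) + 1 = r - d := by omega
    rw [List.drop_eq_getElem_cons hj, List.foldr_cons, hj', ih (by omega)]
    funext u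
    have hm : m (List.finRange r)[r - (d + 1)] = mrev m d := by
      rw [mrev, dif_pos (by omega)]
      congr 1
      ext
      simp only [List.getElem_finRange, Fin.cast_mk]
      omega
    have hlvl : ((List.finRange r)[r - (d + 1)]).succ = Fin.ofNat (r + 1) (r - d) := by
      ext
      simp only [List.getElem_finRange, Fin.cast_mk, Fin.succ_mk, Fin.val_ofNat]
      rw [Nat.mod_eq_of_lt (by omega)]
      omega
    rw [nm_succ, pmStep, hm, hlvl]
    simp only [pk]
    rw [← integral_pi (fun l => φ d (st φ0 φ (r - (d + 1)) (u l))) fun l => h _ _]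
    congr 2
    funext v
    congr 2
    funext l
    rw [← hj', st_succ, hj', if_pos rfl, show r - 1 - (r - (d + 1)) = d by omega]
    congr 1
    refine st_congr _ _ _ (by omega) fun i hi => if_neg fun hc => ?_
    have := congrArg Fin.val hc
    rw [Fin.val_ofNat, Nat.mod_eq_of_lt (by omega)] at this
    omega

/-- The finite trial given by samplers. -/
noncomputable def toFT (h0 : Measurable φ0) (h : ∀ d s, Measurable (φ d s)) (x : S → ℝ) : FT where
  S := S
  init := law φ0
  κ := fun d s => law (φ d s)
  x := x
  init_nonneg := law_nonneg _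
  init_sum := sum_law h0
  κ_nonneg := fun _ _ => law_nonneg _
  κ_sum := fun d s => sum_law (h d s)

lemma valX_eq (h0 : Measurable φ0) (h : ∀ d s, Measurable (φ d s)) (x : S → ℝ) (m : Fin r → ℝ) :
    valX m (fun u => x (st φ0 φ r u)) = (toFT h0 h x).val m := by
  funext L _ _ W
  have h1 := suffix_eq (φ0 := φ0) h m (fun s : L → S => W fun l => x (s l)) r le_rfl
  rw [Nat.sub_self, List.drop_zero] at h1
  rw [valX, powerMeans, h1]
  have h2 := measurePreserving_pi
    (fun _ : L => Measure.pi fun _ : Fin (r + 1) => (volume : Measure unitInterval))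
    (fun _ : L => (volume : Measure unitInterval)) (f := fun _ => Function.eval 0)
    fun l => measurePreserving_eval _ 0
  have h3 := integral_pi (fun _ : L => φ0) (fun _ => h0) fun s =>
    Real.log (nm (fun d => pk fun s => law (φ d s)) (mrev m)
      (fun s : L → S => W fun l => x (s l)) r s)
  refine Eq.trans ?_ h3
  rw [← h2.map_eq, integral_map h2.measurable.aemeasurable]
  · rfl
  · refine Measurable.aestronglyMeasurable ?_
    exact (Measurable.of_discrete (f := fun s : L → S => Real.log
      (nm (fun d => pk fun s => law (φ d s)) (mrev m)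
        (fun s : L → S => W fun l => x (s l)) r s))).comp
      (measurable_pi_lambda _ fun l => h0.comp (measurable_pi_apply l))

end

end Bridge

open Bridge

theorem partB1 : PartB1 := by
  intro r m T
  let _ : MeasurableSpace T.S := ⊤
  obtain ⟨φ0, h0, h0'⟩ := exists_sampler T.init T.init_nonneg T.init_sum
  choose φ h h' using fun d s => exists_sampler (T.κ d s) (T.κ_nonneg d s) (T.κ_sum d s)
  refine ⟨fun u => T.x (st φ0 φ r u),
    (Measurable.of_discrete (f := T.x)).comp (measurable_st h0 h r), ?_⟩
  rw [valX_eq h0 h]
  funext L _ _ W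
  simp only [FT.val, toFT, h0', h']
  rfl

end Crest.Agent.R141
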