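import Crest.Agent.R141.Bridge1

/-!
Row 141, part B2: measurable trials are approximated by finite Markov trials.
-/

set_option autoImplicit false
set_option linter.unusedSectionVars false
set_option linter.unusedVariables false

namespace Crest.Agent.R141

open Crest.ProbabilityR.Diluted MeasureTheory Filter Topology

namespace Bridge

/-- The uniform law on the cube. -/
noncomputable abbrev cube (r : ℕ) : Measure (Fin (r + 1) → unitInterval) :=
  Measure.pi fun _ => (volume : Measure unitInterval)

instance (L : Type) [Fintype L] (r : ℕ) : IsProbabilityMeasure (uniformArrays L r) := by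
  unfold uniformArrays
  infer_instance

lemma mp_upd1 {r : ℕ} (lvl : Fin (r + 1)) :
    MeasurePreserving
      (fun (p : (Fin (r + 1) → unitInterval) × unitInterval) j => if j = lvl then p.2 else p.1 j)
      ((cube r).prod volume) (cube r) := by
  have hm : Measurable fun (p : (Fin (r + 1) → unitInterval) × unitInterval) j =>
      if j = lvl then p.2 else p.1 j := by
    refine measurable_pi_lambda _ fun j => ?_
    split_ifs <;> fun_prop
  refine ⟨hm, (Measure.pi_eq fun s hs => ?_).symm⟩
  rw [Measure.map_apply hm (MeasurableSet.univ_pi hs)]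
  have : (fun (p : (Fin (r + 1) → unitInterval) × unitInterval) j =>
      if j = lvl then p.2 else p.1 j) ⁻¹' Set.univ.pi s =
      (Set.univ.pi (Function.update s lvl Set.univ)) ×ˢ s lvl := by
    ext p
    simp only [Set.mem_preimage, Set.mem_pi, Set.mem_univ, true_imp_iff, Set.mem_prod]
    constructor
    · intro h
      refine ⟨fun j => ?_, by simpa using h lvl⟩
      by_cases hj : j = lvl
      · subst hj
        simp
      · simpa [hj] using h j
    · rintro ⟨h1, h2⟩ j
      by_cases hj : j = lvl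
      · subst hj
        simpa using h2
      · simpa [hj] using h1 j
  rw [this, Measure.prod_prod, Measure.pi_pi, ← Finset.prod_erase_mul _ _ (Finset.mem_univ lvl),
    ← Finset.prod_erase_mul Finset.univ (fun i => volume (s i)) (Finset.mem_univ lvl)]
  simp only [Function.update_self, measure_univ, mul_one]
  congr 1
  refine Finset.prod_congr rfl fun j hj => ?_
  rw [Function.update_of_ne (Finset.ne_of_mem_erase hj)]

section
variable {L : Type} [Fintype L] {r : ℕ}

lemma mp_upd (lvl : Fin (r + 1)) :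
    MeasurePreserving
      (fun (p : (L → Fin (r + 1) → unitInterval) × (L → unitInterval)) ω j =>
        if j = lvl then p.2 ω else p.1 ω j)
      ((uniformArrays L r).prod (Measure.pi fun _ => volume)) (uniformArrays L r) :=
  (measurePreserving_pi (fun _ : L => (cube r).prod volume) (fun _ : L => cube r)
    fun _ => mp_upd1 lvl).comp
    (measurePreserving_arrowProdEquivProdArrow _ _ L (fun _ => cube r) fun _ => volume).symm

/-- Measurable functions with values in `[a, b]`. -/
def Good (a b : ℝ) (W : (L → Fin (r + 1) → unitInterval) → ℝ) : Prop :=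
  Measurable W ∧ ∀ u, a ≤ W u ∧ W u ≤ b

variable {a b m : ℝ}

lemma Good.int_bounds {W : (L → Fin (r + 1) → unitInterval) → ℝ} (hW : Good a b W) (ha : 0 < a)
    (hm : 0 < m) (lvl : Fin (r + 1)) (u : L → Fin (r + 1) → unitInterval) :
    a ^ m ≤ ∫ v : L → unitInterval, (W (fun ω j => if j = lvl then v ω else u ω j)) ^ m
      ∂(Measure.pi fun _ => volume) ∧
    ∫ v : L → unitInterval, (W (fun ω j => if j = lvl then v ω else u ω j)) ^ m
      ∂(Measure.pi fun _ => volume) ≤ b ^ m := by
  have h1 : ∀ u, a ^ m ≤ W u ^ m := fun u => Real.rpow_le_rpow ha.le (hW.2 u).1 hm.le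
  have h2 : ∀ u, W u ^ m ≤ b ^ m := fun u =>
    Real.rpow_le_rpow (ha.le.trans (hW.2 u).1) (hW.2 u).2 hm.le
  have h3 : Integrable (fun v : L → unitInterval =>
      (W (fun ω j => if j = lvl then v ω else u ω j)) ^ m) (Measure.pi fun _ => volume) := by
    refine Integrable.of_bound (((hW.1.comp ((mp_upd lvl).measurable.comp
      measurable_prodMk_left)).pow_const m).aestronglyMeasurable) (b ^ m) (ae_of_all _ fun v => ?_)
    rw [Real.norm_of_nonneg ((Real.rpow_nonneg ha.le m).trans (h1 _))]
    exact h2 _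
  constructor
  · have := integral_mono (integrable_const (a ^ m)) h3 fun v => h1 _
    simpa using this
  · have := integral_mono h3 (integrable_const (b ^ m)) fun v => h2 _
    simpa using this

lemma Good.step {W : (L → Fin (r + 1) → unitInterval) → ℝ} (hW : Good a b W) (ha : 0 < a)
    (hm : 0 < m) (lvl : Fin (r + 1)) : Good a b (pmStep m lvl W) := by
  constructor
  · refine Measurable.pow_const ?_ _
    exact (((hW.1.comp (mp_upd lvl).measurable).pow_const m).stronglyMeasurable.integral_prod_right'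
      (ν := Measure.pi fun _ : L => (volume : Measure unitInterval))).measurable
  · intro u
    obtain ⟨h1, h2⟩ := hW.int_bounds ha hm lvl u
    have h3 := Real.rpow_nonneg ha.le m
    have hb : 0 ≤ b := ha.le.trans ((hW.2 u).1.trans (hW.2 u).2)
    rw [pmStep, one_div]
    constructor
    · have := Real.rpow_le_rpow h3 h1 (inv_pos.2 hm).le
      rwa [Real.rpow_rpow_inv ha.le hm.ne'] at this
    · have := Real.rpow_le_rpow (h3.trans h1) h2 (inv_pos.2 hm).le
      rwa [Real.rpow_rpow_inv hb hm.ne'] at this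

lemma tendsto_step {Wn : ℕ → (L → Fin (r + 1) → unitInterval) → ℝ}
    {W : (L → Fin (r + 1) → unitInterval) → ℝ} (hWn : ∀ n, Good a b (Wn n)) (hW : Good a b W)
    (ha : 0 < a) (hm : 0 < m) (lvl : Fin (r + 1))
    (h : ∀ᵐ u ∂uniformArrays L r, Tendsto (fun n => Wn n u) atTop (𝓝 (W u))) :
    ∀ᵐ u ∂uniformArrays L r,
      Tendsto (fun n => pmStep m lvl (Wn n) u) atTop (𝓝 (pmStep m lvl W u)) := by
  filter_upwards [Measure.ae_ae_of_ae_prod ((mp_upd lvl).quasiMeasurePreserving.ae h)] with u hu
  refine Tendsto.rpow_const ?_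
    (Or.inl ((Real.rpow_pos_of_pos ha m).trans_le (hW.int_bounds ha hm lvl u).1).ne')
  refine tendsto_integral_of_dominated_convergence (fun _ => b ^ m) (fun n => ?_)
    (integrable_const _) (fun n => ae_of_all _ fun v => ?_) ?_
  · exact (((hWn n).1.comp ((mp_upd lvl).measurable.comp
      measurable_prodMk_left)).pow_const m).aestronglyMeasurable
  · have h0 := ha.le.trans ((hWn n).2 fun ω j => if j = lvl then v ω else u ω j).1
    rw [Real.norm_of_nonneg (Real.rpow_nonneg h0 m)]
    exact Real.rpow_le_rpow h0 ((hWn n).2 _).2 hm.le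
  · filter_upwards [hu] with v hv
    exact hv.rpow_const (Or.inr hm.le)

lemma Good.foldr {W : (L → Fin (r + 1) → unitInterval) → ℝ} (hW : Good a b W) (ha : 0 < a)
    {m : Fin r → ℝ} (hm : ∀ d, 0 < m d) (l : List (Fin r)) :
    Good a b (l.foldr (fun d acc => pmStep (m d) d.succ acc) W) := by
  induction l with
  | nil => exact hW
  | cons d l ih => exact ih.step ha (hm d) _

lemma tendsto_foldr {Wn : ℕ → (L → Fin (r + 1) → unitInterval) → ℝ}
    {W : (L → Fin (r + 1) → unitInterval) → ℝ} (hWn : ∀ n, Good a b (Wn n)) (hW : Good a b W)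
    (ha : 0 < a) {m : Fin r → ℝ} (hm : ∀ d, 0 < m d)
    (h : ∀ᵐ u ∂uniformArrays L r, Tendsto (fun n => Wn n u) atTop (𝓝 (W u))) (l : List (Fin r)) :
    ∀ᵐ u ∂uniformArrays L r,
      Tendsto (fun n => l.foldr (fun d acc => pmStep (m d) d.succ acc) (Wn n) u) atTop
        (𝓝 (l.foldr (fun d acc => pmStep (m d) d.succ acc) W u)) := by
  induction l with
  | nil => exact h
  | cons d l ih =>
    exact tendsto_step (fun n => (hWn n).foldr ha hm l) (hW.foldr ha hm l) ha (hm d) _ ih

lemma abs_log_le {A x : ℝ} (h1 : Real.exp (-A) ≤ x) (h2 : x ≤ Real.exp A) : |Real.log x| ≤ A := by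
  have hx : 0 < x := (Real.exp_pos _).trans_le h1
  exact abs_le.2 ⟨(Real.le_log_iff_exp_le hx).2 h1, (Real.log_le_iff_le_exp hx).2 h2⟩

variable [DecidableEq L]

lemma good_comp {X : (Fin (r + 1) → unitInterval) → ℝ} (hX : Measurable X) {V : (L → ℝ) → ℝ}
    (hV : Continuous V) (hb : ∀ x, a ≤ V x ∧ V x ≤ b) :
    Good a b fun u : L → Fin (r + 1) → unitInterval => V fun l => X (u l) :=
  ⟨hV.measurable.comp (measurable_pi_lambda _ fun l => hX.comp (measurable_pi_apply l)),
    fun _ => hb _⟩

lemma abs_valX_le {m : Fin r → ℝ} (hm : ∀ d, 0 < m d) {X : (Fin (r + 1) → unitInterval) → ℝ}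
    (hX : Measurable X) {V : (L → ℝ) → ℝ} (hV : Continuous V) {A : ℝ}
    (hb : ∀ x, Real.exp (-A) ≤ V x ∧ V x ≤ Real.exp A) : |valX m X L V| ≤ A := by
  have h := (good_comp hX hV hb).foldr (Real.exp_pos _) hm (List.finRange r)
  have := norm_integral_le_of_norm_le_const (μ := uniformArrays L r) (C := A)
    (f := fun u => Real.log (powerMeans m
      (fun u' : L → Fin (r + 1) → unitInterval => V (fun l => X (u' l))) u))
    (ae_of_all _ fun u => abs_log_le (h.2 u).1 (h.2 u).2)
  simpa [valX] using this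

lemma tendsto_valX {m : Fin r → ℝ} (hm : ∀ d, 0 < m d)
    {Xn : ℕ → (Fin (r + 1) → unitInterval) → ℝ} {X : (Fin (r + 1) → unitInterval) → ℝ}
    (hXn : ∀ n, Measurable (Xn n)) (hX : Measurable X)
    (hlim : ∀ᵐ u ∂cube r, Tendsto (fun n => Xn n u) atTop (𝓝 (X u)))
    {V : (L → ℝ) → ℝ} (hV : Continuous V) {A : ℝ}
    (hb : ∀ x, Real.exp (-A) ≤ V x ∧ V x ≤ Real.exp A) :
    Tendsto (fun n => valX m (Xn n) L V) atTop (𝓝 (valX m X L V)) := by
  have h := (good_comp hX hV hb).foldr (Real.exp_pos _) hm (List.finRange r)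
  have hn := fun n => (good_comp (hXn n) hV hb).foldr (Real.exp_pos _) hm (List.finRange r)
  have h1 : ∀ᵐ u ∂uniformArrays L r, ∀ l, Tendsto (fun n => Xn n (u l)) atTop (𝓝 (X (u l))) :=
    ae_all_iff.2 fun l =>
      (measurePreserving_eval (fun _ : L => cube r) l).quasiMeasurePreserving.ae hlim
  have h2 := tendsto_foldr (fun n => good_comp (hXn n) hV hb) (good_comp hX hV hb)
    (Real.exp_pos _) hm (h1.mono fun u hu => (hV.tendsto _).comp (tendsto_pi_nhds.2 hu))
    (List.finRange r)
  refine tendsto_integral_of_dominated_convergence (fun _ => A)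
    (fun n => (hn n).1.log.aestronglyMeasurable) (integrable_const _)
    (fun n => ae_of_all _ fun u => abs_log_le ((hn n).2 u).1 ((hn n).2 u).2) ?_
  filter_upwards [h2] with u hu
  exact hu.log ((Real.exp_pos _).trans_le (h.2 u).1).ne'

end

/-! ### Step functions -/

lemma step_realized {r : ℕ} (m : Fin r → ℝ) (c : SimpleFunc unitInterval unitInterval)
    (g : (Fin (r + 1) → unitInterval) → ℝ) :
    Measurable (fun u : Fin (r + 1) → unitInterval => g fun j => c (u j)) ∧
      ∃ T : FT, valX m (fun u => g fun j => c (u j)) = T.val m := by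
  classical
  let C := ↥c.range
  let _ : MeasurableSpace C := ⊤
  let cell : unitInterval → C := fun t => ⟨c t, c.mem_range_self t⟩
  have hcell : Measurable cell := by
    refine measurable_to_countable' fun s => ?_
    have : cell ⁻¹' {s} = c ⁻¹' {s.1} := by
      ext t
      exact Subtype.ext_iff
    rw [this]
    exact c.measurableSet_fiber _
  let φ0 : unitInterval → Fin (r + 1) → C := fun t _ => cell t
  let φ : ℕ → (Fin (r + 1) → C) → unitInterval → Fin (r + 1) → C :=
    fun d s t i => if i.val = r - d then cell t else s i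
  have h0 : Measurable φ0 := measurable_pi_lambda _ fun _ => hcell
  have h : ∀ d s, Measurable (φ d s) := fun d s => measurable_pi_lambda _ fun i => by
    simp only [φ]
    split_ifs
    · exact hcell
    · exact measurable_const
  have hst : ∀ j ≤ r, ∀ (u : Fin (r + 1) → unitInterval) (i : Fin (r + 1)), i.val ≤ j →
      st φ0 φ j u i = cell (u i) := by
    intro j
    induction j with
    | zero =>
      intro _ u i hi
      obtain rfl : i = 0 := Fin.ext (by simpa using hi)
      rfl
    | succ j ih =>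
      intro hj u i hi
      rw [st_succ]
      simp only [φ]
      split_ifs with hc
      · congr 2
        ext
        rw [Fin.val_ofNat, Nat.mod_eq_of_lt (by omega)]
        omega
      · exact ih (by omega) u i (by omega)
  have he : (fun u : Fin (r + 1) → unitInterval => g fun j => c (u j)) =
      fun u => (fun s : Fin (r + 1) → C => g fun j => (s j).1) (st φ0 φ r u) := by
    funext u
    congr 1
    funext j
    rw [hst r le_rfl u j (Nat.lt_succ_iff.1 j.2)]
  rw [he]
  exact ⟨(Measurable.of_discrete (f := fun s : Fin (r + 1) → C => g fun j => (s j).1)).comp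
    (measurable_st h0 h r), _, valX_eq h0 h (fun s : Fin (r + 1) → C => g fun j => (s j).1) m⟩

lemma exists_step_close {r : ℕ} {Y : (Fin (r + 1) → unitInterval) → ℝ}
    (hY : Integrable Y (cube r)) {ε : ℝ} (hε : 0 < ε) :
    ∃ (c : SimpleFunc unitInterval unitInterval) (g : (Fin (r + 1) → unitInterval) → ℝ),
      Integrable (fun u => g fun j => c (u j)) (cube r) ∧
      ∫ u, ‖(g fun j => c (u j)) - Y u‖ ∂cube r ≤ ε := by
  obtain ⟨g, hg, hg'⟩ := hY.exists_boundedContinuous_integral_sub_le (half_pos hε)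
  have hid : StronglyMeasurable (id : unitInterval → unitInterval) := stronglyMeasurable_id
  have hm : ∀ n, Measurable fun u : Fin (r + 1) → unitInterval => g fun j => hid.approx n (u j) :=
    fun n => g.continuous.measurable.comp
      (measurable_pi_lambda _ fun j => (hid.approx n).measurable.comp (measurable_pi_apply j))
  have hi : ∀ n, Integrable
      (fun u : Fin (r + 1) → unitInterval => g fun j => hid.approx n (u j)) (cube r) :=
    fun n => Integrable.of_bound (hm n).aestronglyMeasurable ‖g‖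
      (ae_of_all _ fun u => g.norm_coe_le_norm _)
  have h1 : Tendsto (fun n => ∫ u, ‖(g fun j => hid.approx n (u j)) - g u‖ ∂cube r) atTop
      (𝓝 (∫ u, (0 : ℝ) ∂cube r)) := by
    refine tendsto_integral_of_dominated_convergence (fun _ => ‖g‖ + ‖g‖)
      (fun n => ((hi n).sub hg').norm.aestronglyMeasurable) (integrable_const _)
      (fun n => ae_of_all _ fun u => ?_) (ae_of_all _ fun u => ?_)
    · rw [norm_norm]
      exact (norm_sub_le _ _).trans (add_le_add (g.norm_coe_le_norm _) (g.norm_coe_le_norm _))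
    · exact tendsto_iff_norm_sub_tendsto_zero.1 ((g.continuous.tendsto u).comp
        (tendsto_pi_nhds.2 fun j => hid.tendsto_approx (u j)))
  rw [integral_zero] at h1
  obtain ⟨n, hn⟩ := (h1.eventually (ge_mem_nhds (half_pos hε))).exists
  refine ⟨hid.approx n, g, hi n, ?_⟩
  have h2 := integral_mono ((hi n).sub hY).norm (((hi n).sub hg').norm.add (hY.sub hg').norm)
    fun u => by
      simp only [Pi.sub_apply, Pi.add_apply]
      rw [norm_sub_rev (Y u)]
      exact norm_sub_le_norm_sub_add_norm_sub _ _ _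
  rw [integral_add' ((hi n).sub hg').norm (hY.sub hg').norm] at h2
  simp only [Pi.sub_apply] at h2
  linarith

lemma exists_step_seq {r : ℕ} (m : Fin r → ℝ) {X : (Fin (r + 1) → unitInterval) → ℝ}
    (hX : Measurable X) :
    ∃ Xn : ℕ → (Fin (r + 1) → unitInterval) → ℝ, (∀ n, Measurable (Xn n)) ∧
      (∀ n, ∃ T : FT, valX m (Xn n) = T.val m) ∧
      ∀ᵐ u ∂cube r, Tendsto (fun n => Xn n u) atTop (𝓝 (X u)) := by
  have hY : Integrable (fun u => Real.arctan (X u)) (cube r) := by
    refine Integrable.of_bound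
      (Real.continuous_arctan.measurable.comp hX).aestronglyMeasurable (Real.pi / 2)
      (ae_of_all _ fun u => ?_)
    exact abs_le.2 ⟨(Real.neg_pi_div_two_lt_arctan _).le, (Real.arctan_lt_pi_div_two _).le⟩
  choose c g hi hg using fun n : ℕ => exists_step_close hY (Nat.one_div_pos_of_nat (n := n))
  have h1 : TendstoInMeasure (cube r) (fun n u => g n fun j => c n (u j)) atTop
      fun u => Real.arctan (X u) := by
    refine tendstoInMeasure_of_tendsto_eLpNorm (p := 1) one_ne_zero
      (fun n => (hi n).aestronglyMeasurable) hY.aestronglyMeasurable ?_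
    have h2 : Tendsto (fun n : ℕ => ENNReal.ofReal (1 / ((n : ℝ) + 1))) atTop (𝓝 0) := by
      simpa using ENNReal.tendsto_ofReal tendsto_one_div_add_atTop_nhds_zero_nat
    refine tendsto_of_tendsto_of_tendsto_of_le_of_le tendsto_const_nhds h2
      (fun _ => zero_le) fun n => ?_
    rw [eLpNorm_one_eq_lintegral_enorm, ← ofReal_integral_norm_eq_lintegral_enorm ((hi n).sub hY)]
    exact ENNReal.ofReal_le_ofReal (hg n)
  obtain ⟨ns, -, h3⟩ := h1.exists_seq_tendsto_ae
  refine ⟨fun n u => Real.tan (g (ns n) fun j => c (ns n) (u j)),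
    fun n => (step_realized m (c (ns n)) fun s => Real.tan (g (ns n) s)).1,
    fun n => (step_realized m (c (ns n)) fun s => Real.tan (g (ns n) s)).2, ?_⟩
  filter_upwards [h3] with u hu
  have := (Real.continuousAt_tan.2 (Real.cos_arctan_pos (X u)).ne').tendsto.comp hu
  rwa [Real.tan_arctan] at this

/-! ### The site and edge terms -/

lemma tilt_pos (x : ℝ) (s : Bool) : 0 < tilt x s :=
  div_pos (Real.exp_pos _) (mul_pos two_pos (Real.cosh_pos _))

lemma sum_tilt (x : ℝ) : ∑ s, tilt x s = 1 := by
  have := Real.cosh_pos x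
  rw [Fintype.sum_bool, tilt, tilt, ← add_div, div_eq_one_iff_eq (by positivity), Real.cosh_eq]
  simp [spinVal]
  ring

lemma continuous_tilt (s : Bool) : Continuous fun x => tilt x s := by
  unfold tilt
  exact Continuous.div (by fun_prop) (by fun_prop) fun x => (mul_pos two_pos (Real.cosh_pos _)).ne'

lemma avg_bounds {ι : Type} [Fintype ι] [DecidableEq ι] (θ : (ι → Bool) → ℝ) {A : ℝ}
    (hθ : ∀ s, |θ s| ≤ A) (x : ι → ℝ) :
    Real.exp (-A) ≤ ∑ s : ι → Bool, Real.exp (θ s) * ∏ l, tilt (x l) (s l) ∧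
      ∑ s : ι → Bool, Real.exp (θ s) * ∏ l, tilt (x l) (s l) ≤ Real.exp A := by
  have h1 : ∑ s : ι → Bool, ∏ l, tilt (x l) (s l) = 1 := by
    rw [← Fintype.piFinset_univ, ← Finset.prod_univ_sum]
    simp only [sum_tilt, Finset.prod_const_one]
  have h2 : ∀ s : ι → Bool, 0 ≤ ∏ l, tilt (x l) (s l) :=
    fun s => Finset.prod_nonneg fun l _ => (tilt_pos _ _).le
  constructor
  · rw [← mul_one (Real.exp (-A)), ← h1, Finset.mul_sum]
    exact Finset.sum_le_sum fun s _ =>
      mul_le_mul_of_nonneg_right (Real.exp_le_exp.2 (abs_le.1 (hθ s)).1) (h2 s)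
  · rw [← mul_one (Real.exp A), ← h1, Finset.mul_sum]
    exact Finset.sum_le_sum fun s _ =>
      mul_le_mul_of_nonneg_right (Real.exp_le_exp.2 (abs_le.1 (hθ s)).2) (h2 s)

lemma continuous_avg {ι : Type} [Fintype ι] [DecidableEq ι] (θ : (ι → Bool) → ℝ) :
    Continuous fun x : ι → ℝ => ∑ s : ι → Bool, Real.exp (θ s) * ∏ l, tilt (x l) (s l) :=
  continuous_finsetSum _ fun s _ => continuous_const.mul
    (continuous_finsetProd _ fun l _ => (continuous_tilt (s l)).comp (continuous_apply l))

lemma abs_siteMessage_le {p : ℕ} (θ : Inter p) {A : ℝ} (hθ : ∀ s, |θ s| ≤ A)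
    (x : Fin (p - 1) → ℝ) (ε : Bool) : |siteMessage θ x ε| ≤ A :=
  have h := avg_bounds (fun s' : Fin (p - 1) → Bool =>
    θ fun ℓ => if h : ℓ.val < p - 1 then s' ⟨ℓ.val, h⟩ else ε) (fun _ => hθ _) x
  abs_log_le h.1 h.2

lemma continuous_siteMessage {p : ℕ} (θ : Inter p) {A : ℝ} (hθ : ∀ s, |θ s| ≤ A) (ε : Bool) :
    Continuous fun x => siteMessage θ x ε :=
  (continuous_avg fun s' : Fin (p - 1) → Bool =>
    θ fun ℓ => if h : ℓ.val < p - 1 then s' ⟨ℓ.val, h⟩ else ε).log fun x =>
    ((Real.exp_pos _).trans_le (avg_bounds (fun s' : Fin (p - 1) → Bool =>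
      θ fun ℓ => if h : ℓ.val < p - 1 then s' ⟨ℓ.val, h⟩ else ε) (fun _ => hθ _) x).1).ne'

lemma siteTerm_bounds {p k : ℕ} {h H A : ℝ} (hh : |h| ≤ H) (θs : Fin k → Inter p)
    (hθ : ∀ j s, |θs j s| ≤ A) (x : Fin k → Fin (p - 1) → ℝ) :
    Real.exp (-(H + k * A)) ≤ siteTerm h θs x ∧ siteTerm h θs x ≤ Real.exp (H + k * A) := by
  have h1 : ∀ ε, |h * spinVal ε + ∑ j : Fin k, siteMessage (θs j) (x j) ε| ≤ H + k * A := by
    intro ε
    refine (abs_add_le _ _).trans (add_le_add ?_ ?_)
    · cases ε <;> simpa [spinVal] using hh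
    · refine (Finset.abs_sum_le_sum_abs _ _).trans ?_
      refine (Finset.sum_le_sum fun j _ => abs_siteMessage_le _ (hθ j) _ _).trans ?_
      simp
  have h2 := fun ε => Real.exp_le_exp.2 (abs_le.1 (h1 ε)).1
  have h3 := fun ε => Real.exp_le_exp.2 (abs_le.1 (h1 ε)).2
  rw [siteTerm, Fintype.sum_bool]
  constructor <;> linarith [h2 true, h2 false, h3 true, h3 false]

lemma continuous_siteTerm {p k : ℕ} (h : ℝ) {A : ℝ} (θs : Fin k → Inter p)
    (hθ : ∀ j s, |θs j s| ≤ A) :
    Continuous fun x : Fin k × Fin (p - 1) → ℝ => siteTerm h θs fun j ℓ => x (j, ℓ) := by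
  unfold siteTerm
  refine continuous_const.mul (continuous_finsetSum _ fun ε _ => Real.continuous_exp.comp
    (continuous_const.add (continuous_finsetSum _ fun j _ => ?_)))
  exact (continuous_siteMessage (θs j) (hθ j) ε).comp (by fun_prop)

end Bridge

open Bridge

theorem partB2 : PartB2 := by
  intro p M α hα r m X hm hX η hη
  obtain ⟨Xn, hXn, hT, hlim⟩ := exists_step_seq m hX
  have hm0 : ∀ d, 0 < m d := fun d => (hm.2 d).1
  obtain ⟨A, hA0, hA⟩ : ∃ A, 0 ≤ A ∧ ∀ c s, |M.θ c s| ≤ A := by
    refine ⟨∑ q : M.Θ × (Fin p → Bool), |M.θ q.1 q.2|,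
      Finset.sum_nonneg fun _ _ => abs_nonneg _, fun c s => ?_⟩
    exact Finset.single_le_sum (f := fun q : M.Θ × (Fin p → Bool) => |M.θ q.1 q.2|)
      (fun _ _ => abs_nonneg _) (Finset.mem_univ (c, s))
  obtain ⟨H, hH0, hH⟩ : ∃ H, 0 ≤ H ∧ ∀ a, |M.h a| ≤ H :=
    ⟨∑ a, |M.h a|, Finset.sum_nonneg fun _ _ => abs_nonneg _, fun a =>
      Finset.single_le_sum (f := fun a => |M.h a|) (fun _ _ => abs_nonneg _) (Finset.mem_univ a)⟩
  have hw : ∀ c, 0 ≤ M.w c := fun c =>
    mul_nonneg (M.wb_nonneg _) (Finset.prod_nonneg fun _ _ => M.wf_nonneg _)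
  have hS : 0 ≤ ∑ c, M.w c := Finset.sum_nonneg fun c _ => hw c
  have hl : 0 ≤ α * p := by positivity
  have key : Tendsto (fun n => M.gen α (valX m (Xn n))) atTop (𝓝 (M.gen α (valX m X))) := by
    unfold Model.gen
    refine Tendsto.sub (Tendsto.const_add _ ?_) (Tendsto.const_mul _ ?_)
    · refine tendsto_tsum_of_dominated_convergence
        (bound := fun k => Real.exp (-(α * p)) * (H + A) *
          ((2 * (α * p) * ∑ c, M.w c) ^ k / k.factorial))
        ((Real.summable_pow_div_factorial _).mul_left _) (fun k => ?_)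
        (Eventually.of_forall fun n k => ?_)
      · refine Tendsto.const_mul _ (tendsto_finsetSum _ fun c _ => Tendsto.const_mul _
          (tendsto_finsetSum _ fun a _ => Tendsto.const_mul _ ?_))
        exact tendsto_valX hm0 hXn hX hlim (continuous_siteTerm _ _ fun j => hA (c j))
          fun x => siteTerm_bounds (hH a) _ (fun j => hA (c j)) _
      · have h1 : ∀ c : Fin k → M.Θ, |∑ a : M.H, M.wh a * valX m (Xn n) (Fin k × Fin (p - 1))
            (fun x => siteTerm (M.h a) (fun j => M.θ (c j)) (fun j ℓ => x (j, ℓ)))| ≤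
            H + k * A := by
          intro c
          refine (Finset.abs_sum_le_sum_abs _ _).trans ?_
          rw [← one_mul (H + k * A), ← M.wh_sum, Finset.sum_mul]
          refine Finset.sum_le_sum fun a _ => ?_
          rw [abs_mul, abs_of_nonneg (M.wh_nonneg a)]
          exact mul_le_mul_of_nonneg_left (abs_valX_le hm0 (hXn n)
            (continuous_siteTerm _ _ fun j => hA (c j))
            fun x => siteTerm_bounds (hH a) _ (fun j => hA (c j)) _) (M.wh_nonneg a)
        have h2 : |∑ c : Fin k → M.Θ, (∏ j, M.w (c j)) * ∑ a : M.H, M.wh a *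
            valX m (Xn n) (Fin k × Fin (p - 1))
            (fun x => siteTerm (M.h a) (fun j => M.θ (c j)) (fun j ℓ => x (j, ℓ)))| ≤
            (∑ c, M.w c) ^ k * (H + k * A) := by
          refine (Finset.abs_sum_le_sum_abs _ _).trans ?_
          rw [Fintype.sum_pow, Finset.sum_mul]
          refine Finset.sum_le_sum fun c _ => ?_
          have h0 : 0 ≤ ∏ j, M.w (c j) := Finset.prod_nonneg fun j _ => hw _
          rw [abs_mul, abs_of_nonneg h0]
          exact mul_le_mul_of_nonneg_left (h1 c) h0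
        have h3 : H + k * A ≤ 2 ^ k * (H + A) := by
          have a1 : (k : ℝ) ≤ 2 ^ k := by exact_mod_cast (Nat.lt_two_pow_self).le
          have a2 : (1 : ℝ) ≤ 2 ^ k := one_le_pow₀ one_le_two
          nlinarith
        have h4 : 0 ≤ poissonWeight (α * p) k := by
          unfold poissonWeight
          positivity
        rw [Real.norm_eq_abs, abs_mul, abs_of_nonneg h4]
        refine (mul_le_mul_of_nonneg_left
          (h2.trans (mul_le_mul_of_nonneg_left h3 (pow_nonneg hS k))) h4).trans_eq ?_
        simp only [poissonWeight, mul_pow]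
        ring
    · refine tendsto_finsetSum _ fun c _ => Tendsto.const_mul _ ?_
      exact tendsto_valX hm0 hXn hX hlim (continuous_avg (M.θ c)) fun x => avg_bounds _ (hA c) x
  obtain ⟨n, hn⟩ := (Metric.tendsto_nhds.1 key η hη).exists
  obtain ⟨T, hT⟩ := hT n
  refine ⟨T, ?_⟩
  rw [← hT, abs_sub_comm]
  exact hn.le

end Crest.Agent.R141
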