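import Crest.Agent.R141.CVal

/-! The abstract cavity estimate. -/

set_option autoImplicit false
set_option maxHeartbeats 400000

namespace Crest.Agent.R141.C

open Finset Crest.ProbabilityR.Diluted
open scoped BigOperators

theorem tilt_logit {p : ℝ} (h0 : 0 < p) (h1 : p < 1) (b : Bool) :
    tilt (Real.log (p / (1 - p)) / 2) b = if b then p else 1 - p := by
  have hq : 0 < 1 - p := by linarith
  set x := Real.log (p / (1 - p)) / 2 with hx
  have he : Real.exp x * Real.exp x = p / (1 - p) := by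
    rw [← Real.exp_add, hx, add_halves, Real.exp_log (div_pos h0 hq)]
  have hp := Real.exp_pos x
  have he' : Real.exp x * Real.exp x * (1 - p) = p := by rw [he]; field_simp
  cases b
  · simp only [tilt, spinVal, Real.cosh_eq, Bool.false_eq_true, if_false, mul_neg, mul_one,
      Real.exp_neg]
    field_simp
    nlinarith
  · simp only [tilt, spinVal, Real.cosh_eq, if_true, mul_one, Real.exp_neg]
    field_simp
    nlinarith

/-- Lift an operator to pairs (site, point). -/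
def liftPO {Ω : Type*} (U : Type*) (E : PO Ω) : PO (U × Ω) := fun x =>
  { toLin :=
      { toFun := fun f => E x.2 (fun ω => f (x.1, ω))
        map_add' := fun _ _ => PF.add _ _ _
        map_smul' := fun _ _ => PF.const_mul _ _ _ }
    nonneg' := fun _ hf => PF.nonneg _ fun _ => hf _
    one' := PF.const _ _ }

/-- The exponents of the trial. -/
noncomputable def mTr (r : ℕ) : Fin r → ℝ := fun j => ((j : ℝ) + 1) / ((r + 1 : ℕ) : ℝ)

theorem mTr_adm (r : ℕ) : AdmissibleExponents (mTr r) := by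
  have hN : (0 : ℝ) < ((r + 1 : ℕ) : ℝ) := by positivity
  refine ⟨fun i j hij => div_lt_div_of_pos_right ?_ hN, fun d => ⟨by unfold mTr; positivity, ?_⟩⟩
  · have : (i : ℝ) < j := by exact_mod_cast hij
    linarith
  · rw [mTr, div_lt_one hN]
    have : (d : ℝ) < r := by exact_mod_cast d.2
    push_cast; linarith

theorem mrev_mTr {r d : ℕ} (h : d < r) : mrev (mTr r) d = mmE (r + 1) (d + 1) := by
  simp only [mrev, h, dif_pos, mTr, mmE]
  congr 1
  rw [Nat.cast_sub (by omega), Nat.cast_sub (by omega)]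
  push_cast; ring

section

variable {Ω U : Type} [Fintype Ω] [DecidableEq Ω] [Fintype U] [DecidableEq U] [Nonempty U]

/-- The chain used by the trial: the root is moved to the good time of the outermost level. -/
def ES (S : Sys Ω) (U : Type) (r d : ℕ) : PO (U × Ω) :=
  liftPO U (if d = r then S.Eτ d else S.Eμ d)

/-- The finite trial read off from the system at the point `ω0`. -/
noncomputable def trial (S : Sys Ω) (φ : U → Bool → Ω → ℝ) (r : ℕ) (ω0 : Ω) : FT where
  S := U × Ω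
  init x := if x.2 = ω0 then (Fintype.card U : ℝ)⁻¹ else 0
  κ d a b := ker (ES S U r (d + 1) a) b
  x a := Real.log (S.Eμ 0 a.2 (φ a.1 true) / (1 - S.Eμ 0 a.2 (φ a.1 true))) / 2
  init_nonneg s := by split_ifs <;> positivity
  init_sum := by
    rw [Fintype.sum_prod_type]
    simp
  κ_nonneg _ _ _ := ker_nonneg _ _
  κ_sum _ _ := ker_sum_one _

theorem trial_val (S : Sys Ω) {φ : U → Bool → Ω → ℝ}
    (hsum : ∀ u ω, φ u true ω + φ u false ω = 1) (hpos : ∀ u b ω, 0 < S.Eμ 0 ω (φ u b))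
    {r : ℕ} (hr : 0 < r) (ω0 : Ω) (L : Type) [Fintype L] [DecidableEq L] (V : (L → Bool) → ℝ) :
    (trial S φ r ω0).val (mTr r) L (bar V) = 𝔼 v : L → U,
      Real.log (nm (fun d => ap (pkPO L (ES S U r d))) (mmE (r + 1))
        (fun s => ∑ σ, V σ * ∏ l, φ (s l).1 (σ l) (s l).2) (r + 1) (fun l => (v l, ω0))) := by
  have h1 : nm (fun d => ap (pkPO L (ES S U r d))) (mmE (r + 1))
      (fun s => ∑ σ, V σ * ∏ l, φ (s l).1 (σ l) (s l).2) 1 =
      fun s' => bar V (fun l => (trial S φ r ω0).x (s' l)) := by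
    funext s
    simp only [nm_succ, nm_zero, mmE_zero (Nat.succ_pos r), Real.rpow_one, div_one, ap_apply,
      PF.sum, PF.const_mul, bar]
    refine sum_congr rfl fun σ _ => ?_
    rw [pkPO_prod (ES S U r 0) s (fun l x => φ x.1 (σ l) x.2)]
    congr 1
    refine prod_congr rfl fun l _ => ?_
    have e : S.Eμ 0 (s l).2 (φ (s l).1 false) = 1 - S.Eμ 0 (s l).2 (φ (s l).1 true) := by
      rw [eq_sub_iff_add_eq, add_comm, ← PF.add, PF.congr _ (hsum (s l).1), PF.const]
    have p0 := hpos (s l).1 true (s l).2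
    have p1 := hpos (s l).1 false (s l).2
    simp only [trial]
    rw [tilt_logit p0 (by linarith), ES, if_neg hr.ne]
    cases σ l
    · exact e
    · rfl
  rw [nm_shift, h1, ← nm_congr (E := fun j => ap (pkPO L (ES S U r (j + 1))))
    (E' := fun j => ap (pkPO L (ES S U r (j + 1)))) (mm := mrev (mTr r)) _ r
    (fun j hj => ⟨rfl, mrev_mTr hj⟩), Fintype.expect_eq_sum_div_card, sum_div]
  change ∑ s : L → U × Ω, (∏ l, (trial S φ r ω0).init (s l)) * Real.log (nm
    (fun j => ap (pkPO L (ES S U r (j + 1)))) (mrev (mTr r))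
    (fun s' : L → U × Ω => bar V fun l => (trial S φ r ω0).x (s' l)) r s) = _
  symm
  refine Fintype.sum_of_injective (fun (v : L → U) l => (v l, ω0))
    (fun v v' h => funext fun l => congrArg Prod.fst (congrFun h l)) _ _ (fun s hs => ?_)
    (fun v => ?_)
  · have : ∃ l, (s l).2 ≠ ω0 := by
      by_contra hc
      push Not at hc
      exact hs ⟨fun l => (s l).1, funext fun l => Prod.ext rfl (hc l).symm⟩
    obtain ⟨l, hl⟩ := this
    rw [prod_eq_zero (mem_univ l) (by simp [trial, hl]), zero_mul]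
  · simp [trial, div_eq_inv_mul]

omit [Fintype Ω] [DecidableEq Ω] [Fintype U] [DecidableEq U] [Nonempty U] in
theorem ZZ_ES {k0 : ℕ} (S : Sys Ω) (φ : U → Bool → Ω → ℝ) (r : ℕ) :
    ∀ d ≤ r, ∀ (i : Idx k0 Bool d) (x : U × Ω),
      ZZ (ES S U r) (fun b x => φ x.1 b x.2) d i x = ZZ S.Eμ (φ x.1) d i x.2 := by
  intro d
  induction d with
  | zero => intro _ i x; rfl
  | succ d ih =>
    intro hd i x
    have h : ∀ i : Idx k0 Bool d, ES S U r d x (ZZ (ES S U r) (fun b x => φ x.1 b x.2) d i) =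
        S.Eμ d x.2 (ZZ S.Eμ (φ x.1) d i) := fun i => by
      rw [ES, if_neg (by omega)]
      exact PF.congr (S.Eμ d x.2) fun ω => ih (by omega) i (x.1, ω)
    rcases i with i | ⟨k, f⟩
    · exact h i
    · exact prod_congr rfl fun j _ => h (f j)

omit [Fintype Ω] [DecidableEq Ω] [Fintype U] [DecidableEq U] [Nonempty U] in
theorem sum_mem_of_partition {L : Type} [Fintype L] [DecidableEq L] {g : L → Bool → ℝ}
    (hg : ∀ l b, 0 ≤ g l b) (hsum : ∀ l, g l true + g l false = 1) {W : (L → Bool) → ℝ} {s : ℝ}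
    (hW : ∀ σ, 0 ≤ W σ ∧ W σ ≤ s) :
    ∑ σ : L → Bool, ∏ l, g l (σ l) = 1 ∧ 0 ≤ ∑ σ, W σ * ∏ l, g l (σ l) ∧
      ∑ σ, W σ * ∏ l, g l (σ l) ≤ s := by
  have h1 : ∑ σ : L → Bool, ∏ l, g l (σ l) = 1 := by
    have := Finset.prod_univ_sum (fun _ : L => (univ : Finset Bool)) g
    simp only [Fintype.piFinset_univ, Fintype.sum_bool, hsum, prod_const_one] at this
    exact this.symm
  refine ⟨h1, sum_nonneg fun σ _ => mul_nonneg (hW σ).1 (prod_nonneg fun l _ => hg _ _), ?_⟩
  calc _ ≤ ∑ σ : L → Bool, s * ∏ l, g l (σ l) := sum_le_sum fun σ _ =>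
        mul_le_mul_of_nonneg_right (hW σ).2 (prod_nonneg fun l _ => hg _ _)
    _ = s := by rw [← mul_sum, h1, mul_one]

theorem tree_compare {k0 r : ℕ} (S : Sys Ω) {φ : U → Bool → Ω → ℝ}
    (hφ : ∀ u s ω, 0 ≤ φ u s ω ∧ φ u s ω ≤ 1) (hsum : ∀ u ω, φ u true ω + φ u false ω = 1)
    {η lam : ℝ} (hη : 0 ≤ η) (hlam : 0 < lam) (H : DecHyp k0 (r + 1) S φ η)
    {L : Type} [Fintype L] [DecidableEq L] {q : ℕ} (hq : Fintype.card L ≤ q)
    {W : (L → Bool) → ℝ} {s c : ℝ} (hW : ∀ σ, 0 ≤ W σ ∧ W σ ≤ s) (hc : 1 ≤ c) (hcs : c * s < 1)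
    (R0 : ℕ) :
    𝔼 v : L → U, S.out (fun ω =>
      |S.Eτ r ω (KT k0 (eE (r + 1)) S.Eμ (fun x => ∑ σ, W σ * phiL φ v σ x) r) -
        pkPO L (ES S U r r) (fun l => (v l, ω)) (KT k0 (eE (r + 1)) (fun d => pkPO L (ES S U r d))
          (fun s => ∑ σ, W σ * ∏ l, φ (s l).1 (σ l) (s l).2) r)|) ≤
      (20 * 2 ^ q) ^ R0 * (q * (((r + 1 : ℕ) : ℝ) * η / 5 +
        3 * (lam / 10 + 1 / (20 * lam * ((r + 1 : ℕ) : ℝ))))) +
      (c ^ R0)⁻¹ * (2 * (- Real.log (1 - c * s))) := by
  set a : (L → U) → Ω → Idx k0 (L → Bool) r → ℝ := fun v ω i =>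
    S.Eτ r ω (zeta S.Eμ (phiL φ v) r i) with ha
  set b : (L → U) → Ω → Idx k0 (L → Bool) r → ℝ := fun v ω i =>
    ∏ l, S.Eτ r ω (zf S φ r (Idx.map (fun σ : L → Bool => σ l) r i) (v l)) with hb
  have hz : ∀ {Λ : Type} (ψ : Λ → Ω → ℝ) (i : Idx k0 Λ r) ω,
      S.Eτ r ω (ZZ S.Eμ ψ r i) = S.Eτ r ω (zeta S.Eμ ψ r i) := fun ψ i ω =>
    ZZ_eq_zeta S.Eμ ψ S.towμ r i _ fun d' hd' => by subst hd'; exact S.tow2 _ ω
  have ea : ∀ (W : (L → Bool) → ℝ) v ω,
      S.Eτ r ω (KT k0 (eE (r + 1)) S.Eμ (fun x => ∑ σ, W σ * phiL φ v σ x) r) =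
        ∑ i, wt (eE (r + 1)) W r i * a v ω i := by
    intro W v ω
    rw [PF.congr _ (KT_expand _ _ _ _ r), PF.sum]
    exact sum_congr rfl fun i _ => by rw [PF.const_mul, hz]
  have eb : ∀ (W : (L → Bool) → ℝ) (v : L → U) ω,
      pkPO L (ES S U r r) (fun l => (v l, ω)) (KT k0 (eE (r + 1)) (fun d => pkPO L (ES S U r d))
          (fun s => ∑ σ, W σ * ∏ l, φ (s l).1 (σ l) (s l).2) r) =
        ∑ i, wt (eE (r + 1)) W r i * b v ω i := by
    intro W v ω
    rw [PF.congr _ (KT_expand _ _ (fun (σ : L → Bool) (s : L → U × Ω) =>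
      ∏ l, φ (s l).1 (σ l) (s l).2) _ r), PF.sum]
    refine sum_congr rfl fun i _ => ?_
    rw [PF.const_mul, PF.congr _ (ZZ_prod (ES S U r) (fun d => pkPO L (ES S U r d))
      (fun d s g => pkPO_prod _ s g) (fun b x => φ x.1 b x.2) r i), pkPO_prod]
    congr 1
    refine prod_congr rfl fun l _ => ?_
    rw [ES, if_pos rfl]
    exact (PF.congr (S.Eτ r ω) fun x => ZZ_ES S φ r r le_rfl _ (v l, x)).trans
      (hz (φ (v l)) _ ω)
  have ha0 : ∀ v ω i, 0 ≤ a v ω i := fun v ω i =>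
    PF.nonneg _ fun x => (zeta_mem _ (phiL_mem hφ v) r i x).1
  have hb0 : ∀ v ω i, 0 ≤ b v ω i := fun v ω i =>
    prod_nonneg fun l _ => PF.nonneg _ fun x => (zf_mem S hφ r _ _ x).1
  have hW' : ∀ σ, 0 ≤ c * W σ ∧ c * W σ ≤ c * s := fun σ =>
    ⟨mul_nonneg (by linarith) (hW σ).1, mul_le_mul_of_nonneg_left (hW σ).2 (by linarith)⟩
  have ba : ∀ v ω, ∑ i, wt (eE (r + 1)) (fun σ => c * W σ) r i * a v ω i ≤
      - Real.log (1 - c * s) := fun v ω => by
    rw [← ea]
    exact PF.le_of_le _ fun x => KT_le _ k0 hcs (fun y => (sum_mem_of_partition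
      (g := fun l b => φ (v l) b y) (fun _ _ => (hφ _ _ _).1) (fun _ => hsum _ _) hW').2)
      (by omega) x
  have bb : ∀ v ω, ∑ i, wt (eE (r + 1)) (fun σ => c * W σ) r i * b v ω i ≤
      - Real.log (1 - c * s) := fun v ω => by
    rw [← eb]
    exact PF.le_of_le _ fun x => KT_le _ k0 hcs (fun y => (sum_mem_of_partition
      (g := fun l b => φ (y l).1 b (y l).2) (fun _ _ => (hφ _ _ _).1) (fun _ => hsum _ _) hW').2)
      (by omega) x
  set t : ℝ := 20 * 2 ^ q with ht
  have ht1 : 1 ≤ t := by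
    have : (1 : ℝ) ≤ 2 ^ q := one_le_pow₀ (by norm_num)
    linarith
  have hs1 : s ≤ 1 := by
    have := (hW (fun _ => true)).1.trans (hW (fun _ => true)).2
    nlinarith
  have hcore := core (k0 := k0) (lw := fun _ : L → Bool => t⁻¹) (r := r) (eE_nonneg _) (eE_le _)
    (fun _ => by positivity) (by
      simp only [sum_const, card_univ, Fintype.card_pi, Fintype.card_bool, prod_const,
        nsmul_eq_mul, Nat.cast_pow, Nat.cast_ofNat, ht]
      rw [← div_eq_mul_inv, div_le_div_iff₀ (by positivity) (by norm_num), one_mul, mul_comm]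
      exact mul_le_mul_of_nonneg_left (pow_le_pow_right₀ (by norm_num) hq) (by norm_num))
    S hφ hlam hη H
  have split : ∀ v ω i, wt (eE (r + 1)) W r i * |a v ω i - b v ω i| ≤
      t ^ R0 * (wt (eE (r + 1)) (fun _ : L → Bool => t⁻¹) r i * |a v ω i - b v ω i|) +
        (c ^ R0)⁻¹ * (wt (eE (r + 1)) (fun σ => c * W σ) r i * a v ω i +
          wt (eE (r + 1)) (fun σ => c * W σ) r i * b v ω i) := by
    intro v ω i
    have w0 := wt_nonneg (eE_nonneg (r + 1)) (fun σ => (hW σ).1) r i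
    have w1 := wt_nonneg (lw := fun _ : L → Bool => t⁻¹) (eE_nonneg (r + 1))
      (fun σ => by positivity) r i
    have w2 := wt_nonneg (eE_nonneg (r + 1)) (fun σ => (hW' σ).1) r i
    rcases le_total (Idx.size r i) R0 with h | h
    · refine le_add_of_le_of_nonneg ?_ (mul_nonneg (by positivity)
        (add_nonneg (mul_nonneg w2 (ha0 _ _ _)) (mul_nonneg w2 (hb0 _ _ _))))
      rw [← mul_assoc]
      refine mul_le_mul_of_nonneg_right ?_ (abs_nonneg _)
      refine (wt_mono (lw' := fun _ => t * t⁻¹) (eE_nonneg (r + 1)) (fun σ => (hW σ).1)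
        (fun σ => ?_) r i).trans ?_
      · rw [mul_inv_cancel₀ (by linarith)]; exact (hW σ).2.trans hs1
      · rw [wt_smul]
        exact mul_le_mul_of_nonneg_right (pow_le_pow_right₀ ht1 h) w1
    · refine le_add_of_nonneg_of_le (by positivity) ?_
      rw [← mul_add, wt_smul, ← mul_assoc]
      refine mul_le_mul ?_ ?_ (abs_nonneg _) (by positivity)
      · rw [← mul_assoc]
        refine le_mul_of_one_le_left w0 ?_
        rw [inv_mul_eq_div, one_le_div (by positivity)]
        exact pow_le_pow_right₀ hc h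
      · rw [abs_le]; constructor <;> linarith [ha0 v ω i, hb0 v ω i]
  calc _ ≤ 𝔼 v : L → U, S.out (fun ω => t ^ R0 * (∑ i, wt (eE (r + 1))
          (fun _ : L → Bool => t⁻¹) r i * |a v ω i - b v ω i|) +
          (c ^ R0)⁻¹ * (2 * (- Real.log (1 - c * s)))) := by
        refine expect_le_expect fun v _ => PF.mono _ fun ω => ?_
        rw [ea, eb, ← sum_sub_distrib]
        refine (abs_sum_le_sum_abs _ _).trans ?_
        simp only [← mul_sub, abs_mul,
          abs_of_nonneg (wt_nonneg (eE_nonneg (r + 1)) (fun σ => (hW σ).1) r _)]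
        refine (sum_le_sum fun i _ => split v ω i).trans ?_
        rw [sum_add_distrib, ← mul_sum, ← mul_sum, sum_add_distrib]
        refine add_le_add le_rfl (mul_le_mul_of_nonneg_left ?_ (by positivity))
        linarith [ba v ω, bb v ω]
    _ = t ^ R0 * (∑ i, wt (eE (r + 1)) (fun _ : L → Bool => t⁻¹) r i * DD S φ (S.Eτ r) r i) +
          (c ^ R0)⁻¹ * (2 * (- Real.log (1 - c * s))) := by
        simp only [PF.add, PF.const, PF.const_mul, PF.sum, expect_add_distrib,
          Fintype.expect_const, ← mul_expect, expect_sum_comm, DD, ha, hb]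
        rfl
    _ ≤ _ := by
        refine add_le_add (mul_le_mul_of_nonneg_left (hcore.trans ?_) (by positivity)) le_rfl
        exact mul_le_mul_of_nonneg_right (by exact_mod_cast hq) (by positivity)

end

end Crest.Agent.R141.C
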