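import Crest.Agent.R141.CAbs

/-! The abstract cavity estimate, part 2, and the choice of parameters. -/

set_option autoImplicit false
set_option maxHeartbeats 400000

namespace Crest.Agent.R141.C

open Finset Crest.ProbabilityR.Diluted
open scoped BigOperators

theorem log_nm_V {Ω : Type*} (E : ℕ → PO Ω) (k0 r : ℕ) {L : Type} [Fintype L] [DecidableEq L]
    {g : L → Bool → Ω → ℝ} (hg : ∀ l b x, 0 ≤ g l b x) (hsum : ∀ l x, g l true x + g l false x = 1)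
    {a : ℝ} {V : (L → Bool) → ℝ} (hV : ∀ σ, Real.exp (-a) ≤ V σ ∧ V σ ≤ Real.exp a)
    {s : ℝ} (hs : s = 1 - Real.exp (-(2 * a)))
    (hr : 2 * (- Real.log (1 - s)) ≤ ((r + 1 : ℕ) : ℝ)) (ω : Ω) :
    |Real.log (nm (fun d => ap (E d)) (mmE (r + 1)) (fun x => ∑ σ, V σ * ∏ l, g l (σ l) x)
        (r + 1) ω) - a + E r ω (KT k0 (eE (r + 1)) E
        (fun x => ∑ σ, (1 - Real.exp (-a) * V σ) * ∏ l, g l (σ l) x) r)| ≤
      ((r + 1 : ℕ) : ℝ) * trE s k0 r + 2 * (- Real.log (1 - s)) ^ 2 / ((r + 1 : ℕ) : ℝ) := by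
  have hs1 : s < 1 := by rw [hs]; linarith [Real.exp_pos (-(2 * a))]
  have e1 : Real.exp (-a) * Real.exp a = 1 := by rw [← Real.exp_add]; simp
  have hW : ∀ σ, 0 ≤ 1 - Real.exp (-a) * V σ ∧ 1 - Real.exp (-a) * V σ ≤ s := fun σ => by
    have h1 := mul_le_mul_of_nonneg_left (hV σ).1 (Real.exp_pos (-a)).le
    have h2 := mul_le_mul_of_nonneg_left (hV σ).2 (Real.exp_pos (-a)).le
    have e2 : Real.exp (-a) * Real.exp (-a) = Real.exp (-(2 * a)) := by
      rw [← Real.exp_add]; ring_nf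
    constructor <;> linarith
  have hp := fun x => sum_mem_of_partition (g := fun l b => g l b x) (fun l b => hg l b x)
    (fun l => hsum l x) hW
  set W : Ω → ℝ := fun x => ∑ σ, (1 - Real.exp (-a) * V σ) * ∏ l, g l (σ l) x with hWd
  have e : (fun x => ∑ σ, V σ * ∏ l, g l (σ l) x) = fun x => Real.exp a * (1 - W x) := by
    funext x
    simp only [hWd, sub_mul, one_mul, sum_sub_distrib, (hp x).1, sub_sub_cancel, mul_assoc,
      ← mul_sum]
    rw [← mul_assoc, mul_comm (Real.exp a), e1, one_mul]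
  have hm : ∀ d < r + 1, 0 < mmE (r + 1) d := fun d hd => (mmE_mem hd).1
  have hb := nm_bounds E (mmE (r + 1)) (r + 1) hm (Z := fun x => 1 - W x) (a := 1 - s) (b := 1)
    (by linarith) (fun x => ⟨by linarith [(hp x).2.2], by linarith [(hp x).2.1]⟩) (r + 1) le_rfl ω
  rw [e, nm_const_mul E _ (r + 1) hm (Real.exp_pos a) (fun x => by linarith [(hp x).2.2]) _ le_rfl,
    Real.log_mul (Real.exp_pos a).ne' (by linarith [hb.1]), Real.log_exp, add_sub_cancel_left]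
  exact val_approx E k0 r hs1 (fun x => (hp x).2) hr ω

section

variable {Ω U : Type} [Fintype Ω] [DecidableEq Ω] [Fintype U] [DecidableEq U] [Nonempty U]

theorem abs_cavity {k0 r : ℕ} (hr0 : 0 < r) (S : Sys Ω) {φ : U → Bool → Ω → ℝ}
    (hφ : ∀ u s ω, 0 ≤ φ u s ω ∧ φ u s ω ≤ 1) (hsum : ∀ u ω, φ u true ω + φ u false ω = 1)
    (hpos : ∀ u b ω, 0 < S.Eμ 0 ω (φ u b))
    {η lam : ℝ} (hη : 0 ≤ η) (hlam : 0 < lam) (H : DecHyp k0 (r + 1) S φ η)
    (ω0 : Ω) (hroot : ∀ f, S.Eμ r ω0 f = S.out f)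
    {L : Type} [Fintype L] [DecidableEq L] {q : ℕ} (hq : Fintype.card L ≤ q)
    {a : ℝ} {V : (L → Bool) → ℝ} (hV : ∀ σ, Real.exp (-a) ≤ V σ ∧ V σ ≤ Real.exp a)
    {s c : ℝ} (hs : s = 1 - Real.exp (-(2 * a))) (hc : 1 ≤ c) (hcs : c * s < 1)
    (hr : 2 * (- Real.log (1 - s)) ≤ ((r + 1 : ℕ) : ℝ)) (R0 : ℕ) :
    |(𝔼 v : L → U, Real.log (nm (fun d => ap (S.Eμ d)) (mmE (r + 1))
        (fun x => ∑ σ, V σ * phiL φ v σ x) (r + 1) ω0)) -
      ∑ ω, ker S.out ω * (trial S φ r ω).val (mTr r) L (bar V)| ≤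
      2 * (((r + 1 : ℕ) : ℝ) * trE s k0 r + 2 * (- Real.log (1 - s)) ^ 2 / ((r + 1 : ℕ) : ℝ)) +
      ((20 * 2 ^ q) ^ R0 * (q * (((r + 1 : ℕ) : ℝ) * η / 5 +
        3 * (lam / 10 + 1 / (20 * lam * ((r + 1 : ℕ) : ℝ))))) +
      (c ^ R0)⁻¹ * (2 * (- Real.log (1 - c * s)))) := by
  have e1 : Real.exp (-a) * Real.exp a = 1 := by rw [← Real.exp_add]; simp
  have hW : ∀ σ, 0 ≤ 1 - Real.exp (-a) * V σ ∧ 1 - Real.exp (-a) * V σ ≤ s := fun σ => by
    have h1 := mul_le_mul_of_nonneg_left (hV σ).1 (Real.exp_pos (-a)).le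
    have h2 := mul_le_mul_of_nonneg_left (hV σ).2 (Real.exp_pos (-a)).le
    have e2 : Real.exp (-a) * Real.exp (-a) = Real.exp (-(2 * a)) := by
      rw [← Real.exp_add]; ring_nf
    constructor <;> linarith
  have hT := tree_compare S hφ hsum hη hlam H hq hW hc hcs R0
  set δ := ((r + 1 : ℕ) : ℝ) * trE s k0 r + 2 * (- Real.log (1 - s)) ^ 2 / ((r + 1 : ℕ) : ℝ)
    with hδ
  rw [ker_sum, PF.congr _ fun ω => trial_val S hsum hpos hr0 ω L V, PF.expect,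
    ← expect_sub_distrib]
  refine (abs_expect_le _ _).trans (le_trans ?_ (add_le_add_right hT _))
  rw [← Fintype.expect_const (ι := L → U) (2 * δ), ← expect_add_distrib]
  refine expect_le_expect fun v _ => ?_
  have h1 := log_nm_V S.Eμ k0 r (g := fun l => φ (v l)) (fun _ _ _ => (hφ _ _ _).1)
    (fun _ => hsum _) hV hs hr ω0
  have h2 := fun ω : Ω => log_nm_V (fun d => pkPO L (ES S U r d)) k0 r
    (g := fun l b (x : L → U × Ω) => φ (x l).1 b (x l).2) (fun _ _ _ => (hφ _ _ _).1)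
    (fun _ _ => hsum _ _) hV hs hr (fun l => (v l, ω))
  rw [hroot, ← S.outτ r] at h1
  rw [← PF.const S.out (Real.log _ - a), ← PF.add] at h1
  have h3 := S.out.abs_le_of h2
  have h4 := S.out.abs_sub_le (fun ω => S.Eτ r ω (KT k0 (eE (r + 1)) S.Eμ
    (fun x => ∑ σ, (1 - Real.exp (-a) * V σ) * phiL φ v σ x) r))
    (fun ω => pkPO L (ES S U r r) (fun l => (v l, ω)) (KT k0 (eE (r + 1))
      (fun d => pkPO L (ES S U r d))
      (fun s => ∑ σ, (1 - Real.exp (-a) * V σ) * ∏ l, φ (s l).1 (σ l) (s l).2) r))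
  simp only [PF.add, PF.sub, PF.const] at h1 h3
  simp only [phiL] at h4 ⊢
  rw [abs_le] at h1 h3 h4 ⊢
  constructor <;> linarith [h1.1, h1.2, h3.1, h3.2, h4.1, h4.2]

end

end Crest.Agent.R141.C
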