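import Crest.Agent.R141.CProg

/-! Uniform closure of spans in a space of families of functions. -/

set_option autoImplicit false
set_option maxHeartbeats 400000

namespace Crest.Agent.R141.C

open Finset
open scoped BigOperators

universe u

section

variable {X : Type u}

/-- Uniform closure of the span of a set of functions. -/
def cl (G : Set (X → ℝ)) : Submodule ℝ (X → ℝ) where
  carrier := {F | ∀ δ : ℝ, 0 < δ → ∃ F' ∈ Submodule.span ℝ G, ∀ x, |F x - F' x| ≤ δ}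
  zero_mem' := fun δ hδ => ⟨0, Submodule.zero_mem _, fun x => by simpa using hδ.le⟩
  add_mem' := by
    intro F₁ F₂ h₁ h₂ δ hδ
    obtain ⟨A, hA, hA'⟩ := h₁ (δ / 2) (by positivity)
    obtain ⟨B, hB, hB'⟩ := h₂ (δ / 2) (by positivity)
    refine ⟨A + B, Submodule.add_mem _ hA hB, fun x => ?_⟩
    have := abs_add_le (F₁ x - A x) (F₂ x - B x)
    simp only [Pi.add_apply]
    rw [show F₁ x + F₂ x - (A x + B x) = F₁ x - A x + (F₂ x - B x) by ring]
    linarith [hA' x, hB' x]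
  smul_mem' := by
    intro c F h δ hδ
    obtain ⟨A, hA, hA'⟩ := h (δ / (|c| + 1)) (by positivity)
    refine ⟨c • A, Submodule.smul_mem _ _ hA, fun x => ?_⟩
    simp only [Pi.smul_apply, smul_eq_mul]
    rw [← mul_sub, abs_mul]
    calc _ ≤ (|c| + 1) * (δ / (|c| + 1)) :=
          mul_le_mul (by linarith) (hA' x) (abs_nonneg _) (by positivity)
      _ = δ := by field_simp

theorem mem_cl {G : Set (X → ℝ)} {F : X → ℝ} :
    F ∈ cl G ↔ ∀ δ : ℝ, 0 < δ → ∃ F' ∈ Submodule.span ℝ G, ∀ x, |F x - F' x| ≤ δ := Iff.rfl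

theorem subset_cl {G : Set (X → ℝ)} {F : X → ℝ} (h : F ∈ G) : F ∈ cl G :=
  fun δ hδ => ⟨F, Submodule.subset_span h, fun x => by simpa using hδ.le⟩

/-- Uniformly closed submodules. -/
def UClosed (V : Submodule ℝ (X → ℝ)) : Prop :=
  ∀ F : X → ℝ, (∀ δ : ℝ, 0 < δ → ∃ F' ∈ V, ∀ x, |F x - F' x| ≤ δ) → F ∈ V

theorem cl_closed (G : Set (X → ℝ)) : UClosed (cl G) := by
  intro F h δ hδ
  obtain ⟨A, hA, hA'⟩ := h (δ / 2) (by positivity)
  obtain ⟨B, hB, hB'⟩ := hA (δ / 2) (by positivity)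
  refine ⟨B, hB, fun x => ?_⟩
  linarith [abs_sub_le (F x) (A x) (B x), hA' x, hB' x]

/-- A linear contraction mapping `G` into a closed submodule maps `cl G` into it. -/
theorem map_cl {G : Set (X → ℝ)} {V : Submodule ℝ (X → ℝ)} (hV : UClosed V)
    (T : (X → ℝ) →ₗ[ℝ] (X → ℝ))
    (hT : ∀ (F : X → ℝ) (δ : ℝ), (∀ x, |F x| ≤ δ) → ∀ x, |T F x| ≤ δ)
    (hG : ∀ F ∈ G, T F ∈ V) {F : X → ℝ} (hF : F ∈ cl G) : T F ∈ V := by
  refine hV _ fun δ hδ => ?_
  obtain ⟨A, hA, hA'⟩ := hF δ hδ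
  refine ⟨T A, ?_, fun x => ?_⟩
  · exact (Submodule.span_le (p := V.comap T)).2 hG hA
  · have := hT (F - A) δ hA' x
    rwa [map_sub] at this

theorem exists_half_pow_le {c : ℝ} (hc : 0 < c) : ∃ i : ℕ, (1 / 2 : ℝ) ^ i ≤ c := by
  obtain ⟨i, hi⟩ := exists_pow_lt_of_lt_one hc (by norm_num : (1 / 2 : ℝ) < 1)
  exact ⟨i, hi.le⟩

theorem pow_mem_of_psi {V : Submodule ℝ (X → ℝ)} (hV : UClosed V) {γ : ℝ} (h0 : 0 < γ)
    (h1 : γ < 1) {g : X → ℝ} (hg : ∀ x, 0 ≤ g x ∧ g x ≤ 1 / 2)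
    (h : ∀ i : ℕ, (fun x => psi γ ((1 / 2 : ℝ) ^ i * g x)) ∈ V) :
    ∀ k : ℕ, (fun x => g x ^ (k + 1)) ∈ V := by
  intro k
  induction k using Nat.strong_induction_on with
  | _ k ih =>
    refine hV _ fun δ hδ => ?_
    have hc := cc_pos h0 h1 k
    obtain ⟨i, hi⟩ := exists_half_pow_le (c := δ * cc γ k / 2) (by positivity)
    set s : ℝ := (1 / 2 : ℝ) ^ i with hs
    have hs0 : 0 < s := by positivity
    have hs1 : s ≤ 1 := pow_le_one₀ (by norm_num) (by norm_num)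
    refine ⟨(cc γ k * s ^ (k + 1))⁻¹ • ((fun x => psi γ (s * g x)) -
      ∑ j ∈ range k, (cc γ j * s ^ (j + 1)) • fun x => g x ^ (j + 1)), ?_, fun x => ?_⟩
    · exact V.smul_mem _ (V.sub_mem (h i) (V.sum_mem fun j hj =>
        V.smul_mem _ (ih j (mem_range.1 hj))))
    · have hx0 : 0 ≤ s * g x := mul_nonneg hs0.le (hg x).1
      have hx1 : s * g x ≤ 1 / 2 := (mul_le_of_le_one_left (hg x).1 hs1).trans (hg x).2
      have ht := psi_tail h0 h1 hx0 (by linarith) (k + 1)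
      simp only [psiT, sum_range_succ] at ht
      simp only [Pi.smul_apply, Pi.sub_apply, Finset.sum_apply, smul_eq_mul]
      have e1 : ∑ j ∈ range k, cc γ j * s ^ (j + 1) * g x ^ (j + 1) =
          ∑ j ∈ range k, cc γ j * (s * g x) ^ (j + 1) :=
        sum_congr rfl fun j _ => by rw [mul_pow]; ring
      rw [e1]
      set t := psi γ (s * g x) - (∑ j ∈ range k, cc γ j * (s * g x) ^ (j + 1) +
        cc γ k * (s * g x) ^ (k + 1)) with ht_def
      have e2 : g x ^ (k + 1) - (cc γ k * s ^ (k + 1))⁻¹ * (psi γ (s * g x) -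
          ∑ j ∈ range k, cc γ j * (s * g x) ^ (j + 1)) = -(t / (cc γ k * s ^ (k + 1))) := by
        rw [ht_def, mul_pow]; field_simp; ring
      rw [e2, abs_neg, abs_of_nonneg (div_nonneg ht.1 (by positivity)),
        div_le_iff₀ (by positivity)]
      have h3 : (s * g x) ^ (k + 1 + 1) / (1 - s * g x) ≤ 2 * (s * s ^ (k + 1)) := by
        rw [div_le_iff₀ (by linarith)]
        have : (s * g x) ^ (k + 1 + 1) ≤ s * s ^ (k + 1) := by
          rw [← pow_succ']
          exact pow_le_pow_left₀ hx0 (mul_le_of_le_one_right hs0.le (by linarith [(hg x).2])) _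
        have h5 : 0 ≤ s * s ^ (k + 1) := by positivity
        nlinarith
      have h4 : 2 * (s * s ^ (k + 1)) ≤ δ * (cc γ k * s ^ (k + 1)) := by
        have : 0 < s ^ (k + 1) := by positivity
        nlinarith
      linarith [ht.2]

theorem exists_taylor (a : ℕ) : ∃ C : ℝ, 0 ≤ C ∧ ∀ y t : ℝ, |y| ≤ 1 → |t| ≤ 1 →
    |(y + t) ^ (a + 1) - y ^ (a + 1) - (a + 1) * y ^ a * t| ≤ C * t ^ 2 := by
  induction a with
  | zero => exact ⟨0, le_rfl, fun y t _ _ => by simp⟩
  | succ a ih =>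
    obtain ⟨C, hC0, hC⟩ := ih
    refine ⟨2 * C + (a + 1), by positivity, fun y t hy ht => ?_⟩
    have e : (y + t) ^ (a + 1 + 1) - y ^ (a + 1 + 1) - ((a + 1 : ℕ) + 1) * y ^ (a + 1) * t =
        (y + t) * ((y + t) ^ (a + 1) - y ^ (a + 1) - (a + 1) * y ^ a * t) +
          (a + 1) * y ^ a * t ^ 2 := by push_cast; ring
    rw [e]
    have h1 : |(y + t) * ((y + t) ^ (a + 1) - y ^ (a + 1) - (a + 1) * y ^ a * t)| ≤
        2 * (C * t ^ 2) := by
      rw [abs_mul]
      exact mul_le_mul (by linarith [abs_add_le y t]) (hC y t hy ht) (abs_nonneg _) (by norm_num)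
    have h2 : |((a : ℝ) + 1) * y ^ a * t ^ 2| ≤ (a + 1) * t ^ 2 := by
      rw [abs_mul, abs_mul, abs_of_nonneg (sq_nonneg t), abs_of_nonneg (by positivity), abs_pow]
      have : |y| ^ a ≤ 1 := pow_le_one₀ (abs_nonneg _) hy
      have h3 : (0 : ℝ) ≤ (a + 1) * t ^ 2 := by positivity
      nlinarith
    linarith [abs_add_le ((y + t) * ((y + t) ^ (a + 1) - y ^ (a + 1) - (a + 1) * y ^ a * t))
      ((a + 1) * y ^ a * t ^ 2)]

/-- A set of functions containing `0` and closed under midpoints. -/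
structure Mid (G : Set (X → ℝ)) : Prop where
  zero : (fun _ => 0) ∈ G
  mid : ∀ g ∈ G, ∀ g' ∈ G, (fun x => (g x + g' x) / 2) ∈ G
  bd : ∀ g ∈ G, ∀ x, 0 ≤ g x ∧ g x ≤ 1 / 2

theorem Mid.half_pow {G : Set (X → ℝ)} (hG : Mid G) {g : X → ℝ} (hg : g ∈ G) (i : ℕ) :
    (fun x => (1 / 2 : ℝ) ^ i * g x) ∈ G := by
  induction i with
  | zero => simpa using hg
  | succ i ih =>
    have := hG.mid _ ih _ hG.zero
    convert this using 2
    ring

theorem list_prod_bd {G : Set (X → ℝ)} (hG : ∀ g ∈ G, ∀ x, |g x| ≤ 1) (l : List (X → ℝ))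
    (hl : ∀ g ∈ l, g ∈ G) (x : X) : |l.prod x| ≤ 1 := by
  induction l with
  | nil => simp
  | cons g l ih =>
    rw [List.prod_cons, Pi.mul_apply, abs_mul]
    exact mul_le_one₀ (hG g (hl g (by simp)) x) (abs_nonneg _)
      (ih fun g hg => hl g (by simp [hg]))

theorem Mid.bd' {G : Set (X → ℝ)} (hG : Mid G) : ∀ g ∈ G, ∀ x, |g x| ≤ 1 := fun g hg x => by
  rw [abs_of_nonneg (hG.bd g hg x).1]; linarith [(hG.bd g hg x).2]

theorem prod_mem_of_pow {V : Submodule ℝ (X → ℝ)} (hV : UClosed V) {G : Set (X → ℝ)}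
    (hG : Mid G) (h : ∀ g ∈ G, ∀ k : ℕ, (fun x => g x ^ (k + 1)) ∈ V) :
    ∀ l : List (X → ℝ), (∀ g ∈ l, g ∈ G) → ∀ (a : ℕ) (y : X → ℝ), y ∈ G →
      (0 < a ∨ l ≠ []) → (fun x => y x ^ a * l.prod x) ∈ V := by
  intro l
  induction l with
  | nil =>
    intro _ a y hy ha
    obtain ⟨k, rfl⟩ : ∃ k, a = k + 1 := ⟨a - 1, by rcases ha with ha | ha <;> [omega; simp at ha]⟩
    simpa using h y hy k
  | cons g l ih =>
    intro hl a y hy _
    have hl' : ∀ g ∈ l, g ∈ G := fun g hg => hl g (by simp [hg])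
    have hg : g ∈ G := hl g (by simp)
    obtain ⟨C, hC0, hC⟩ := exists_taylor a
    refine hV _ fun δ hδ => ?_
    obtain ⟨i, hi⟩ := exists_half_pow_le (c := δ / (C + 1)) (by positivity)
    set s : ℝ := (1 / 2 : ℝ) ^ i with hs
    have hs0 : 0 < s := by positivity
    have hs1 : s ≤ 1 := pow_le_one₀ (by norm_num) (by norm_num)
    have h1 := ih hl' (a + 1) _ (hG.mid _ hy _ (hG.half_pow hg i)) (Or.inl (Nat.succ_pos a))
    have h2 := ih hl' (a + 1) _ hy (Or.inl (Nat.succ_pos a))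
    refine ⟨_, V.smul_mem (((a : ℝ) + 1) * s)⁻¹ (V.sub_mem (V.smul_mem (2 ^ (a + 1) : ℝ) h1) h2),
      fun x => ?_⟩
    simp only [Pi.smul_apply, Pi.sub_apply, smul_eq_mul, List.prod_cons, Pi.mul_apply]
    have hp := list_prod_bd hG.bd' l hl' x
    have hgx := hG.bd' g hg x
    have ht : |s * g x| ≤ 1 := by
      rw [abs_mul, abs_of_pos hs0]; exact mul_le_one₀ hs1 (abs_nonneg _) hgx
    have h3 := hC (y x) (s * g x) (hG.bd' y hy x) ht
    set R := (y x + s * g x) ^ (a + 1) - y x ^ (a + 1) - (a + 1) * y x ^ a * (s * g x) with hR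
    have e : y x ^ a * (g x * l.prod x) - (((a : ℝ) + 1) * s)⁻¹ *
        (2 ^ (a + 1) * (((y x + s * g x) / 2) ^ (a + 1) * l.prod x) -
          y x ^ (a + 1) * l.prod x) = -(R * l.prod x / (((a : ℝ) + 1) * s)) := by
      rw [hR, div_pow]; field_simp; ring
    rw [e, abs_neg, abs_div, abs_mul, abs_of_pos (a := ((a : ℝ) + 1) * s) (by positivity),
      div_le_iff₀ (by positivity)]
    have h4 : (s * g x) ^ 2 ≤ s * s := by
      rw [mul_pow, sq s]
      exact mul_le_of_le_one_right (by positivity) (by rw [← sq_abs]; nlinarith [abs_nonneg (g x)])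
    have h5 : s * (C + 1) ≤ δ := by rwa [← le_div_iff₀ (by positivity)]
    have h6 : |R| * |l.prod x| ≤ C * (s * s) :=
      (mul_le_of_le_one_right (abs_nonneg _) hp).trans (h3.trans (by gcongr))
    have h7 : (0 : ℝ) ≤ a := Nat.cast_nonneg a
    nlinarith [mul_nonneg h7 (mul_pos hδ hs0).le, mul_pos hs0 hs0]

theorem prod_mem_of_cl {V : Submodule ℝ (X → ℝ)} (hV : UClosed V) {G : Set (X → ℝ)}
    (hG : Mid G) (h : ∀ g ∈ G, ∀ k : ℕ, (fun x => g x ^ (k + 1)) ∈ V) :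
    ∀ l' : List (X → ℝ), (∀ g ∈ l', g ∈ cl G ∧ ∀ x, |g x| ≤ 1) →
      ∀ l : List (X → ℝ), (∀ g ∈ l, g ∈ G) → (l' ≠ [] ∨ l ≠ []) → l'.prod * l.prod ∈ V := by
  intro l'
  induction l' with
  | nil =>
    intro _ l hl hne
    have := prod_mem_of_pow hV hG h l hl 0 _ hG.zero (Or.inr (by simpa using hne))
    simpa using this
  | cons g l' ih =>
    intro hl' l hl _
    have hl'' : ∀ g ∈ l', g ∈ cl G ∧ ∀ x, |g x| ≤ 1 := fun g hg => hl' g (by simp [hg])
    have hR : ∀ x, |(l'.prod * l.prod) x| ≤ 1 := fun x => by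
      rw [Pi.mul_apply, abs_mul]
      exact mul_le_one₀ (list_prod_bd (G := {g | ∀ x, |g x| ≤ 1}) (fun g hg => hg) l'
        (fun g hg => (hl'' g hg).2) x) (abs_nonneg _) (list_prod_bd hG.bd' l hl x)
    have := map_cl hV (LinearMap.mulRight ℝ (l'.prod * l.prod)) (G := G)
      (fun F δ hF x => by
        rw [LinearMap.mulRight_apply, Pi.mul_apply, abs_mul]
        exact (mul_le_of_le_one_right (abs_nonneg _) (hR x)).trans (hF x))
      (fun F hF => by
        have := ih hl'' (F :: l) (fun g hg => by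
          rcases List.mem_cons.1 hg with rfl | hg
          exacts [hF, hl g hg]) (Or.inr (by simp))
        rw [LinearMap.mulRight_apply]
        convert this using 1
        rw [List.prod_cons]; ring) (hl' g (by simp)).1
    rw [LinearMap.mulRight_apply] at this
    rw [List.prod_cons, mul_assoc]; exact this

end

end Crest.Agent.R141.C
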