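import Crest.Agent.R141.CClos1

/-! Every tree value is a uniform limit of combinations of program values, universally. -/

set_option autoImplicit false
set_option maxHeartbeats 400000

namespace Crest.Agent.R141.C

open Finset
open scoped BigOperators

/-- A level-`d` program with its own mark space. -/
structure Prog (d : ℕ) where
  Mk : Type
  [fin : Fintype Mk]
  [ne : Nonempty Mk]
  P : Atom Mk (d + 1)

attribute [instance] Prog.fin Prog.ne

/-- An operator as a linear map. -/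
def apL {X : Type*} (E : PO X) : (X → ℝ) →ₗ[ℝ] (X → ℝ) where
  toFun F := fun x => E x F
  map_add' F G := funext fun x => (E x).toLin.map_add F G
  map_smul' c F := funext fun x => (E x).toLin.map_smul c F

theorem expect_bool (f : Bool → ℝ) : 𝔼 b, f b = (f true + f false) / 2 := by
  rw [Fintype.expect_eq_sum_div_card]; simp

/-- Fair mixture of two programs. -/
def Prog.mix {d : ℕ} (Q Q' : Prog d) : Prog d where
  Mk := Bool × (Q.Mk × Q'.Mk)
  P := fun y => if y.1 then Atom.comap (fun z : Bool × (Q.Mk × Q'.Mk) => z.2.1) d (Q.P y.2.1)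
    else Atom.comap (fun z : Bool × (Q.Mk × Q'.Mk) => z.2.2) d (Q'.P y.2.2)

theorem HP_mix {X : Type*} (E : ℕ → PO X) (γ : ℕ → ℝ) (φ : Bool → X → ℝ) {d : ℕ}
    (Q Q' : Prog d) (x : X) :
    HP E γ φ d (Q.mix Q').P x = (HP E γ φ d Q.P x + HP E γ φ d Q'.P x) / 2 := by
  have h1 : MP (fun z : Bool × (Q.Mk × Q'.Mk) => z.2.1) := MP.snd.comp MP.fst
  have h2 : MP (fun z : Bool × (Q.Mk × Q'.Mk) => z.2.2) := MP.snd.comp MP.snd
  change 𝔼 y : Bool × (Q.Mk × Q'.Mk), KP (Mk := Bool × (Q.Mk × Q'.Mk)) E γ φ d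
    (if y.1 then Atom.comap (fun z : Bool × (Q.Mk × Q'.Mk) => z.2.1) d (Q.P y.2.1)
      else Atom.comap (fun z : Bool × (Q.Mk × Q'.Mk) => z.2.2) d (Q'.P y.2.2)) x = _
  rw [expect_prod, expect_bool]
  simp only [if_true, Bool.false_eq_true, if_false, KP_comap h1, KP_comap h2, HP]
  rw [MP.fst (fun y => KP E γ φ d (Q.P y) x), MP.snd (fun y => KP E γ φ d (Q'.P y) x)]

theorem ZZ_mem_cl {X : Type*} (E : ℕ → PO X) (γ : ℕ → ℝ) {φ : Bool → X → ℝ}
    (hφ : ∀ s x, 0 ≤ φ s x ∧ φ s x ≤ 1) (k0 : ℕ) :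
    ∀ d, (∀ d' < d, 0 < γ d' ∧ γ d' < 1) → ∀ i : Idx k0 Bool d,
      ZZ E φ d i ∈ cl (Set.range fun Q : Prog d => HP E γ φ d Q.P) := by
  intro d
  induction d with
  | zero =>
    intro _ s
    have := (cl (Set.range fun Q : Prog 0 => HP E γ φ 0 Q.P)).smul_mem (2 : ℝ)
      (subset_cl ⟨⟨Unit, fun _ => some s⟩, rfl⟩)
    convert this using 1
    funext x
    simp only [ZZ, HP, KP, Wt, Pi.smul_apply, smul_eq_mul, Fintype.expect_const]
    ring
  | succ d ih =>
    intro hγ i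
    have hγ' : ∀ d' < d, 0 < γ d' ∧ γ d' < 1 := fun d' hd => hγ d' (by omega)
    set V := cl (Set.range fun Q : Prog (d + 1) => HP E γ φ (d + 1) Q.P) with hV
    set G : Set (X → ℝ) := Set.range fun Q : Prog d => fun x => E d x (HP E γ φ d Q.P) with hG
    have hMid : Mid G := by
      refine ⟨⟨⟨Unit, Atom.off _ _⟩, funext fun x => ?_⟩, ?_, ?_⟩
      · rw [← (E d x).const 0]; exact PF.congr _ fun y => HP_off E γ φ d y
      · rintro _ ⟨Q, rfl⟩ _ ⟨Q', rfl⟩
        refine ⟨Q.mix Q', funext fun x => ?_⟩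
        rw [← PF.add, ← PF.div_const]
        exact PF.congr _ fun y => HP_mix E γ φ Q Q' y
      · rintro _ ⟨Q, rfl⟩ x
        exact ⟨PF.nonneg _ fun y => (HP_mem E hφ d hγ' _ y).1,
          PF.le_of_le _ fun y => (HP_mem E hφ d hγ' _ y).2⟩
    have hpow : ∀ g ∈ G, ∀ k : ℕ, (fun x => g x ^ (k + 1)) ∈ V := by
      intro g hg
      refine pow_mem_of_psi (cl_closed _) (hγ d (by omega)).1 (hγ d (by omega)).2
        (hMid.bd g hg) fun j => ?_
      obtain ⟨Q, hQ⟩ := hMid.half_pow hg j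
      refine subset_cl ⟨⟨Q.Mk, fun _ => Q.P⟩, funext fun x => ?_⟩
      have := congrFun hQ x
      simp only at this
      simp only [HP, Fintype.expect_const, KP_succ]
      rw [← this]
    have hE : ∀ i : Idx k0 Bool d, (fun x => E d x (ZZ E φ d i)) ∈ cl G ∧
        ∀ x, |E d x (ZZ E φ d i)| ≤ 1 := by
      intro i
      refine ⟨map_cl (cl_closed G) (apL (E d)) (fun F δ hF x => PF.abs_le_of _ hF) ?_
        (ih hγ' i), fun x => PF.abs_le_of _ fun y => ?_⟩
      · rintro _ ⟨Q, rfl⟩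
        exact subset_cl ⟨Q, rfl⟩
      · rw [abs_of_nonneg (ZZ_mem E hφ d i y).1]; exact (ZZ_mem E hφ d i y).2
    rcases i with i | ⟨k, f⟩
    · have := prod_mem_of_cl (cl_closed _) hMid hpow [fun x => E d x (ZZ E φ d i)]
        (fun g hg => by rw [List.mem_singleton.1 hg]; exact hE i) [] (by simp) (by simp)
      rw [List.prod_singleton, List.prod_nil, mul_one] at this
      exact this
    · have := prod_mem_of_cl (cl_closed _) hMid hpow
        (List.ofFn fun j => fun x => E d x (ZZ E φ d (f j)))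
        (fun g hg => by
          obtain ⟨j, rfl⟩ := List.mem_ofFn.1 hg
          exact hE (f j)) [] (by simp) (by simp)
      rw [List.prod_ofFn, List.prod_nil, mul_one] at this
      convert this using 1
      funext x
      simp [ZZ]

/-- A system of operators with two leaf functions. -/
structure SD where
  Ω : Type
  E : ℕ → PO Ω
  φ : Bool → Ω → ℝ
  hφ : ∀ s x, 0 ≤ φ s x ∧ φ s x ≤ 1

/-- The disjoint union of all systems. -/
def allE (d : ℕ) : PO (Σ T : SD, T.Ω) := fun x =>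
  { toLin :=
      { toFun := fun f => x.1.E d x.2 (fun ω => f ⟨x.1, ω⟩)
        map_add' := fun _ _ => PF.add _ _ _
        map_smul' := fun _ _ => PF.const_mul _ _ _ }
    nonneg' := fun _ hf => PF.nonneg _ fun _ => hf _
    one' := PF.const _ _ }

def allφ (s : Bool) (x : Σ T : SD, T.Ω) : ℝ := x.1.φ s x.2

theorem ZZ_all {k0 : ℕ} (T : SD) : ∀ d (i : Idx k0 Bool d) (ω : T.Ω),
    ZZ allE allφ d i ⟨T, ω⟩ = ZZ T.E T.φ d i ω := by
  intro d
  induction d with
  | zero => intro i ω; rfl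
  | succ d ih =>
    intro i ω
    have h : ∀ i : Idx k0 Bool d, allE d ⟨T, ω⟩ (ZZ allE allφ d i) = T.E d ω (ZZ T.E T.φ d i) :=
      fun i => PF.congr (T.E d ω) (ih i)
    rcases i with i | ⟨k, f⟩
    · exact h i
    · exact prod_congr rfl fun j _ => h (f j)

theorem KP_all {Mk : Type} [Fintype Mk] (γ : ℕ → ℝ) (T : SD) : ∀ d (P : Atom Mk d) (ω : T.Ω),
    KP allE γ allφ d P ⟨T, ω⟩ = KP T.E γ T.φ d P ω := by
  intro d
  induction d with
  | zero => intro P ω; rcases P with _ | s <;> rfl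
  | succ d ih =>
    intro P ω
    simp only [KP]
    congr 1
    exact PF.congr (T.E d ω) fun x => expect_congr rfl fun y _ => ih _ x

/-- Universal approximation of tree values by program values over a common mark space. -/
theorem exists_family (γ : ℕ → ℝ) (k0 n : ℕ) (hγ : ∀ d, d + 1 < n → 0 < γ d ∧ γ d < 1)
    {δ : ℝ} (hδ : 0 < δ) :
    ∃ (Mk : Type) (_ : Fintype Mk) (_ : Nonempty Mk) (N : (d : Fin n) → Idx k0 Bool d → ℕ)
      (P : (d : Fin n) → (i : Idx k0 Bool d) → Fin (N d i) → Atom Mk (d + 1))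
      (α : (d : Fin n) → (i : Idx k0 Bool d) → Fin (N d i) → ℝ),
      ∀ (T : SD) (d : Fin n) (i : Idx k0 Bool d) (ω : T.Ω),
        |ZZ T.E T.φ d i ω - ∑ j, α d i j * HP T.E γ T.φ d (P d i j) ω| ≤ δ := by
  classical
  have h : ∀ (d : Fin n) (i : Idx k0 Bool d), ∃ (N : ℕ) (Q : Fin N → Prog d) (α : Fin N → ℝ),
      ∀ (T : SD) (ω : T.Ω),
        |ZZ T.E T.φ d i ω - ∑ j, α j * HP T.E γ T.φ d (Q j).P ω| ≤ δ := by
    intro d i
    obtain ⟨F, hF, hF'⟩ := ZZ_mem_cl allE γ (φ := allφ) (fun s x => x.1.hφ s x.2) k0 d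
      (fun d' hd => hγ d' (by have := d.2; omega)) i δ hδ
    obtain ⟨N, α, g, rfl⟩ := Submodule.mem_span_set'.1 hF
    choose Q hQ using fun j => (g j).2
    refine ⟨N, Q, α, fun T ω => ?_⟩
    have := hF' ⟨T, ω⟩
    rw [ZZ_all] at this
    convert this using 3
    rw [Finset.sum_apply]
    refine sum_congr rfl fun j _ => ?_
    rw [← hQ j]
    simp only [Pi.smul_apply, smul_eq_mul, HP, KP_all]
  choose N Q α hQ using h
  let J := Σ d : Fin n, Σ i : Idx k0 Bool d, Fin (N d i)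
  let A : J → Type := fun j => (Q j.1 j.2.1 j.2.2).Mk
  refine ⟨∀ j : J, A j, inferInstance, inferInstance, N,
    fun d i j => Atom.comap (fun y : (∀ j : J, A j) => y ⟨d, i, j⟩) _ (Q d i j).P, α,
    fun T d i ω => ?_⟩
  have : ∀ j, HP T.E γ T.φ d (Atom.comap (fun y : (∀ j : J, A j) => y ⟨d, i, j⟩) _ (Q d i j).P) ω
      = HP T.E γ T.φ d (Q d i j).P ω := fun j => HP_comap (MP.eval (A := A) _) _ _ _ _ _ _
  simp only [this]
  exact hQ d i T ω

end Crest.Agent.R141.C
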