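import Crest.Agent.R141.CTree

/-! Abstract filtered systems; decorrelation predicates; weighted sums over trees. -/

set_option autoImplicit false

namespace Crest.Agent.R141.C

open Finset
open scoped BigOperators

/-- An abstract chain of conditional expectations `μ d ≤ τ d ≤ μ (d-1)`. -/
structure Sys (Ω : Type*) where
  Eμ : ℕ → PO Ω
  Eτ : ℕ → PO Ω
  out : PF Ω
  avgμ : ∀ d, IsAvg (Eμ d)
  avgτ : ∀ d, IsAvg (Eτ d)
  tow1 : ∀ d, Tow (Eμ d) (Eτ d)
  tow2 : ∀ d, Tow (Eτ (d + 1)) (Eμ d)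
  outμ : ∀ d, TowF out (Eμ d)
  outτ : ∀ d, TowF out (Eτ d)

theorem TowF.trans {Ω : Type*} {L : PF Ω} {E' E : PO Ω} (h : TowF L E') (h' : Tow E' E) :
    TowF L E := by
  intro f
  rw [← h (fun x => E x f), ← h f]
  exact PF.congr _ fun x => h' x f

theorem Sys.towμ {Ω : Type*} (S : Sys Ω) (d : ℕ) : Tow (S.Eμ (d + 1)) (S.Eμ d) :=
  fun ω => (S.tow1 (d + 1) ω).trans (S.tow2 d)

theorem Sys.towτ {Ω : Type*} (S : Sys Ω) (d : ℕ) : Tow (S.Eτ (d + 1)) (S.Eτ d) :=
  fun ω => (S.tow2 d ω).trans (S.tow1 d)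

theorem abs_prod_sub_prod_le {ι : Type*} (s : Finset ι) (a b : ι → ℝ)
    (ha : ∀ i, 0 ≤ a i ∧ a i ≤ 1) (hb : ∀ i, 0 ≤ b i ∧ b i ≤ 1) :
    |∏ i ∈ s, a i - ∏ i ∈ s, b i| ≤ ∑ i ∈ s, |a i - b i| := by
  classical
  induction s using Finset.induction_on with
  | empty => simp
  | insert j s hj ih =>
    rw [prod_insert hj, prod_insert hj, sum_insert hj]
    have h1 : 0 ≤ ∏ i ∈ s, a i := prod_nonneg fun i _ => (ha i).1
    have h2 : ∏ i ∈ s, a i ≤ 1 := prod_le_one (fun i _ => (ha i).1) fun i _ => (ha i).2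
    have e : a j * ∏ i ∈ s, a i - b j * ∏ i ∈ s, b i =
        (a j - b j) * ∏ i ∈ s, a i + b j * (∏ i ∈ s, a i - ∏ i ∈ s, b i) := by ring
    rw [e]
    refine (abs_add_le _ _).trans (add_le_add ?_ ?_)
    · rw [abs_mul, abs_of_nonneg h1]
      exact mul_le_of_le_one_right (abs_nonneg _) h2
    · rw [abs_mul, abs_of_nonneg (hb j).1]
      exact (mul_le_of_le_one_left (abs_nonneg _) (hb j).2).trans ih

theorem expect_update {L U : Type*} [Fintype L] [DecidableEq L] [Fintype U] [Nonempty U]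
    (l : L) (F : (L → U) → ℝ) :
    𝔼 v, F v = 𝔼 v, 𝔼 u, F (Function.update v l u) := by
  rw [← Finset.expect_product' (s := univ) (t := univ)]
  have h1 : 𝔼 v, F v = 𝔼 x ∈ (univ : Finset (L → U)) ×ˢ (univ : Finset U), F x.1 := by
    rw [Finset.expect_product' (f := fun v (_ : U) => F v)]
    simp
  rw [h1]
  simp only [univ_product_univ]
  let e : (L → U) × U ≃ (L → U) × U :=
    { toFun := fun x => (Function.update x.1 l x.2, x.1 l)
      invFun := fun x => (Function.update x.1 l x.2, x.1 l)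
      left_inv := fun x => by simp
      right_inv := fun x => by simp }
  exact (Fintype.expect_equiv e _ _ fun x => rfl).symm

section dec

variable {Ω U : Type*} [Fintype U]

/-- `V u` is decorrelated from every bounded function under `E`, on average over `u`. -/
def DecB (out : PF Ω) (E : PO Ω) (V : U → Ω → ℝ) (η : ℝ) : Prop :=
  ∀ h : Ω → ℝ, (∀ x, |h x| ≤ 1) → 𝔼 u, out (fun ω => |cov (E ω) (V u) h|) ≤ η

/-- Energy of the conditional expectation. -/
noncomputable def en (out : PF Ω) (E : PO Ω) (V : U → Ω → ℝ) : ℝ :=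
  𝔼 u, out (fun ω => (E ω (V u)) ^ 2)

/-- `L¹` size of a martingale increment. -/
noncomputable def inc (out : PF Ω) (E E' : PO Ω) (V : U → Ω → ℝ) : ℝ :=
  𝔼 u, out (fun ω => |E ω (V u) - E' ω (V u)|)

theorem inc_nonneg (out : PF Ω) (E E' : PO Ω) (V : U → Ω → ℝ) : 0 ≤ inc out E E' V :=
  expect_nonneg fun _ _ => out.nonneg fun _ => abs_nonneg _

theorem out_sq_sub {out : PF Ω} {E E' : PO Ω} (hA : IsAvg E') (hT : Tow E' E)
    (hO : TowF out E') (f : Ω → ℝ) :
    out (fun ω => (E ω f - E' ω f) ^ 2) =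
      out (fun ω => (E ω f) ^ 2) - out (fun ω => (E' ω f) ^ 2) := by
  have h1 : out (fun ω => E' ω f * E ω f) = out (fun ω => (E' ω f) ^ 2) := by
    rw [← hO (fun ω => E' ω f * E ω f)]
    refine PF.congr _ fun ω => ?_
    rw [hA, hT ω f, sq]
  have h2 : (fun ω => (E ω f - E' ω f) ^ 2) =
      fun ω => ((E ω f) ^ 2 - 2 * (E' ω f * E ω f)) + (E' ω f) ^ 2 := by
    funext ω; ring
  rw [h2, out.add, out.sub, out.const_mul, h1]; ring

theorem inc_le [Nonempty U] {out : PF Ω} {E E' : PO Ω} (hA : IsAvg E') (hT : Tow E' E)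
    (hO : TowF out E') (V : U → Ω → ℝ) {lam : ℝ} (hl : 0 < lam) :
    inc out E E' V ≤ lam / 2 + (en out E V - en out E' V) / (2 * lam) := by
  simp only [inc, en]
  rw [← expect_sub_distrib, expect_div, ← Fintype.expect_const (ι := U) (lam / 2),
    ← expect_add_distrib]
  refine expect_le_expect fun u _ => ?_
  rw [← out_sq_sub hA hT hO, ← out.div_const, ← out.const (lam / 2), ← out.add]
  refine out.mono fun ω => ?_
  set x := E ω (V u) - E' ω (V u)
  have h1 : x ^ 2 = |x| ^ 2 := (sq_abs x).symm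
  rw [h1, div_add_div _ _ (by norm_num) (by positivity), le_div_iff₀ (by positivity)]
  nlinarith [sq_nonneg (|x| - lam)]

theorem en_mem [Nonempty U] (out : PF Ω) (E : PO Ω) {V : U → Ω → ℝ}
    (hV : ∀ u ω, 0 ≤ V u ω ∧ V u ω ≤ 1) : 0 ≤ en out E V ∧ en out E V ≤ 1 := by
  refine ⟨expect_nonneg fun _ _ => out.nonneg fun _ => sq_nonneg _, ?_⟩
  refine expect_le univ_nonempty fun u _ => out.le_of_le fun ω => ?_
  exact pow_le_one₀ ((E ω).nonneg fun x => (hV u x).1) ((E ω).le_of_le fun x => (hV u x).2)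

/-- Passing from the finer time `E` to the coarser time `E'` costs one increment. -/
theorem DecB.coarse_inc {out : PF Ω} {E E' : PO Ω} (hA : IsAvg E) (hA' : IsAvg E')
    (hT : Tow E' E) (hO : TowF out E') {V : U → Ω → ℝ} {η : ℝ} (h : DecB out E V η) :
    DecB out E' V (inc out E E' V + η) := by
  intro g hg
  refine le_trans ?_ (add_le_add_right (h g hg) _)
  simp only [inc]
  rw [← expect_add_distrib]
  refine expect_le_expect fun u _ => ?_
  rw [← hO (fun ω => |E ω (V u) - E' ω (V u)|), ← hO (fun ω => |cov (E ω) (V u) g|), ← out.add]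
  refine out.mono fun ω => ?_
  have e : cov (E' ω) (V u) g = E' ω (fun x => (E x (V u) - E' x (V u)) * g x) +
      E' ω (fun x => cov (E x) (V u) g) := by
    simp only [cov, sub_mul]
    rw [PF.sub, PF.sub, hA', hT ω, ← hT ω (fun x => E x (V u) * g x)]
    simp only [hA (V u) g]
    ring
  rw [e]
  refine (abs_add_le _ _).trans (add_le_add ?_ (PF.abs_le _ _))
  refine (PF.abs_le _ _).trans (PF.mono _ fun x => ?_)
  rw [abs_mul]
  exact mul_le_of_le_one_right (abs_nonneg _) (hg x)

/-- Law of total covariance for `DecB`. -/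
theorem DecB.coarse_add {out : PF Ω} {E E' : PO Ω} (hA : IsAvg E)
    (hT : Tow E' E) (hO : TowF out E') {V : U → Ω → ℝ} {η η' : ℝ} (h : DecB out E V η)
    (h' : DecB out E' (fun u x => E x (V u)) η') : DecB out E' V (η + η') := by
  intro g hg
  refine le_trans ?_ (add_le_add (h g hg) (h' g hg))
  rw [← expect_add_distrib]
  refine expect_le_expect fun u _ => ?_
  rw [← hO (fun ω => |cov (E ω) (V u) g|), ← out.add]
  refine out.mono fun ω => ?_
  have e : cov (E' ω) (V u) g = E' ω (fun x => cov (E x) (V u) g) +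
      cov (E' ω) (fun x => E x (V u)) g := by
    simp only [cov]
    rw [PF.sub, hT ω, hT ω, ← hT ω (fun x => E x (V u) * g x)]
    simp only [hA (V u) g]
    ring
  rw [e]
  exact (abs_add_le _ _).trans (add_le_add (PF.abs_le _ _) le_rfl)

/-- A family close in `L¹` to a family measurable at time `E` is decorrelated. -/
theorem DecB.of_close {out : PF Ω} {E : PO Ω} (hO : TowF out E) {V c : U → Ω → ℝ}
    (hc : ∀ u g ω, E ω (fun x => c u x * g x) = c u ω * E ω g) :
    DecB out E V (2 * 𝔼 u, out (fun ω => |V u ω - c u ω|)) := by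
  intro g hg
  rw [mul_expect]
  refine expect_le_expect fun u _ => ?_
  rw [← hO (fun ω => |V u ω - c u ω|), ← out.const_mul]
  refine out.mono fun ω => ?_
  have e : cov (E ω) (V u) g = E ω (fun x => (V u x - c u x) * g x) -
      E ω (fun x => V u x - c u x) * E ω g := by
    simp only [cov, sub_mul]
    have := hc u (fun _ => 1) ω
    simp only [mul_one, PF.const] at this
    rw [PF.sub, PF.sub, hc, this]; ring
  rw [e]
  have h1 : |E ω (fun x => (V u x - c u x) * g x)| ≤ E ω (fun x => |V u x - c u x|) := by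
    refine (PF.abs_le _ _).trans (PF.mono _ fun x => ?_)
    rw [abs_mul]
    exact mul_le_of_le_one_right (abs_nonneg _) (hg x)
  have h2 : |E ω (fun x => V u x - c u x) * E ω g| ≤ E ω (fun x => |V u x - c u x|) := by
    rw [abs_mul]
    exact (mul_le_of_le_one_right (abs_nonneg _) (PF.abs_le_of _ hg)).trans (PF.abs_le _ _)
  linarith [abs_sub (E ω (fun x => (V u x - c u x) * g x))
    (E ω (fun x => V u x - c u x) * E ω g)]

/-- Approximate factorization of a product over independently sampled sites. -/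
theorem prod_dec [Nonempty U] {L : Type*} [Fintype L] [DecidableEq L] (out : PF Ω) (E : PO Ω)
    (V : L → U → Ω → ℝ) (hV : ∀ l u ω, 0 ≤ V l u ω ∧ V l u ω ≤ 1) (ρ : L → ℝ)
    (h : ∀ l, DecB out E (V l) (ρ l)) (A : Finset L) :
    𝔼 v : L → U, out (fun ω => |E ω (fun x => ∏ l ∈ A, V l (v l) x) -
      ∏ l ∈ A, E ω (V l (v l))|) ≤ ∑ l ∈ A, ρ l := by
  induction A using Finset.induction_on with
  | empty => simp
  | insert l A hl ih =>
    rw [sum_insert hl]
    have h1 : 𝔼 v : L → U, out (fun ω =>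
        |cov (E ω) (V l (v l)) (fun x => ∏ l' ∈ A, V l' (v l') x)|) ≤ ρ l := by
      rw [expect_update l]
      refine expect_le univ_nonempty fun v _ => ?_
      have h2 := h l (fun x => ∏ l' ∈ A, V l' (v l') x) (fun x => by
        rw [abs_of_nonneg (prod_nonneg fun l' _ => (hV l' _ x).1)]
        exact prod_le_one (fun l' _ => (hV l' _ x).1) fun l' _ => (hV l' _ x).2)
      refine le_trans (le_of_eq ?_) h2
      refine expect_congr rfl fun u _ => PF.congr _ fun ω => ?_
      have : ∀ x, ∏ l' ∈ A, V l' (Function.update v l u l') x = ∏ l' ∈ A, V l' (v l') x := by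
        intro x
        refine prod_congr rfl fun l' hl' => ?_
        rw [Function.update_of_ne (ne_of_mem_of_not_mem hl' hl)]
      simp only [Function.update_self, this]
    refine le_trans ?_ (add_le_add h1 ih)
    rw [← expect_add_distrib]
    refine expect_le_expect fun v _ => ?_
    rw [← out.add]
    refine out.mono fun ω => ?_
    simp only [prod_insert hl]
    have e : E ω (fun x => V l (v l) x * ∏ l ∈ A, V l (v l) x) -
        E ω (V l (v l)) * ∏ l ∈ A, E ω (V l (v l)) =
        cov (E ω) (V l (v l)) (fun x => ∏ l' ∈ A, V l' (v l') x) + E ω (V l (v l)) *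
          (E ω (fun x => ∏ l ∈ A, V l (v l) x) - ∏ l ∈ A, E ω (V l (v l))) := by
      simp only [cov]; ring
    rw [e]
    refine (abs_add_le _ _).trans (add_le_add le_rfl ?_)
    rw [abs_mul, abs_of_nonneg ((E ω).nonneg fun x => (hV l _ x).1)]
    exact mul_le_of_le_one_left (abs_nonneg _) ((E ω).le_of_le fun x => (hV l _ x).2)

end dec

end Crest.Agent.R141.C
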