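import Crest.Agent.R141.CCore1

/-! Weighted sums over trees. -/

set_option autoImplicit false

namespace Crest.Agent.R141.C

open Finset
open scoped BigOperators

theorem geom_le {x : ℝ} (h0 : 0 ≤ x) (h1 : x < 1) (k0 : ℕ) :
    ∑ k : Fin k0, x ^ (k : ℕ) ≤ (1 - x)⁻¹ := by
  rw [Fin.sum_univ_eq_sum_range (fun k => x ^ k)]
  exact sum_le_hasSum _ (fun k _ => pow_nonneg h0 k) (hasSum_geometric_of_lt_one h0 h1)

section

variable {k0 : ℕ} {Λ : Type} [Fintype Λ] {e : ℕ → ℕ → ℝ} {lw : Λ → ℝ} {n : ℕ}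

theorem mass_le (hn : 0 < n) (he0 : ∀ d k, 0 ≤ e d k) (he1 : ∀ d k, e d k ≤ 1 / n)
    (hl : ∀ s, 0 ≤ lw s) (hl1 : ∑ s, lw s ≤ 1 / 20) :
    ∀ d ≤ n, ∑ i : Idx k0 Λ d, wt e lw d i ≤ 1 / 10 := by
  have hn' : (0 : ℝ) < n := by exact_mod_cast hn
  have key : ∀ d ≤ n, ∑ i : Idx k0 Λ d, wt e lw d i ≤ 1 / 20 + d / (90 * n) := by
    intro d
    induction d with
    | zero =>
      intro _
      have : ∑ i : Idx k0 Λ 0, wt e lw 0 i = ∑ s, lw s := rfl
      rw [this]; simpa using hl1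
    | succ d ih =>
      intro hd
      have ih' := ih (by omega)
      have hdn : (d : ℝ) ≤ n := by exact_mod_cast (by omega : d ≤ n)
      have h0 : 0 ≤ ∑ i : Idx k0 Λ d, wt e lw d i := sum_nonneg fun i _ => wt_nonneg he0 hl d i
      have h1 : ∑ i : Idx k0 Λ d, wt e lw d i ≤ 1 / 10 := by
        have : (d : ℝ) / (90 * n) ≤ 1 / 90 := by
          rw [div_le_div_iff₀ (by positivity) (by norm_num)]; linarith
        linarith
      rw [Idx.sum_succ]
      simp only [wt]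
      have h2 : ∑ k : Fin k0, ∑ f : Fin (k + 2) → Idx k0 Λ d, e d k * ∏ j, wt e lw d (f j) ≤
          ∑ k : Fin k0, (1 / n * (1 / 100)) * (1 / 10 : ℝ) ^ (k : ℕ) := by
        refine sum_le_sum fun k _ => ?_
        rw [← mul_sum, ← Fintype.sum_pow, mul_assoc]
        refine mul_le_mul (he1 d k) ?_ (pow_nonneg h0 _) (by positivity)
        calc _ ≤ (1 / 10 : ℝ) ^ ((k : ℕ) + 2) := pow_le_pow_left₀ h0 h1 _
          _ = _ := by ring
      rw [← mul_sum] at h2
      have h3 := geom_le (x := 1 / 10) (by norm_num) (by norm_num) k0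
      have h4 : (1 / n * (1 / 100)) * ∑ k : Fin k0, (1 / 10 : ℝ) ^ (k : ℕ) ≤ 1 / (90 * n) := by
        calc _ ≤ (1 / n * (1 / 100)) * (1 - 1 / 10 : ℝ)⁻¹ :=
              mul_le_mul_of_nonneg_left h3 (by positivity)
          _ = _ := by field_simp; norm_num
      push_cast
      rw [add_div]
      linarith
  intro d hd
  have hdn : (d : ℝ) ≤ n := by exact_mod_cast hd
  have : (d : ℝ) / (90 * n) ≤ 1 / 90 := by
    rw [div_le_div_iff₀ (by positivity) (by norm_num)]; linarith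
  linarith [key d hd]

theorem sum_prod_mul_single {I : Type*} [Fintype I] (w g : I → ℝ) (k : ℕ) (j0 : Fin (k + 1)) :
    ∑ f : Fin (k + 1) → I, (∏ j, w (f j)) * g (f j0) = (∑ i, w i * g i) * (∑ i, w i) ^ k := by
  classical
  have h := Finset.prod_univ_sum (fun _ : Fin (k + 1) => (univ : Finset I))
    (fun j i => if j = j0 then w i * g i else w i)
  rw [Fintype.piFinset_univ] at h
  have h1 : ∀ f : Fin (k + 1) → I, (∏ j, if j = j0 then w (f j) * g (f j) else w (f j)) =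
      (∏ j, w (f j)) * g (f j0) := by
    intro f
    rw [Fin.prod_univ_succAbove _ j0, Fin.prod_univ_succAbove (fun j => w (f j)) j0]
    simp only [if_true, Fin.succAbove_ne, if_false]; ring
  rw [← sum_congr rfl fun f _ => h1 f, ← h, Fin.prod_univ_succAbove _ j0]
  simp [Fin.succAbove_ne]

theorem wsum_succ (hn : 0 < n) (he0 : ∀ d k, 0 ≤ e d k) (he1 : ∀ d k, e d k ≤ 1 / n)
    (hl : ∀ s, 0 ≤ lw s) (hl1 : ∑ s, lw s ≤ 1 / 20) {d : ℕ} (hd : d ≤ n)
    (G : Idx k0 Λ (d + 1) → ℝ) (g : Idx k0 Λ d → ℝ) (hg : ∀ i, 0 ≤ g i)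
    (hG : ∀ k f, G (Sum.inr ⟨k, f⟩) ≤ ∑ j, g (f j)) :
    ∑ i, wt e lw (d + 1) i * G i ≤ ∑ i, wt e lw d i * G (Sum.inl i) +
      1 / (2 * n) * ∑ i, wt e lw d i * g i := by
  have hn' : (0 : ℝ) < n := by exact_mod_cast hn
  rw [Idx.sum_succ]
  simp only [wt]
  refine add_le_add le_rfl ?_
  have h0 : 0 ≤ ∑ i : Idx k0 Λ d, wt e lw d i := sum_nonneg fun i _ => wt_nonneg he0 hl d i
  have h1 := mass_le (k0 := k0) hn he0 he1 hl hl1 d hd
  have h2 : 0 ≤ ∑ i, wt e lw d i * g i :=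
    sum_nonneg fun i _ => mul_nonneg (wt_nonneg he0 hl d i) (hg i)
  have h3 : ∀ k : Fin k0, ∑ f : Fin (k + 2) → Idx k0 Λ d,
      (e d k * ∏ j, wt e lw d (f j)) * G (Sum.inr ⟨k, f⟩) ≤
      (1 / n * (2 / 5) * ∑ i, wt e lw d i * g i) * (1 / 5 : ℝ) ^ (k : ℕ) := by
    intro k
    calc _ ≤ ∑ f : Fin (k + 2) → Idx k0 Λ d,
          (e d k * ∏ j, wt e lw d (f j)) * ∑ j, g (f j) :=
          sum_le_sum fun f _ => mul_le_mul_of_nonneg_left (hG k f)
            (mul_nonneg (he0 d k) (prod_nonneg fun j _ => wt_nonneg he0 hl d _))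
      _ = e d k * ∑ j0 : Fin (k + 2), ∑ f : Fin (k + 2) → Idx k0 Λ d,
          (∏ j, wt e lw d (f j)) * g (f j0) := by
          rw [sum_comm, mul_sum]
          refine sum_congr rfl fun f _ => ?_
          rw [← mul_sum]; ring
      _ = e d k * (((k : ℕ) + 2 : ℝ) * ((∑ i, wt e lw d i * g i) *
          (∑ i, wt e lw d i) ^ ((k : ℕ) + 1))) := by
          rw [sum_congr rfl fun j0 _ => sum_prod_mul_single _ g _ j0]
          simp only [sum_const, card_univ, Fintype.card_fin, nsmul_eq_mul]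
          push_cast; ring
      _ ≤ 1 / n * (2 ^ ((k : ℕ) + 2) * ((∑ i, wt e lw d i * g i) *
          (1 / 10 : ℝ) ^ ((k : ℕ) + 1))) := by
          refine mul_le_mul (he1 d k) ?_ (by positivity) (by positivity)
          refine mul_le_mul ?_ (mul_le_mul_of_nonneg_left (pow_le_pow_left₀ h0 h1 _) h2)
            (by positivity) (by positivity)
          exact_mod_cast (Nat.lt_two_pow_self (n := (k : ℕ) + 2)).le
      _ = _ := by
          have : (1 / 5 : ℝ) ^ (k : ℕ) = 2 ^ (k : ℕ) * (1 / 10) ^ (k : ℕ) := by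
            rw [← mul_pow]; norm_num
          rw [this]; ring
  calc _ ≤ _ := sum_le_sum fun k _ => h3 k
    _ = (1 / n * (2 / 5) * ∑ i, wt e lw d i * g i) * ∑ k : Fin k0, (1 / 5 : ℝ) ^ (k : ℕ) :=
        (mul_sum _ _ _).symm
    _ ≤ (1 / n * (2 / 5) * ∑ i, wt e lw d i * g i) * (1 - 1 / 5 : ℝ)⁻¹ :=
        mul_le_mul_of_nonneg_left (geom_le (by norm_num) (by norm_num) k0) (by positivity)
    _ = _ := by
        generalize ∑ i, wt e lw d i * g i = T
        field_simp; ring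

end

end Crest.Agent.R141.C
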