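import Crest.Agent.R141.CCore2

/-! The core estimate: tree values approximately factorize over independently sampled sites. -/

set_option autoImplicit false

namespace Crest.Agent.R141.C

open Finset
open scoped BigOperators

section

variable {Ω U : Type*} [Fintype U] [Nonempty U] {k0 : ℕ}

/-- Single-site tree values as a family indexed by the site. -/
noncomputable def zf (S : Sys Ω) (φ : U → Bool → Ω → ℝ) (d : ℕ) (i : Idx k0 Bool d) :
    U → Ω → ℝ := fun u => zeta S.Eμ (φ u) d i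

/-- Bound for the decorrelation at time `τ d`. -/
noncomputable def betaB (S : Sys Ω) (φ : U → Bool → Ω → ℝ) (η : ℝ) :
    ∀ d, Idx k0 Bool d → ℝ
  | 0, _ => η
  | d + 1, Sum.inl i => betaB S φ η d i + η
  | d + 1, Sum.inr ⟨_, f⟩ =>
      ∑ j, 2 * inc S.out (S.Eμ d) (S.Eτ (d + 1)) (zf S φ d (f j))

/-- The decorrelation hypotheses delivered by pinning. -/
structure DecHyp (k0 n : ℕ) (S : Sys Ω) (φ : U → Bool → Ω → ℝ) (η : ℝ) : Prop where
  h0 : ∀ s : Bool, DecB S.out (S.Eτ 0) (fun u => φ u s) η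
  hs : ∀ d, d + 1 < n → ∀ i : Idx k0 Bool d,
    DecB S.out (S.Eτ (d + 1)) (fun u x => S.Eτ d x (zf S φ d i u)) η

omit [Fintype U] [Nonempty U] in
theorem zf_mem (S : Sys Ω) {φ : U → Bool → Ω → ℝ} (hφ : ∀ u s ω, 0 ≤ φ u s ω ∧ φ u s ω ≤ 1)
    (d : ℕ) (i : Idx k0 Bool d) (u : U) (ω : Ω) : 0 ≤ zf S φ d i u ω ∧ zf S φ d i u ω ≤ 1 :=
  zeta_mem _ (hφ u) d i ω

theorem IsAvg.prod {E : PO Ω} (hA : IsAvg E) {ι : Type*} (s : Finset ι) (f : ι → Ω → ℝ)
    (g : Ω → ℝ) (ω : Ω) :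
    E ω (fun x => (∏ j ∈ s, E x (f j)) * g x) = (∏ j ∈ s, E ω (f j)) * E ω g := by
  classical
  induction s using Finset.induction_on with
  | empty => simp
  | insert j s hj ih =>
    simp only [prod_insert hj, mul_assoc]
    rw [hA, ih]

omit [Nonempty U] in
theorem DecB.mono {out : PF Ω} {E : PO Ω} {V : U → Ω → ℝ} {η η' : ℝ} (h : DecB out E V η)
    (hη : η ≤ η') : DecB out E V η' := fun g hg => (h g hg).trans hη

omit [Nonempty U] in
theorem dec_beta {n : ℕ} (S : Sys Ω) {φ : U → Bool → Ω → ℝ}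
    (hφ : ∀ u s ω, 0 ≤ φ u s ω ∧ φ u s ω ≤ 1) {η : ℝ} (H : DecHyp k0 n S φ η) :
    ∀ d, d < n → ∀ i : Idx k0 Bool d, DecB S.out (S.Eτ d) (zf S φ d i) (betaB S φ η d i) := by
  intro d
  induction d with
  | zero => intro _ s; exact H.h0 s
  | succ d ih =>
    intro hd i
    rcases i with i | ⟨k, f⟩
    · exact DecB.coarse_add (S.avgτ d) (S.towτ d) (S.outτ (d + 1)) (ih (by omega) i)
        (H.hs d hd i)
    · refine (DecB.of_close (S.outτ (d + 1))
        (c := fun u ω => ∏ j, S.Eτ (d + 1) ω (zf S φ d (f j) u))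
        (fun u g ω => (S.avgτ (d + 1)).prod _ _ g ω)).mono ?_
      simp only [betaB, inc]
      rw [← mul_sum, ← expect_sum_comm]
      refine mul_le_mul_of_nonneg_left (expect_le_expect fun u _ => ?_) (by norm_num)
      rw [← PF.sum]
      refine PF.mono _ fun ω => ?_
      exact abs_prod_sub_prod_le univ (fun j => S.Eμ d ω (zf S φ d (f j) u))
        (fun j => S.Eτ (d + 1) ω (zf S φ d (f j) u))
        (fun j => ⟨PF.nonneg _ fun x => (zf_mem S hφ d _ u x).1,
          PF.le_of_le _ fun x => (zf_mem S hφ d _ u x).2⟩)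
        (fun j => ⟨PF.nonneg _ fun x => (zf_mem S hφ d _ u x).1,
          PF.le_of_le _ fun x => (zf_mem S hφ d _ u x).2⟩)

variable {Λ : Type} [Fintype Λ] {e : ℕ → ℕ → ℝ} {lw : Λ → ℝ} {n : ℕ}

/-- Total weighted martingale increments. -/
theorem inc_sum_le (hn : 0 < n) (he0 : ∀ d k, 0 ≤ e d k) (he1 : ∀ d k, e d k ≤ 1 / n)
    (hl : ∀ s, 0 ≤ lw s) (hl1 : ∑ s, lw s ≤ 1 / 20) (S : Sys Ω) {φ : U → Bool → Ω → ℝ}
    (hφ : ∀ u s ω, 0 ≤ φ u s ω ∧ φ u s ω ≤ 1) (π : Λ → Bool) {lam : ℝ} (hlam : 0 < lam)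
    {D : ℕ} (hD : D ≤ n) :
    ∑ d ∈ range D, ∑ i : Idx k0 Λ d, wt e lw d i *
      (inc S.out (S.Eτ d) (S.Eμ d) (zf S φ d (Idx.map π d i)) +
        inc S.out (S.Eμ d) (S.Eτ (d + 1)) (zf S φ d (Idx.map π d i))) ≤
      n * lam / 10 + 1 / (20 * lam) := by
  have hw := fun d i => wt_nonneg (k0 := k0) he0 hl d i
  have hm := mass_le (k0 := k0) hn he0 he1 hl hl1
  set Φ : ℕ → ℝ := fun d => ∑ i : Idx k0 Λ d, wt e lw d i *
    (1 - en S.out (S.Eτ d) (zf S φ d (Idx.map π d i))) with hΦ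
  have hΦ0 : ∀ d, 0 ≤ Φ d := fun d => sum_nonneg fun i _ => mul_nonneg (hw d i)
    (sub_nonneg.2 (en_mem _ _ (zf_mem S hφ d _)).2)
  have hΦ1 : ∀ d ≤ n, Φ d ≤ 1 / 10 := fun d hd => le_trans (sum_le_sum fun i _ =>
    mul_le_of_le_one_right (hw d i) (by linarith [(en_mem S.out (S.Eτ d)
      (zf_mem S hφ d (Idx.map π d i))).1])) (hm d hd)
  have step : ∀ d < n, ∑ i : Idx k0 Λ d, wt e lw d i *
      (inc S.out (S.Eτ d) (S.Eμ d) (zf S φ d (Idx.map π d i)) +
        inc S.out (S.Eμ d) (S.Eτ (d + 1)) (zf S φ d (Idx.map π d i))) ≤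
      lam / 10 + (Φ (d + 1) - Φ d) / (2 * lam) := by
    intro d hd
    have h1 : Φ d + ∑ i : Idx k0 Λ d, wt e lw d i *
        (en S.out (S.Eτ d) (zf S φ d (Idx.map π d i)) -
          en S.out (S.Eτ (d + 1)) (zf S φ d (Idx.map π d i))) ≤ Φ (d + 1) := by
      simp only [hΦ]
      rw [Idx.sum_succ, ← sum_add_distrib]
      refine le_trans (le_of_eq (sum_congr rfl fun i _ => ?_)) (le_add_of_nonneg_right
        (sum_nonneg fun k _ => sum_nonneg fun f _ => mul_nonneg (hw _ _)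
          (sub_nonneg.2 (en_mem _ _ (zf_mem S hφ _ _)).2)))
      change _ = wt e lw d i * (1 - en S.out (S.Eτ (d + 1)) (zf S φ d (Idx.map π d i)))
      ring
    calc _ ≤ ∑ i : Idx k0 Λ d, wt e lw d i * (lam + (en S.out (S.Eτ d) (zf S φ d (Idx.map π d i))
            - en S.out (S.Eτ (d + 1)) (zf S φ d (Idx.map π d i))) / (2 * lam)) := by
          refine sum_le_sum fun i _ => mul_le_mul_of_nonneg_left ?_ (hw d i)
          have a1 := inc_le (S.avgμ d) (S.tow1 d) (S.outμ d) (zf S φ d (Idx.map π d i)) hlam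
          have a2 := inc_le (S.avgτ (d + 1)) (S.tow2 d) (S.outτ (d + 1))
            (zf S φ d (Idx.map π d i)) hlam
          refine (add_le_add a1 a2).trans (le_of_eq ?_)
          field_simp; ring
      _ = lam * ∑ i : Idx k0 Λ d, wt e lw d i + (∑ i : Idx k0 Λ d, wt e lw d i *
            (en S.out (S.Eτ d) (zf S φ d (Idx.map π d i)) -
              en S.out (S.Eτ (d + 1)) (zf S φ d (Idx.map π d i)))) / (2 * lam) := by
          rw [mul_sum, sum_div, ← sum_add_distrib]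
          exact sum_congr rfl fun i _ => by ring
      _ ≤ _ := by
          refine add_le_add ?_ (div_le_div_of_nonneg_right (by linarith) (by positivity))
          nlinarith [hm d hd.le]
  calc _ ≤ ∑ d ∈ range D, (lam / 10 + (Φ (d + 1) - Φ d) / (2 * lam)) :=
        sum_le_sum fun d hd => step d (lt_of_lt_of_le (mem_range.1 hd) hD)
    _ = D * lam / 10 + (Φ D - Φ 0) / (2 * lam) := by
        rw [sum_add_distrib, ← sum_div, ← sum_div, sum_range_sub]
        simp
    _ ≤ _ := by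
        have hDn : (D : ℝ) ≤ n := by exact_mod_cast hD
        refine add_le_add (by gcongr) ?_
        rw [div_le_div_iff₀ (by positivity) (by positivity)]
        nlinarith [hΦ0 0, hΦ1 D hD]

theorem beta_sum_le (hn : 0 < n) (he0 : ∀ d k, 0 ≤ e d k) (he1 : ∀ d k, e d k ≤ 1 / n)
    (hl : ∀ s, 0 ≤ lw s) (hl1 : ∑ s, lw s ≤ 1 / 20) (S : Sys Ω) {φ : U → Bool → Ω → ℝ}
    (hφ : ∀ u s ω, 0 ≤ φ u s ω ∧ φ u s ω ≤ 1) (π : Λ → Bool) {lam : ℝ} (hlam : 0 < lam)
    {η : ℝ} (hη : 0 ≤ η) {D : ℕ} (hD : D < n) :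
    ∑ i : Idx k0 Λ D, wt e lw D i * betaB S φ η D (Idx.map π D i) ≤
      n * η / 10 + (n * lam / 10 + 1 / (20 * lam)) / n := by
  have hn' : (0 : ℝ) < n := by exact_mod_cast hn
  have hw := fun d i => wt_nonneg (k0 := k0) he0 hl d i
  have hm := mass_le (k0 := k0) hn he0 he1 hl hl1
  have key : ∀ d < n, ∑ i : Idx k0 Λ d, wt e lw d i * betaB S φ η d (Idx.map π d i) ≤
      (d + 1) * η / 10 + (∑ d' ∈ range d, ∑ i : Idx k0 Λ d', wt e lw d' i *
        inc S.out (S.Eμ d') (S.Eτ (d' + 1)) (zf S φ d' (Idx.map π d' i))) / n := by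
    intro d
    induction d with
    | zero =>
      intro _
      have : ∑ i : Idx k0 Λ 0, wt e lw 0 i * betaB S φ η 0 (Idx.map π 0 i) =
          (∑ i : Idx k0 Λ 0, wt e lw 0 i) * η := by rw [sum_mul]; rfl
      rw [this]
      have := hm 0 hn.le
      simp only [Nat.cast_zero, zero_add, one_mul, range_zero, sum_empty, zero_div, add_zero]
      nlinarith
    | succ d ih =>
      intro hd
      have ih' := ih (by omega)
      have h1 := wsum_succ (k0 := k0) hn he0 he1 hl hl1 (d := d) (by omega)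
        (fun i => betaB S φ η (d + 1) (Idx.map π (d + 1) i))
        (fun i => 2 * inc S.out (S.Eμ d) (S.Eτ (d + 1)) (zf S φ d (Idx.map π d i)))
        (fun i => mul_nonneg (by norm_num) (inc_nonneg _ _ _ _)) (fun k f => le_rfl)
      refine h1.trans ?_
      have h2 : ∑ i : Idx k0 Λ d, wt e lw d i *
          betaB S φ η (d + 1) (Idx.map π (d + 1) (Sum.inl i)) =
          ∑ i : Idx k0 Λ d, wt e lw d i * betaB S φ η d (Idx.map π d i) +
            (∑ i : Idx k0 Λ d, wt e lw d i) * η := by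
        rw [sum_mul, ← sum_add_distrib]
        refine sum_congr rfl fun i _ => ?_
        change wt e lw d i * (betaB S φ η d (Idx.map π d i) + η) = _
        ring
      have h3 : 1 / (2 * (n : ℝ)) * ∑ i : Idx k0 Λ d, wt e lw d i *
          (2 * inc S.out (S.Eμ d) (S.Eτ (d + 1)) (zf S φ d (Idx.map π d i))) =
          (∑ i : Idx k0 Λ d, wt e lw d i *
            inc S.out (S.Eμ d) (S.Eτ (d + 1)) (zf S φ d (Idx.map π d i))) / n := by
        rw [mul_sum, sum_div]
        exact sum_congr rfl fun i _ => by field_simp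
      rw [h2, h3, sum_range_succ, add_div]
      have := hm d (by omega)
      push_cast
      nlinarith
  refine (key D hD).trans (add_le_add ?_ (div_le_div_of_nonneg_right ?_ hn'.le))
  · have : (D : ℝ) + 1 ≤ n := by exact_mod_cast hD
    gcongr
  · refine le_trans (sum_le_sum fun d _ => sum_le_sum fun i _ => ?_)
      (inc_sum_le hn he0 he1 hl hl1 S hφ π hlam hD.le)
    exact mul_le_mul_of_nonneg_left (le_add_of_nonneg_left (inc_nonneg _ _ _ _)) (hw d i)

end

end Crest.Agent.R141.C
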