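import Crest.Agent.R141.CCore3

/-! The core estimate (final form). -/

set_option autoImplicit false
set_option maxHeartbeats 400000

namespace Crest.Agent.R141.C

open Finset
open scoped BigOperators

section

variable {Ω U : Type*} [Fintype U] [Nonempty U] {k0 : ℕ} {L : Type} [Fintype L] [DecidableEq L]

/-- Multi-site leaf functions. -/
noncomputable def phiL (φ : U → Bool → Ω → ℝ) (v : L → U) (σ : L → Bool) (ω : Ω) : ℝ :=
  ∏ l, φ (v l) (σ l) ω

noncomputable def AA (S : Sys Ω) (φ : U → Bool → Ω → ℝ) (d : ℕ) (i : Idx k0 (L → Bool) d) : ℝ :=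
  𝔼 v : L → U, S.out (fun ω => |zeta S.Eμ (phiL φ v) d i ω -
    ∏ l, zf S φ d (Idx.map (fun σ : L → Bool => σ l) d i) (v l) ω|)

noncomputable def DD (S : Sys Ω) (φ : U → Bool → Ω → ℝ) (E : PO Ω) (d : ℕ)
    (i : Idx k0 (L → Bool) d) : ℝ :=
  𝔼 v : L → U, S.out (fun ω => |E ω (zeta S.Eμ (phiL φ v) d i) -
    ∏ l, E ω (zf S φ d (Idx.map (fun σ : L → Bool => σ l) d i) (v l))|)

omit [Nonempty U] in
theorem DD_nonneg (S : Sys Ω) (φ : U → Bool → Ω → ℝ) (E : PO Ω) (d : ℕ)
    (i : Idx k0 (L → Bool) d) : 0 ≤ DD S φ E d i :=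
  expect_nonneg fun _ _ => PF.nonneg _ fun _ => abs_nonneg _

omit [Fintype U] [Nonempty U] [DecidableEq L] in
theorem phiL_mem {φ : U → Bool → Ω → ℝ} (hφ : ∀ u s ω, 0 ≤ φ u s ω ∧ φ u s ω ≤ 1)
    (v : L → U) (σ : L → Bool) (ω : Ω) : 0 ≤ phiL φ v σ ω ∧ phiL φ v σ ω ≤ 1 :=
  ⟨prod_nonneg fun _ _ => (hφ _ _ _).1,
    prod_le_one (fun _ _ => (hφ _ _ _).1) fun _ _ => (hφ _ _ _).2⟩

theorem DD_le (S : Sys Ω) {φ : U → Bool → Ω → ℝ} (hφ : ∀ u s ω, 0 ≤ φ u s ω ∧ φ u s ω ≤ 1)
    {E : PO Ω} (hO : TowF S.out E) (d : ℕ) (i : Idx k0 (L → Bool) d) (ρ : L → ℝ)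
    (h : ∀ l, DecB S.out E (zf S φ d (Idx.map (fun σ : L → Bool => σ l) d i)) (ρ l)) :
    DD S φ E d i ≤ AA S φ d i + ∑ l, ρ l := by
  have h1 := prod_dec S.out E (fun l => zf S φ d (Idx.map (fun σ : L → Bool => σ l) d i))
    (fun l u ω => zf_mem S hφ d _ u ω) ρ (fun l => h l) univ
  refine le_trans ?_ (add_le_add_right h1 _)
  simp only [DD, AA]
  rw [← expect_add_distrib]
  refine expect_le_expect fun v _ => ?_
  rw [← hO (fun ω => |zeta S.Eμ (phiL φ v) d i ω -
    ∏ l, zf S φ d (Idx.map (fun σ : L → Bool => σ l) d i) (v l) ω|), ← PF.add]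
  refine PF.mono _ fun ω => ?_
  exact (abs_sub_le _ _ _).trans (add_le_add (PF.abs_sub_le _ _ _) le_rfl)

omit [Nonempty U] in
theorem AA_inr (S : Sys Ω) {φ : U → Bool → Ω → ℝ} (hφ : ∀ u s ω, 0 ≤ φ u s ω ∧ φ u s ω ≤ 1)
    (d : ℕ) (k : Fin k0) (f : Fin (k + 2) → Idx k0 (L → Bool) d) :
    AA S φ (d + 1) (Sum.inr ⟨k, f⟩) ≤ ∑ j, DD S φ (S.Eμ d) d (f j) := by
  simp only [DD, AA]
  rw [← expect_sum_comm]
  refine expect_le_expect fun v _ => ?_
  rw [← PF.sum]
  refine PF.mono _ fun ω => ?_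
  have e : ∏ l, zf S φ (d + 1) (Idx.map (fun σ : L → Bool => σ l) (d + 1) (Sum.inr ⟨k, f⟩)) (v l) ω =
      ∏ j, ∏ l, S.Eμ d ω (zf S φ d (Idx.map (fun σ : L → Bool => σ l) d (f j)) (v l)) := by
    rw [prod_comm]; rfl
  rw [e]
  have hz := fun j l x => zf_mem S hφ d (Idx.map (fun σ : L → Bool => σ l) d (f j)) (v l) x
  exact abs_prod_sub_prod_le univ (fun j => S.Eμ d ω (zeta S.Eμ (phiL φ v) d (f j))) _
    (fun j => ⟨PF.nonneg _ fun x => (zeta_mem _ (phiL_mem hφ v) d _ x).1,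
      PF.le_of_le _ fun x => (zeta_mem _ (phiL_mem hφ v) d _ x).2⟩)
    (fun j => ⟨prod_nonneg fun l _ => PF.nonneg _ fun x => (hz j l x).1,
      prod_le_one (fun l _ => PF.nonneg _ fun x => (hz j l x).1)
        fun l _ => PF.le_of_le _ fun x => (hz j l x).2⟩)

theorem core {e : ℕ → ℕ → ℝ} {lw : (L → Bool) → ℝ} {r : ℕ}
    (he0 : ∀ d k, 0 ≤ e d k) (he1 : ∀ d k, e d k ≤ 1 / ((r + 1 : ℕ) : ℝ))
    (hl : ∀ s, 0 ≤ lw s) (hl1 : ∑ s, lw s ≤ 1 / 20) (S : Sys Ω) {φ : U → Bool → Ω → ℝ}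
    (hφ : ∀ u s ω, 0 ≤ φ u s ω ∧ φ u s ω ≤ 1) {lam : ℝ} (hlam : 0 < lam)
    {η : ℝ} (hη : 0 ≤ η) (H : DecHyp k0 (r + 1) S φ η) :
    ∑ i : Idx k0 (L → Bool) r, wt e lw r i * DD S φ (S.Eτ r) r i ≤
      Fintype.card L * (((r + 1 : ℕ) : ℝ) * η / 5 +
        3 * (lam / 10 + 1 / (20 * lam * ((r + 1 : ℕ) : ℝ)))) := by
  set n := r + 1 with hn_def
  have hn : 0 < n := Nat.succ_pos r
  have hn' : (0 : ℝ) < n := by exact_mod_cast hn
  have hw := fun d i => wt_nonneg (k0 := k0) he0 hl d i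
  set I : ℝ := n * lam / 10 + 1 / (20 * lam) with hI
  set b : ℝ := n * η / 10 + I / n with hb
  set q : ℝ := (Fintype.card L : ℝ) with hq
  have hq0 : 0 ≤ q := by positivity
  have hI0 : 0 ≤ I := by positivity
  have hB : ∀ d < n, ∑ l : L, ∑ i : Idx k0 (L → Bool) d, wt e lw d i *
      betaB S φ η d (Idx.map (fun σ : L → Bool => σ l) d i) ≤ q * b := by
    intro d hd
    refine (sum_le_sum fun l _ => beta_sum_le hn he0 he1 hl hl1 S hφ _ hlam hη hd).trans ?_
    rw [sum_const, card_univ, nsmul_eq_mul]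
  set I1 : ℕ → ℝ := fun d => ∑ l : L, ∑ i : Idx k0 (L → Bool) d, wt e lw d i *
      inc S.out (S.Eτ d) (S.Eμ d) (zf S φ d (Idx.map (fun σ : L → Bool => σ l) d i)) with hI1
  have hI1s : ∀ D ≤ n, ∑ d ∈ range D, I1 d ≤ q * I := by
    intro D hD
    simp only [hI1]
    rw [sum_comm]
    refine (sum_le_sum fun l _ => le_trans (sum_le_sum fun d _ => sum_le_sum fun i _ => ?_)
      (inc_sum_le (k0 := k0) hn he0 he1 hl hl1 S hφ (fun σ : L → Bool => σ l) hlam hD)).trans ?_
    · exact mul_le_mul_of_nonneg_left (le_add_of_nonneg_right (inc_nonneg _ _ _ _)) (hw d i)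
    · rw [sum_const, card_univ, nsmul_eq_mul]
  set a : ℕ → ℝ := fun d => ∑ i : Idx k0 (L → Bool) d, wt e lw d i * AA S φ d i with ha
  have hD : ∀ d < n, ∑ i : Idx k0 (L → Bool) d, wt e lw d i * DD S φ (S.Eμ d) d i ≤
      a d + I1 d + q * b := by
    intro d hd
    calc _ ≤ ∑ i : Idx k0 (L → Bool) d, wt e lw d i * (AA S φ d i + ∑ l : L,
          (inc S.out (S.Eτ d) (S.Eμ d) (zf S φ d (Idx.map (fun σ : L → Bool => σ l) d i)) +
            betaB S φ η d (Idx.map (fun σ : L → Bool => σ l) d i))) :=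
          sum_le_sum fun i _ => mul_le_mul_of_nonneg_left (DD_le S hφ (S.outμ d) d i _ fun l =>
            (dec_beta S hφ H d hd _).coarse_inc (S.avgτ d) (S.avgμ d) (S.tow1 d) (S.outμ d))
            (hw d i)
      _ = a d + I1 d + ∑ l : L, ∑ i : Idx k0 (L → Bool) d, wt e lw d i *
          betaB S φ η d (Idx.map (fun σ : L → Bool => σ l) d i) := by
          simp only [ha, hI1]
          rw [sum_comm (s := (univ : Finset L)), sum_comm (s := (univ : Finset L)),
            ← sum_add_distrib, ← sum_add_distrib]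
          refine sum_congr rfl fun i _ => ?_
          rw [sum_add_distrib, ← mul_sum, ← mul_sum]; ring
      _ ≤ _ := add_le_add le_rfl (hB d hd)
  have hrec : ∀ D ≤ r, a D ≤ 1 / (2 * n) * ∑ d ∈ range D, (a d + I1 d + q * b) := by
    intro D
    induction D with
    | zero =>
      intro _
      simp only [ha, range_zero, sum_empty, mul_zero]
      refine le_of_eq (sum_eq_zero fun i _ => ?_)
      have : AA S φ 0 i = 0 := by
        simp only [AA]
        refine expect_eq_zero fun v _ => ?_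
        rw [← S.out.const 0]
        refine PF.congr _ fun ω => ?_
        exact abs_eq_zero.2 (sub_self _)
      rw [this, mul_zero]
    | succ D ih =>
      intro hD'
      have h1 := wsum_succ (k0 := k0) hn he0 he1 hl hl1 (d := D) (by omega)
        (AA S φ (D + 1)) (DD S φ (S.Eμ D) D) (DD_nonneg _ _ _ _) (AA_inr S hφ D)
      rw [sum_range_succ, mul_add]
      refine h1.trans (add_le_add (ih (by omega)) ?_)
      exact mul_le_mul_of_nonneg_left (hD D (by omega)) (by positivity)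
  have hb0 : 0 ≤ b := by positivity
  have hfin : ∀ D ≤ r, a D ≤ q * b + q * I / n := by
    intro D
    induction D using Nat.strong_induction_on with
    | _ D ih =>
      intro hD'
      refine (hrec D hD').trans ?_
      rw [sum_add_distrib, sum_add_distrib]
      have h1 : ∑ d ∈ range D, a d ≤ n * (q * b + q * I / n) := by
        refine (sum_le_sum fun d hd => ih d (mem_range.1 hd)
          (by have := mem_range.1 hd; omega)).trans ?_
        simp only [sum_const, card_range, nsmul_eq_mul]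
        exact mul_le_mul_of_nonneg_right (by exact_mod_cast (by omega : D ≤ n)) (by positivity)
      have h2 := hI1s D (by omega)
      have h3 : ∑ d ∈ range D, q * b ≤ n * (q * b) := by
        simp only [sum_const, card_range, nsmul_eq_mul]
        exact mul_le_mul_of_nonneg_right (by exact_mod_cast (by omega : D ≤ n)) (by positivity)
      calc _ ≤ 1 / (2 * n) * (n * (q * b + q * I / n) + q * I + n * (q * b)) :=
            mul_le_mul_of_nonneg_left (by linarith) (by positivity)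
        _ = _ := by field_simp; ring
  calc _ ≤ ∑ i : Idx k0 (L → Bool) r, wt e lw r i * (AA S φ r i + ∑ l : L,
          betaB S φ η r (Idx.map (fun σ : L → Bool => σ l) r i)) :=
        sum_le_sum fun i _ => mul_le_mul_of_nonneg_left (DD_le S hφ (S.outτ r) r i _ fun l =>
          dec_beta S hφ H r (by omega) _) (hw r i)
    _ = a r + ∑ l : L, ∑ i : Idx k0 (L → Bool) r, wt e lw r i *
          betaB S φ η r (Idx.map (fun σ : L → Bool => σ l) r i) := by
        simp only [ha]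
        rw [sum_comm (s := (univ : Finset L)), ← sum_add_distrib]
        refine sum_congr rfl fun i _ => ?_
        rw [← mul_sum]; ring
    _ ≤ q * b + q * I / n + q * b := add_le_add (hfin r le_rfl) (hB r (by omega))
    _ = _ := by rw [hb, hI]; field_simp; ring

end

end Crest.Agent.R141.C
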