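import Crest.Agent.R141.CClos2

/-! Analytic and covariance lemmas for the passage from additivity to decorrelation. -/

set_option autoImplicit false
set_option maxHeartbeats 400000

namespace Crest.Agent.R141.C

open Finset
open scoped BigOperators

theorem psi_lin {γ z : ℝ} (h0 : 0 < γ) (h1 : γ < 1) (hz : |z| ≤ 1 / 2) :
    |psi γ z - γ * z| ≤ 2 * z ^ 2 := by
  have h := hasSum_psi γ (x := z) (by linarith)
  have h2 := (hasSum_nat_add_iff' 1).2 h
  simp only [range_one, sum_singleton, cc, zero_add, pow_one] at h2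
  have hg : HasSum (fun k : ℕ => z ^ 2 * (1 / 2 : ℝ) ^ k) (z ^ 2 * 2) :=
    hasSum_geometric_two.mul_left _
  have hb : ∀ k : ℕ, ‖cc γ (k + 1) * z ^ (k + 1 + 1)‖ ≤ z ^ 2 * (1 / 2 : ℝ) ^ k := by
    intro k
    rw [Real.norm_eq_abs, abs_mul, abs_of_pos (cc_pos h0 h1 _), abs_pow,
      show k + 1 + 1 = 2 + k by ring, pow_add, sq_abs]
    refine (mul_le_of_le_one_left (by positivity) (cc_le_one h0 h1 _)).trans ?_
    exact mul_le_mul_of_nonneg_left (pow_le_pow_left₀ (abs_nonneg _) hz _) (sq_nonneg _)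
  have := HasSum.norm_le_of_bounded h2 hg hb
  rw [Real.norm_eq_abs] at this
  linarith

theorem an1 {γ ε a a' c : ℝ} (h0 : 0 < γ) (h1 : γ < 1) (hε : 0 < ε) (hε1 : ε ≤ 1 / 8)
    (ha : 0 ≤ a ∧ a ≤ 1 / 2) (ha' : 0 ≤ a' ∧ a' ≤ 1 / 2) (hc : |c| ≤ 2) :
    |((1 - ε * a) * (1 - ε * a') + ε ^ 2 * c) ^ γ - (1 - ε * a) ^ γ * (1 - ε * a') ^ γ -
      γ * (ε ^ 2 * c)| ≤ 8 * ε ^ 3 := by
  have e1 : 0 ≤ ε * a := mul_nonneg hε.le ha.1
  have e2 : 0 ≤ ε * a' := mul_nonneg hε.le ha'.1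
  have e3 : ε * a ≤ ε / 2 := by nlinarith [ha.2]
  have e4 : ε * a' ≤ ε / 2 := by nlinarith [ha'.2]
  set y := (1 - ε * a) * (1 - ε * a') with hy
  have hy1 : 1 - ε ≤ y := by nlinarith [mul_nonneg e1 e2]
  have hy2 : y ≤ 1 := by nlinarith
  have hy0 : 0 < y := by linarith
  rw [← Real.mul_rpow (by linarith) (by linarith), ← hy]
  set z := -(ε ^ 2 * c / y) with hz
  have hz1 : |z| ≤ 4 * ε ^ 2 := by
    rw [hz, abs_neg, abs_div, abs_mul, abs_of_pos hy0, abs_of_nonneg (sq_nonneg ε),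
      div_le_iff₀ hy0]
    have : ε ^ 2 * |c| ≤ ε ^ 2 * 2 := mul_le_mul_of_nonneg_left hc (sq_nonneg _)
    nlinarith [sq_nonneg ε]
  have hz2 : |z| ≤ 1 / 2 := by nlinarith
  have ex : y + ε ^ 2 * c = y * (1 - z) := by rw [hz]; field_simp; ring
  have hp := psi_lin h0 h1 hz2
  have hz3 : 0 ≤ 1 - z := by linarith [le_abs_self z]
  rw [ex, Real.mul_rpow hy0.le hz3]
  have hyγ1 : y ^ γ ≤ 1 := Real.rpow_le_one hy0.le hy2 h0.le
  have hyγ2 : y ≤ y ^ γ := by
    have := Real.rpow_le_rpow_of_exponent_ge hy0 hy2 h1.le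
    rwa [Real.rpow_one] at this
  have e5 : y ^ γ * (1 - z) ^ γ - y ^ γ - γ * (ε ^ 2 * c) =
      -(y ^ γ * (psi γ z - γ * z)) + γ * z * (y - y ^ γ) := by
    have : ε ^ 2 * c = -(z * y) := by rw [hz]; field_simp
    rw [this]; simp only [psi]; ring
  rw [e5]
  have b1 : |-(y ^ γ * (psi γ z - γ * z))| ≤ 32 * ε ^ 4 := by
    rw [abs_neg, abs_mul, abs_of_pos (by linarith : 0 < y ^ γ)]
    have : z ^ 2 ≤ (4 * ε ^ 2) ^ 2 := by
      rw [← sq_abs]; exact pow_le_pow_left₀ (abs_nonneg _) hz1 2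
    nlinarith [mul_le_of_le_one_left (abs_nonneg (psi γ z - γ * z)) hyγ1]
  have b2 : |γ * z * (y - y ^ γ)| ≤ 4 * ε ^ 2 * ε := by
    rw [abs_mul, abs_mul, abs_of_pos h0]
    refine mul_le_mul ((mul_le_of_le_one_left (abs_nonneg _) h1.le).trans hz1) ?_
      (abs_nonneg _) (by positivity)
    rw [abs_le]; constructor <;> linarith
  have b3 : 32 * ε ^ 4 ≤ 4 * ε ^ 3 := by nlinarith [pow_pos hε 3]
  linarith [abs_add_le (-(y ^ γ * (psi γ z - γ * z))) (γ * z * (y - y ^ γ))]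

section

variable {Ω : Type*}

theorem abs_cov_le (L : PF Ω) {f g : Ω → ℝ} {a b : ℝ} (hf : ∀ x, |f x| ≤ a) (hg : ∀ x, |g x| ≤ b)
    (ha : 0 ≤ a) : |cov L f g| ≤ 2 * (a * b) := by
  have h1 : |L (fun x => f x * g x)| ≤ a * b := L.abs_le_of fun x => by
    rw [abs_mul]; exact mul_le_mul (hf x) (hg x) (abs_nonneg _) ha
  have h2 : |L f * L g| ≤ a * b := by
    rw [abs_mul]; exact mul_le_mul (L.abs_le_of hf) (L.abs_le_of hg) (abs_nonneg _) ha
  simp only [cov]
  linarith [abs_sub (L (fun x => f x * g x)) (L f * L g)]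

theorem cov_eq_center (L : PF Ω) (f g : Ω → ℝ) :
    cov L f g = L (fun x => (f x - L f) * (g x - L g)) := by
  have : (fun x => (f x - L f) * (g x - L g)) =
      fun x => (f x * g x - L g * f x) - (L f * g x - L f * L g) := by funext x; ring
  rw [this, L.sub, L.sub, L.sub, L.const_mul, L.const_mul, L.const, cov]; ring

theorem cov_eq_center' (L : PF Ω) (f g : Ω → ℝ) :
    cov L f g = L (fun x => (f x - L f) * g x) := by
  simp only [sub_mul]
  rw [L.sub, L.const_mul, cov]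

theorem cov_affine (L : PF Ω) (t : ℝ) (a a' r r' : Ω → ℝ) :
    cov L (fun x => 1 - t * a x + r x) (fun x => 1 - t * a' x + r' x) =
      t ^ 2 * cov L a a' - t * cov L a r' - t * cov L r a' + cov L r r' := by
  have : (fun x => (1 - t * a x + r x) * (1 - t * a' x + r' x)) = fun x =>
      ((((1 - t * a' x + r' x) - t * a x) + t ^ 2 * (a x * a' x)) - t * (a x * r' x)) +
        ((r x - t * (r x * a' x)) + r x * r' x) := by funext x; ring
  simp only [cov, this, PF.add, PF.sub, PF.const_mul, PF.const]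
  ring

variable {U : Type*} [Fintype U]

theorem psd (L : PF Ω) (g b : U → Ω → ℝ) :
    0 ≤ 𝔼 u, 𝔼 u', L (fun x => g u x * g u' x) * L (fun x => b u x * b u' x) := by
  have h : L (fun x => L (fun y => (𝔼 u, g u x * b u y) ^ 2)) =
      𝔼 u, 𝔼 u', L (fun x => g u x * g u' x) * L (fun x => b u x * b u' x) := by
    simp only [sq, expect_mul_expect, PF.expect]
    refine expect_congr rfl fun u _ => expect_congr rfl fun u' _ => ?_
    rw [← L.mul_const]
    refine PF.congr _ fun x => ?_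
    rw [← L.const_mul]
    exact PF.congr _ fun y => by ring
  rw [← h]
  exact L.nonneg fun x => L.nonneg fun y => sq_nonneg _

theorem avg_cov_pow_four [Nonempty U] (L : PF Ω) (V : U → Ω → ℝ) {h : Ω → ℝ}
    (hh : ∀ x, |h x| ≤ 1) :
    (𝔼 u, |cov L (V u) h|) ^ 4 ≤ 𝔼 u, 𝔼 u', cov L (V u) (V u') ^ 2 := by
  set c : U → ℝ := fun u => cov L (V u) h with hc
  set W : U → Ω → ℝ := fun u x => V u x - L (V u) with hW
  set T : ℝ := 𝔼 u, c u ^ 2 with hT
  set n2 : ℝ := 𝔼 u, 𝔼 u', cov L (V u) (V u') ^ 2 with hn2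
  have hT0 : 0 ≤ T := expect_nonneg fun u _ => sq_nonneg _
  have h1 : (𝔼 u, |c u|) ^ 2 ≤ T := by
    have := expect_mul_sq_le_sq_mul_sq univ (fun u => |c u|) (fun _ => (1 : ℝ))
    simpa [hT] using this
  have h2 : T = L (fun x => (𝔼 u, c u * W u x) * h x) := by
    simp only [expect_mul, PF.expect, hT]
    refine expect_congr rfl fun u _ => ?_
    simp only [mul_assoc, PF.const_mul, hW]
    rw [← cov_eq_center', sq]
  have h3 : L (fun x => (𝔼 u, c u * W u x) ^ 2) =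
      𝔼 x : U × U, (c x.1 * c x.2) * cov L (V x.1) (V x.2) := by
    rw [expect_prod]
    simp only [sq, expect_mul_expect, PF.expect]
    refine expect_congr rfl fun u _ => expect_congr rfl fun u' _ => ?_
    rw [cov_eq_center, ← L.const_mul]
    exact PF.congr _ fun x => by simp only [hW]; ring
  have h4 : T ^ 2 ≤ L (fun x => (𝔼 u, c u * W u x) ^ 2) := by
    have := L.cauchy (fun x => 𝔼 u, c u * W u x) h
    rw [← h2] at this
    refine this.trans (mul_le_of_le_one_right (L.nonneg fun x => sq_nonneg _)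
      (L.le_of_le fun x => ?_))
    rw [← sq_abs]; exact pow_le_one₀ (abs_nonneg _) (hh x)
  have h5 := expect_mul_sq_le_sq_mul_sq univ (fun x : U × U => c x.1 * c x.2)
    (fun x => cov L (V x.1) (V x.2))
  rw [← h3, expect_prod, expect_prod] at h5
  have h6 : 𝔼 a, 𝔼 b, (c a * c b) ^ 2 = T ^ 2 := by
    simp only [mul_pow, hT]
    rw [sq (𝔼 u, c u ^ 2), expect_mul_expect]
  simp only [h6] at h5
  have hn0 : 0 ≤ n2 := expect_nonneg fun u _ => expect_nonneg fun u' _ => sq_nonneg _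
  have h7 : T ^ 2 ≤ n2 := by
    rcases hT0.eq_or_lt with h | h
    · rw [← h]; simpa using hn0
    · have h8 : T ^ 2 * T ^ 2 ≤ T ^ 2 * n2 := by
        refine le_trans ?_ h5
        rw [← sq]; exact pow_le_pow_left₀ (sq_nonneg _) h4 2
      exact le_of_mul_le_mul_left h8 (by positivity)
  calc (𝔼 u, |c u|) ^ 4 = ((𝔼 u, |c u|) ^ 2) ^ 2 := by ring
    _ ≤ T ^ 2 := pow_le_pow_left₀ (sq_nonneg _) h1 2
    _ ≤ n2 := h7

theorem DecB.of_pair [Nonempty U] (out : PF Ω) (E : PO Ω) (V : U → Ω → ℝ) {lam κ : ℝ}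
    (hl : 0 < lam) (h : 𝔼 u, 𝔼 u', out (fun ω => cov (E ω) (V u) (V u') ^ 2) ≤ κ) :
    DecB out E V (lam + κ / lam ^ 3) := by
  intro g hg
  rw [← PF.expect]
  simp only [← PF.expect] at h
  refine le_trans ?_ (add_le_add_right (div_le_div_of_nonneg_right h (by positivity)) _)
  rw [← out.div_const, ← out.const lam, ← out.add]
  refine out.mono fun ω => ?_
  have h1 := avg_cov_pow_four (E ω) V hg
  set a := 𝔼 u, |cov (E ω) (V u) g|
  set b := 𝔼 u, 𝔼 u', cov (E ω) (V u) (V u') ^ 2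
  have ha : 0 ≤ a := expect_nonneg fun u _ => abs_nonneg _
  have hb : 0 ≤ b := le_trans (by positivity) h1
  simp only [PF.const]
  rcases le_total a lam with h2 | h2
  · have : 0 ≤ b / lam ^ 3 := by positivity
    linarith
  · have : a ≤ b / lam ^ 3 := by
      rw [le_div_iff₀ (by positivity)]
      calc a * lam ^ 3 ≤ a * a ^ 3 := by gcongr
        _ = a ^ 4 := by ring
        _ ≤ b := h1
    linarith

theorem DecB.comb [Nonempty U] {out : PF Ω} {E : PO Ω} {J : Type*} [Fintype J]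
    {V : U → Ω → ℝ} {G : J → U → Ω → ℝ} {α η : J → ℝ} {δ : ℝ} (hδ : 0 ≤ δ)
    (hV : ∀ u x, |V u x - ∑ j, α j * G j u x| ≤ δ) (hG : ∀ j, DecB out E (G j) (η j)) :
    DecB out E V (2 * δ + ∑ j, |α j| * η j) := by
  intro g hg
  have h1 : ∀ u ω, |cov (E ω) (V u) g| ≤ 2 * δ + ∑ j, |α j| * |cov (E ω) (G j u) g| := by
    intro u ω
    have e : cov (E ω) (V u) g = cov (E ω) (fun x => V u x - ∑ j, α j * G j u x) g +
        ∑ j, α j * cov (E ω) (G j u) g := by
      simp only [cov, sub_mul, sum_mul, PF.sub, PF.sum, mul_assoc, PF.const_mul, mul_sub,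
        sum_sub_distrib]
      ring
    rw [e]
    refine (abs_add_le _ _).trans (add_le_add ?_ ((abs_sum_le_sum_abs _ _).trans
      (le_of_eq (sum_congr rfl fun j _ => abs_mul _ _))))
    simpa using abs_cov_le (E ω) (hV u) hg hδ
  calc _ ≤ 𝔼 u, out (fun ω => 2 * δ + ∑ j, |α j| * |cov (E ω) (G j u) g|) :=
        expect_le_expect fun u _ => out.mono (h1 u)
    _ = 2 * δ + ∑ j, |α j| * 𝔼 u, out (fun ω => |cov (E ω) (G j u) g|) := by
        simp only [PF.add, PF.const, PF.sum, PF.const_mul, expect_add_distrib,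
          Fintype.expect_const, expect_sum_comm, mul_expect]
    _ ≤ _ := add_le_add le_rfl (sum_le_sum fun j _ =>
        mul_le_mul_of_nonneg_left (hG j g hg) (abs_nonneg _))

end

end Crest.Agent.R141.C
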