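import Crest.Agent.R141.CDec1

/-! From approximate additivity of pins to decorrelation. -/

set_option autoImplicit false
set_option maxHeartbeats 400000

namespace Crest.Agent.R141.C

open Finset
open scoped BigOperators

section

variable {Ω U : Type*} [Fintype U] [Nonempty U] {M : Type} [Fintype M] [Nonempty M]

/-- Additivity defect of two pins at time `τ d`. -/
noncomputable def Del (S : Sys Ω) (γ : ℕ → ℝ) (φ φ' : Bool → Ω → ℝ) (d : ℕ)
    (P P' : Atom M (d + 1)) (ω : Ω) : ℝ :=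
  (1 - S.Eτ d ω (H2 S.Eμ γ φ φ' d P P')) -
    (1 - S.Eτ d ω (HP S.Eμ γ φ d P)) * (1 - S.Eτ d ω (HP S.Eμ γ φ' d P'))

/-- Averaged additivity defect. -/
noncomputable def AddErr (S : Sys Ω) (γ : ℕ → ℝ) (φ : U → Bool → Ω → ℝ) (d : ℕ)
    (P : Atom M (d + 1)) : ℝ :=
  𝔼 u, 𝔼 u', S.out (fun ω => |Del S γ (φ u) (φ u') d P P ω|)

omit [Nonempty U] [Nonempty M] in
theorem AddErr_nonneg (S : Sys Ω) (γ : ℕ → ℝ) (φ : U → Bool → Ω → ℝ) (d : ℕ)
    (P : Atom M (d + 1)) : 0 ≤ AddErr S γ φ d P :=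
  expect_nonneg fun _ _ => expect_nonneg fun _ _ => PF.nonneg _ fun _ => abs_nonneg _

theorem dec_zero (S : Sys Ω) (γ : ℕ → ℝ) {φ : U → Bool → Ω → ℝ}
    (hφ : ∀ u s ω, 0 ≤ φ u s ω ∧ φ u s ω ≤ 1) (s : Bool) {lam : ℝ} (hl : 0 < lam) :
    DecB S.out (S.Eτ 0) (fun u => φ u s)
      (lam + 8 * AddErr S γ φ 0 (fun _ : M => some s) / lam ^ 3) := by
  refine DecB.of_pair _ _ _ hl ?_
  simp only [AddErr, mul_expect]
  refine expect_le_expect fun u _ => expect_le_expect fun u' _ => ?_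
  rw [← PF.const_mul]
  refine PF.mono _ fun ω => ?_
  have e : Del S γ (φ u) (φ u') 0 (fun _ : M => some s) (fun _ : M => some s) ω =
      cov (S.Eτ 0 ω) (φ u s) (φ u' s) / 4 := by
    have h1 : H2 S.Eμ γ (φ u) (φ u') 0 (fun _ : M => some s) (fun _ : M => some s) =
        fun x => (φ u s x / 2 + φ u' s x / 2) - (φ u s x * φ u' s x) / 4 := by
      funext x; simp only [H2, K2, Wt, Fintype.expect_const]; ring
    have h2 : ∀ u, HP S.Eμ γ (φ u) 0 (fun _ : M => some s) = fun x => φ u s x / 2 := by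
      intro u; funext x; simp only [HP, KP, Wt, Fintype.expect_const]
    simp only [Del, h1, h2, PF.sub, PF.add, PF.div_const, cov]
    ring
  have hb : |cov (S.Eτ 0 ω) (φ u s) (φ u' s)| ≤ 2 * (1 * 1) :=
    abs_cov_le _ (fun x => by rw [abs_of_nonneg (hφ _ _ _).1]; exact (hφ _ _ _).2)
      (fun x => by rw [abs_of_nonneg (hφ _ _ _).1]; exact (hφ _ _ _).2) zero_le_one
  rw [e, abs_div, abs_of_pos (by norm_num : (0 : ℝ) < 4), ← sq_abs]
  nlinarith [abs_nonneg (cov (S.Eτ 0 ω) (φ u s) (φ u' s))]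

omit [Fintype U] [Nonempty U] in
theorem abs_Del_le (S : Sys Ω) {γ : ℕ → ℝ} {φ φ' : Bool → Ω → ℝ}
    (hφ : ∀ s ω, 0 ≤ φ s ω ∧ φ s ω ≤ 1) (hφ' : ∀ s ω, 0 ≤ φ' s ω ∧ φ' s ω ≤ 1) (d : ℕ)
    (hγ : ∀ d' < d, 0 < γ d' ∧ γ d' < 1) (P P' : Atom M (d + 1)) (ω : Ω) :
    |Del S γ φ φ' d P P' ω| ≤ 1 := by
  have a1 := (S.Eτ d ω).nonneg fun x => (H2_mem S.Eμ hφ hφ' d hγ P P' x).1
  have a2 := (S.Eτ d ω).le_of_le fun x => (H2_mem S.Eμ hφ hφ' d hγ P P' x).2
  have b1 := (S.Eτ d ω).nonneg fun x => (HP_mem S.Eμ hφ d hγ P x).1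
  have b2 := (S.Eτ d ω).le_of_le fun x => (HP_mem S.Eμ hφ d hγ P x).2
  have c1 := (S.Eτ d ω).nonneg fun x => (HP_mem S.Eμ hφ' d hγ P' x).1
  have c2 := (S.Eτ d ω).le_of_le fun x => (HP_mem S.Eμ hφ' d hγ P' x).2
  simp only [Del]
  rw [abs_le]; constructor <;> nlinarith

theorem dec_succ (S : Sys Ω) {γ : ℕ → ℝ} {φ : U → Bool → Ω → ℝ}
    (hφ : ∀ u s ω, 0 ≤ φ u s ω ∧ φ u s ω ≤ 1) (d : ℕ) (hγ : ∀ d' ≤ d, 0 < γ d' ∧ γ d' < 1)
    (hγ2 : 1 / 2 ≤ γ d) (P Pe : Atom M (d + 1)) {ε : ℝ} (hε : 0 < ε) (hε1 : ε ≤ 1 / 8)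
    (hs1 : ∀ u x, HP S.Eμ γ (φ u) d Pe x = ε * HP S.Eμ γ (φ u) d P x)
    (hs2 : ∀ u u' x, H2 S.Eμ γ (φ u) (φ u') d Pe Pe x = ε ^ 2 * H2 S.Eμ γ (φ u) (φ u') d P P x +
      ε * (1 - ε) * (HP S.Eμ γ (φ u) d P x + HP S.Eμ γ (φ u') d P x))
    {lam : ℝ} (hl : 0 < lam) :
    DecB S.out (S.Eτ (d + 1)) (fun u x => S.Eτ d x (HP S.Eμ γ (φ u) d P))
      (lam + 16 * (AddErr S γ φ (d + 1) (fun _ : M => Pe) / ε ^ 2 + AddErr S γ φ d P + 10 * ε) /
        lam ^ 3) := by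
  have hγ' : ∀ d' < d, 0 < γ d' ∧ γ d' < 1 := fun d' hd => hγ d' hd.le
  obtain ⟨g0, g1⟩ := hγ d le_rfl
  refine DecB.of_pair _ _ _ hl ?_
  set G : U → Ω → ℝ := fun u x => S.Eτ d x (HP S.Eμ γ (φ u) d P) with hG
  set a : U → Ω → ℝ := fun u x => S.Eμ d x (G u) with ha
  have hGm : ∀ u x, 0 ≤ G u x ∧ G u x ≤ 1 / 2 := fun u x =>
    ⟨PF.nonneg _ fun y => (HP_mem _ (hφ u) d hγ' P y).1,
      PF.le_of_le _ fun y => (HP_mem _ (hφ u) d hγ' P y).2⟩
  have ham : ∀ u x, 0 ≤ a u x ∧ a u x ≤ 1 / 2 := fun u x =>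
    ⟨PF.nonneg _ fun y => (hGm u y).1, PF.le_of_le _ fun y => (hGm u y).2⟩
  have hGa : ∀ u x, |G u x| ≤ 1 / 2 := fun u x => by
    rw [abs_of_nonneg (hGm u x).1]; exact (hGm u x).2
  have haa : ∀ u x, |a u x| ≤ 1 / 2 := fun u x => by
    rw [abs_of_nonneg (ham u x).1]; exact (ham u x).2
  set A : Ω → U → U → ℝ := fun ω u u' =>
    S.Eτ (d + 1) ω (fun x => cov (S.Eμ d x) (G u) (G u')) with hA
  set B : Ω → U → U → ℝ := fun ω u u' => cov (S.Eτ (d + 1) ω) (a u) (a u') with hB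
  have hAB : ∀ ω u u', cov (S.Eτ (d + 1) ω) (G u) (G u') = A ω u u' + B ω u u' := by
    intro ω u u'
    simp only [hA, hB, ha, cov, PF.sub, S.tow2 d ω _]
    ring
  have hpsd : ∀ ω, 0 ≤ 𝔼 u, 𝔼 u', A ω u u' * B ω u u' := by
    intro ω
    have := psd (S.Eτ (d + 1) ω) (fun u x => G u x - a u x)
      (fun u x => a u x - S.Eτ (d + 1) ω (a u))
    refine this.trans (le_of_eq (expect_congr rfl fun u _ => expect_congr rfl fun u' _ => ?_))
    rw [← cov_eq_center]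
    congr 1
    rw [← S.tow2 d ω]
    refine PF.congr _ fun x => ?_
    have e : (fun y => (G u y - a u y) * (G u' y - a u' y)) = fun y =>
        (G u y * G u' y - a u' y * G u y) - (a u y * G u' y - a u y * a u' y) := by
      funext y; ring
    have h1 : S.Eμ d x (a u') = a u' x := by
      have := S.avgμ d (G u') (fun _ => 1) x
      simpa using this
    rw [e, PF.sub, PF.sub, PF.sub, S.avgμ d, S.avgμ d, S.avgμ d, h1, cov]
    simp only [ha]; ring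
  have key : ∀ ω u u', |γ d * A ω u u' + γ d ^ 2 * B ω u u'| ≤
      |Del S γ (φ u) (φ u') (d + 1) (fun _ : M => Pe) (fun _ : M => Pe) ω| / ε ^ 2 +
        S.Eτ (d + 1) ω (fun x => |Del S γ (φ u) (φ u') d P P x|) + 10 * ε := by
    intro ω u u'
    set c : Ω → ℝ := fun x => cov (S.Eμ d x) (G u) (G u') +
      S.Eμ d x (Del S γ (φ u) (φ u') d P P) with hc
    have hc2 : ∀ x, |c x| ≤ 2 := fun x => by
      have h1 := abs_cov_le (S.Eμ d x) (hGa u) (hGa u') (by norm_num)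
      have h2 := (S.Eμ d x).abs_le_of (abs_Del_le S (hφ u) (hφ u') d hγ' P P)
      linarith [abs_add_le (cov (S.Eμ d x) (G u) (G u')) (S.Eμ d x (Del S γ (φ u) (φ u') d P P))]
    have hHP : ∀ u x, S.Eμ d x (HP S.Eμ γ (φ u) d P) = a u x := fun u x =>
      (S.tow1 d x _).symm
    have e1 : ∀ u x, HP S.Eμ γ (φ u) (d + 1) (fun _ : M => Pe) x = 1 - (1 - ε * a u x) ^ γ d := by
      intro u x
      simp only [HP, Fintype.expect_const, KP_succ, psi]
      rw [PF.congr _ (hs1 u), PF.const_mul, hHP]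
    have e2 : ∀ x, H2 S.Eμ γ (φ u) (φ u') (d + 1) (fun _ : M => Pe) (fun _ : M => Pe) x =
        1 - ((1 - ε * a u x) * (1 - ε * a u' x) + ε ^ 2 * c x) ^ γ d := by
      intro x
      simp only [H2, Fintype.expect_const, K2_succ, psi]
      rw [PF.congr _ (hs2 u u'), PF.add, PF.const_mul, PF.const_mul, PF.add, hHP, hHP]
      congr 2
      have h3 : S.Eμ d x (Del S γ (φ u) (φ u') d P P) =
          a u x + a u' x - S.Eμ d x (fun y => G u y * G u' y) -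
            S.Eμ d x (H2 S.Eμ γ (φ u) (φ u') d P P) := by
        rw [← S.tow1 d x (H2 S.Eμ γ (φ u) (φ u') d P P), ← PF.add, ← PF.sub, ← PF.sub]
        exact PF.congr _ fun y => by simp only [Del, hG]; ring
      simp only [hc, h3, cov]
      ring
    set p : U → Ω → ℝ := fun u x => (1 - ε * a u x) ^ γ d with hp
    set r : U → Ω → ℝ := fun u x => γ d * (ε * a u x) - psi (γ d) (ε * a u x) with hr
    have hr2 : ∀ u x, |r u x| ≤ ε ^ 2 / 2 := fun u x => by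
      have h1 : |ε * a u x| ≤ ε / 2 := by
        rw [abs_mul, abs_of_pos hε]; nlinarith [haa u x]
      have h2 := psi_lin g0 g1 (z := ε * a u x) (by linarith)
      rw [abs_sub_comm] at h2
      have h3 : (ε * a u x) ^ 2 ≤ (ε / 2) ^ 2 := by
        rw [← sq_abs]; exact pow_le_pow_left₀ (abs_nonneg _) h1 2
      simp only [hr]; nlinarith
    have hpr : ∀ u, p u = fun x => 1 - (γ d * ε) * a u x + r u x := fun u => by
      funext x; simp only [hp, hr, psi]; ring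
    set Lf := S.Eτ (d + 1) ω with hLf
    have e3 : Del S γ (φ u) (φ u') (d + 1) (fun _ : M => Pe) (fun _ : M => Pe) ω =
        Lf (fun x => ((1 - ε * a u x) * (1 - ε * a u' x) + ε ^ 2 * c x) ^ γ d -
          p u x * p u' x - γ d * (ε ^ 2 * c x)) + γ d * (ε ^ 2 * Lf c) + cov Lf (p u) (p u') := by
      simp only [Del, ← hLf, PF.congr _ (e1 u), PF.congr _ (e1 u'), PF.congr _ e2, PF.sub,
        PF.const, PF.const_mul, cov, hp]
      ring
    have b1 : |Lf (fun x => ((1 - ε * a u x) * (1 - ε * a u' x) + ε ^ 2 * c x) ^ γ d -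
          p u x * p u' x - γ d * (ε ^ 2 * c x))| ≤ 8 * ε ^ 3 :=
      PF.abs_le_of _ fun x => an1 g0 g1 hε hε1 (ham u x) (ham u' x) (hc2 x)
    have e4 : Lf c = A ω u u' + Lf (Del S γ (φ u) (φ u') d P P) := by
      simp only [hc, PF.add, hA, hLf, S.tow2 d ω _]
    have b2 := PF.abs_le Lf (Del S γ (φ u) (φ u') d P P)
    have b3 := abs_cov_le Lf (haa u) (hr2 u') (by norm_num)
    have b4 := abs_cov_le Lf (hr2 u) (haa u') (by positivity)
    have b5 := abs_cov_le Lf (hr2 u) (hr2 u') (by positivity)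
    rw [hpr u, hpr u', cov_affine, ← hpr u, ← hpr u', e4] at e3
    set D1 := Del S γ (φ u) (φ u') (d + 1) (fun _ : M => Pe) (fun _ : M => Pe) ω
    set R1 := Lf (fun x => ((1 - ε * a u x) * (1 - ε * a u' x) + ε ^ 2 * c x) ^ γ d -
          p u x * p u' x - γ d * (ε ^ 2 * c x))
    set D0 := Lf (Del S γ (φ u) (φ u') d P P)
    set c1 := cov Lf (a u) (r u')
    set c2 := cov Lf (r u) (a u')
    set c3 := cov Lf (r u) (r u')
    have e5 : ε ^ 2 * (γ d * A ω u u' + γ d ^ 2 * B ω u u') =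
        D1 - R1 - γ d * ε ^ 2 * D0 + γ d * ε * c1 + γ d * ε * c2 - c3 := by
      rw [e3]; simp only [hB]; ring
    have hε2 : 0 < ε ^ 2 := by positivity
    rw [← mul_le_mul_iff_right₀ hε2, mul_add, mul_add, mul_div_cancel₀ _ hε2.ne',
      ← abs_of_pos hε2, ← abs_mul, abs_of_pos hε2, e5]
    have t1 : |γ d * ε ^ 2 * D0| ≤ ε ^ 2 * Lf (fun x => |Del S γ (φ u) (φ u') d P P x|) := by
      rw [abs_mul, abs_of_pos (by positivity : 0 < γ d * ε ^ 2)]
      exact mul_le_mul (mul_le_of_le_one_left hε2.le g1.le) b2 (abs_nonneg _) hε2.le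
    have t2 : ∀ t : ℝ, |t| ≤ ε ^ 2 / 2 → |γ d * ε * t| ≤ ε ^ 3 / 2 := fun t ht => by
      rw [abs_mul, abs_of_pos (by positivity : 0 < γ d * ε)]
      calc _ ≤ ε * (ε ^ 2 / 2) :=
            mul_le_mul (mul_le_of_le_one_left hε.le g1.le) ht (abs_nonneg _) hε.le
        _ = _ := by ring
    have t3 := t2 c1 (by linarith)
    have t4 := t2 c2 (by linarith)
    have t5 : |c3| ≤ ε ^ 3 := by nlinarith [pow_pos hε 3]
    rw [abs_le] at b1 t1 t3 t4 t5 ⊢
    constructor <;> nlinarith [le_abs_self D1, neg_abs_le D1]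
  have hAb : ∀ ω u u', |γ d * A ω u u' + γ d ^ 2 * B ω u u'| ≤ 1 := by
    intro ω u u'
    have h1 : |A ω u u'| ≤ 2 * (1 / 2 * (1 / 2)) :=
      PF.abs_le_of _ fun x => abs_cov_le _ (hGa u) (hGa u') (by norm_num)
    have h2 : |B ω u u'| ≤ 2 * (1 / 2 * (1 / 2)) := abs_cov_le _ (haa u) (haa u') (by norm_num)
    refine (abs_add_le _ _).trans ?_
    rw [abs_mul, abs_mul, abs_of_pos g0, abs_of_pos (by positivity : 0 < γ d ^ 2)]
    have : γ d ^ 2 ≤ 1 := pow_le_one₀ g0.le g1.le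
    nlinarith [abs_nonneg (A ω u u'), abs_nonneg (B ω u u')]
  have main : ∀ ω, 𝔼 u, 𝔼 u', cov (S.Eτ (d + 1) ω) (G u) (G u') ^ 2 ≤
      16 * 𝔼 u, 𝔼 u', |γ d * A ω u u' + γ d ^ 2 * B ω u u'| := by
    intro ω
    have hk : 0 ≤ 32 * γ d ^ 3 - 2 := by nlinarith [pow_le_pow_left₀ (by norm_num) hγ2 3]
    have h1 : 𝔼 u, 𝔼 u', (cov (S.Eτ (d + 1) ω) (G u) (G u') ^ 2 +
        (32 * γ d ^ 3 - 2) * (A ω u u' * B ω u u')) ≤
        𝔼 u, 𝔼 u', 16 * |γ d * A ω u u' + γ d ^ 2 * B ω u u'| := by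
      refine expect_le_expect fun u _ => expect_le_expect fun u' _ => ?_
      rw [hAB]
      have h2 : (γ d * A ω u u' + γ d ^ 2 * B ω u u') ^ 2 ≤
          |γ d * A ω u u' + γ d ^ 2 * B ω u u'| := by
        rw [← sq_abs]
        nlinarith [hAb ω u u', abs_nonneg (γ d * A ω u u' + γ d ^ 2 * B ω u u')]
      have h3 : 1 ≤ 16 * γ d ^ 2 := by nlinarith
      have h4 : 1 ≤ 16 * γ d ^ 4 := by nlinarith [pow_le_pow_left₀ (by norm_num) hγ2 4]
      nlinarith [mul_le_mul_of_nonneg_right h3 (sq_nonneg (A ω u u')),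
        mul_le_mul_of_nonneg_right h4 (sq_nonneg (B ω u u'))]
    simp only [expect_add_distrib, ← mul_expect] at h1
    linarith [mul_nonneg hk (hpsd ω)]
  simp only [← PF.expect]
  refine (PF.mono _ main).trans ?_
  rw [PF.const_mul]
  refine mul_le_mul_of_nonneg_left ?_ (by norm_num)
  refine (PF.mono _ fun ω => expect_le_expect fun u _ => expect_le_expect fun u' _ =>
    key ω u u').trans (le_of_eq ?_)
  simp only [PF.expect, PF.add, PF.div_const, PF.const, S.outτ (d + 1) _, expect_add_distrib,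
    Fintype.expect_const, AddErr, ← expect_div]

end

end Crest.Agent.R141.C
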