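import Crest.Agent.R141.CDec2

/-! A universal finite family of programs whose additivity implies the decorrelation hypotheses. -/

set_option autoImplicit false
set_option maxHeartbeats 400000

namespace Crest.Agent.R141.C

open Finset
open scoped BigOperators

section

variable {Mk : Type} [Fintype Mk] [Nonempty Mk] {D : ℕ} [NeZero D]

/-- Switch a program on with probability `1 / D`. -/
def scaleP (D : ℕ) [NeZero D] {d : ℕ} (P : Atom Mk (d + 1)) : Atom (Fin D × Mk) (d + 1) :=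
  fun y => if y.1 = 0 then Atom.comap Prod.snd d (P y.2) else Atom.off _ d

omit [Nonempty Mk] in
theorem expect_ite_fst (f g : Mk → ℝ) :
    𝔼 y : Fin D × Mk, (if y.1 = 0 then f y.2 else g y.2) =
      (1 / D : ℝ) * 𝔼 y, f y + (1 - 1 / D : ℝ) * 𝔼 y, g y := by
  have hD : (D : ℝ) ≠ 0 := by exact_mod_cast NeZero.ne D
  rw [expect_prod]
  have : ∀ a : Fin D, 𝔼 b, (if a = 0 then f b else g b) =
      𝔼 y, g y + if a = 0 then (𝔼 y, f y - 𝔼 y, g y) else 0 := by
    intro a; split_ifs <;> simp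
  simp only [this, expect_add_distrib, Fintype.expect_const]
  rw [Fintype.expect_eq_sum_div_card (fun a : Fin D => if a = 0 then _ else _)]
  simp only [sum_ite_eq', mem_univ, if_true, Fintype.card_fin]
  field_simp; ring

theorem HP_scale {Ω : Type*} (E : ℕ → PO Ω) (γ : ℕ → ℝ) (φ : Bool → Ω → ℝ) (d : ℕ)
    (P : Atom Mk (d + 1)) (x : Ω) :
    HP E γ φ d (scaleP D P) x =
      (1 / D : ℝ) * HP E γ φ d (Atom.comap (Prod.snd : Fin D × Mk → Mk) (d + 1) P) x := by
  have h := expect_ite_fst (D := D)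
    (fun y => KP E γ φ d (Atom.comap (Prod.snd : Fin D × Mk → Mk) d (P y)) x) (fun _ => 0)
  simp only [Fintype.expect_const, mul_zero, add_zero] at h
  simp only [HP, scaleP, Atom.comap]
  rw [MP.snd (fun y => KP E γ φ d (Atom.comap (Prod.snd : Fin D × Mk → Mk) d (P y)) x), ← h]
  refine expect_congr rfl fun y _ => ?_
  split_ifs
  · rfl
  · exact KP_off _ _ _ _ _

theorem H2_scale {Ω : Type*} (E : ℕ → PO Ω) (γ : ℕ → ℝ) (φ φ' : Bool → Ω → ℝ) (d : ℕ)
    (P : Atom Mk (d + 1)) (x : Ω) :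
    H2 E γ φ φ' d (scaleP D P) (scaleP D P) x =
      (1 / D : ℝ) ^ 2 * H2 E γ φ φ' d (Atom.comap (Prod.snd : Fin D × Mk → Mk) (d + 1) P)
        (Atom.comap (Prod.snd : Fin D × Mk → Mk) (d + 1) P) x +
      (1 / D : ℝ) * (1 - 1 / D) *
        (HP E γ φ d (Atom.comap (Prod.snd : Fin D × Mk → Mk) (d + 1) P) x +
          HP E γ φ' d (Atom.comap (Prod.snd : Fin D × Mk → Mk) (d + 1) P) x) := by
  set Q : Mk → Atom (Fin D × Mk) d := fun y => Atom.comap Prod.snd d (P y) with hQ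
  have h1 : ∀ R : Atom (Fin D × Mk) d,
      𝔼 y' : Fin D × Mk, K2 E γ φ φ' d R (scaleP D P y') x =
        (1 / D : ℝ) * 𝔼 y', K2 E γ φ φ' d R (Q y') x + (1 - 1 / D : ℝ) * KP E γ φ d R x := by
    intro R
    have h := expect_ite_fst (D := D) (fun y => K2 E γ φ φ' d R (Q y) x)
      (fun _ => KP E γ φ d R x)
    rw [Fintype.expect_const] at h
    rw [← h]
    refine expect_congr rfl fun y _ => ?_
    simp only [scaleP]
    split_ifs
    · rfl
    · exact K2_off_right _ _ _ _ _ _ _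
  have h2 := expect_ite_fst (D := D)
    (fun y => (1 / D : ℝ) * 𝔼 y', K2 E γ φ φ' d (Q y) (Q y') x +
      (1 - 1 / D : ℝ) * KP E γ φ d (Q y) x)
    (fun _ => (1 / D : ℝ) * 𝔼 y', KP E γ φ' d (Q y') x)
  have h3 : H2 E γ φ φ' d (scaleP D P) (scaleP D P) x = 𝔼 y : Fin D × Mk, (if y.1 = 0 then
      (1 / D : ℝ) * 𝔼 y', K2 E γ φ φ' d (Q y.2) (Q y') x +
        (1 - 1 / D : ℝ) * KP E γ φ d (Q y.2) x else (1 / D : ℝ) * 𝔼 y', KP E γ φ' d (Q y') x) := by
    simp only [H2, h1]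
    refine expect_congr rfl fun y _ => ?_
    simp only [scaleP]
    split_ifs
    · rfl
    · simp [K2_off_left, KP_off]
  have h4 : H2 E γ φ φ' d (Atom.comap (Prod.snd : Fin D × Mk → Mk) (d + 1) P)
      (Atom.comap (Prod.snd : Fin D × Mk → Mk) (d + 1) P) x =
      𝔼 y, 𝔼 y', K2 E γ φ φ' d (Q y) (Q y') x := by
    rw [← MP.snd (A := Fin D) (fun y => 𝔼 y', K2 E γ φ φ' d (Q y) (Q y') x)]
    refine expect_congr rfl fun y _ => ?_
    exact MP.snd (A := Fin D) (fun y' => K2 E γ φ φ' d (Q y.2) (Q y') x)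
  have h5 : ∀ φ, HP E γ φ d (Atom.comap (Prod.snd : Fin D × Mk → Mk) (d + 1) P) x =
      𝔼 y, KP E γ φ d (Q y) x := fun φ => MP.snd (A := Fin D) (fun y => KP E γ φ d (Q y) x)
  rw [h3, h2, h4, h5, h5]
  simp only [expect_add_distrib, ← mul_expect, Fintype.expect_const]
  ring

end

theorem exists_pin_family (γ : ℕ → ℝ) (k0 n : ℕ) (hn : 0 < n)
    (hγ : ∀ d, d + 1 < n → 1 / 2 ≤ γ d ∧ γ d < 1) {η0 : ℝ} (hη : 0 < η0) :
    ∃ (M : Type) (_ : Fintype M) (_ : Nonempty M) (T : Type) (_ : Fintype T) (_ : Nonempty T)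
      (prog : T → (d : ℕ) → Atom M (d + 1)) (C : ℝ), 0 ≤ C ∧
      ∀ (Ω U : Type) [Fintype U] [Nonempty U] (S : Sys Ω) (φ : U → Bool → Ω → ℝ),
        (∀ u s ω, 0 ≤ φ u s ω ∧ φ u s ω ≤ 1) →
        DecHyp k0 n S φ (η0 + C * ∑ d ∈ range n, ∑ t, AddErr S γ φ d (prog t d)) := by
  classical
  have hγ' : ∀ d, d + 1 < n → 0 < γ d ∧ γ d < 1 := fun d hd =>
    ⟨by linarith [(hγ d hd).1], (hγ d hd).2⟩
  obtain ⟨Mk, _, _, N, P, α, hP⟩ := exists_family γ k0 n hγ' (δ := η0 / 4) (by positivity)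
  let J := Σ d : Fin n, Σ i : Idx k0 Bool d, Fin (N d i)
  set Ab : ℝ := ∑ j : J, |α j.1 j.2.1 j.2.2| with hAb
  have hAb0 : 0 ≤ Ab := sum_nonneg fun _ _ => abs_nonneg _
  set lam : ℝ := η0 / (4 * (Ab + 1)) with hlam
  have hl : 0 < lam := by positivity
  obtain ⟨D, hD⟩ := exists_nat_ge (max 8 (640 * Ab / (η0 * lam ^ 3)))
  have hD8 : (8 : ℝ) ≤ D := (le_max_left _ _).trans hD
  have hD0 : (0 : ℝ) < D := by linarith
  have : NeZero D := ⟨by rintro rfl; simp at hD0⟩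
  let P' : J → (d : ℕ) → Atom Mk (d + 1) := fun j d =>
    if h : (j.1 : ℕ) = d then h ▸ P j.1 j.2.1 j.2.2 else Atom.off _ _
  have hP' : ∀ (d : Fin n) i j, P' ⟨d, i, j⟩ d = P d i j := fun d i j => by simp [P']
  let prog : J ⊕ (J ⊕ Bool) → (d : ℕ) → Atom (Fin D × Mk) (d + 1) := fun t d =>
    match t, d with
    | Sum.inl j, d => Atom.comap Prod.snd (d + 1) (P' j d)
    | Sum.inr (Sum.inl _), 0 => Atom.off _ _
    | Sum.inr (Sum.inl j), d + 1 => fun _ => scaleP D (P' j d)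
    | Sum.inr (Sum.inr s), 0 => fun _ => some s
    | Sum.inr (Sum.inr _), _ + 1 => Atom.off _ _
  set ε : ℝ := 1 / D with hε
  have hε0 : 0 < ε := by positivity
  have hε1 : ε ≤ 1 / 8 := one_div_le_one_div_of_le (by norm_num) hD8
  refine ⟨Fin D × Mk, inferInstance, inferInstance, J ⊕ (J ⊕ Bool), inferInstance,
    ⟨Sum.inr (Sum.inr true)⟩, prog, 16 * Ab * (1 / ε ^ 2 + 1) / lam ^ 3 + 8 / lam ^ 3,
    by positivity, fun Ω U _ _ S φ hφ => ?_⟩
  set Tot := ∑ d ∈ range n, ∑ t, AddErr S γ φ d (prog t d) with hTot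
  have hle : ∀ d < n, ∀ t, AddErr S γ φ d (prog t d) ≤ Tot := fun d hd t =>
    le_trans (single_le_sum (f := fun t => AddErr S γ φ d (prog t d))
      (fun t _ => AddErr_nonneg _ _ _ _ _) (mem_univ t))
      (single_le_sum (f := fun d => ∑ t, AddErr S γ φ d (prog t d))
        (fun d _ => sum_nonneg fun t _ => AddErr_nonneg _ _ _ _ _) (mem_range.2 hd))
  have hT0 : 0 ≤ Tot := (AddErr_nonneg _ _ _ _ _).trans (hle 0 hn (Sum.inr (Sum.inr true)))
  have hl1 : lam * (Ab + 1) = η0 / 4 := by rw [hlam]; field_simp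
  have hX : 0 ≤ 16 * Ab * (1 / ε ^ 2 + 1) / lam ^ 3 * Tot := by positivity
  have hY : 0 ≤ 8 / lam ^ 3 * Tot := by positivity
  constructor
  · intro s
    refine (dec_zero (M := Fin D × Mk) S γ hφ s hl).mono ?_
    have h1 : 8 * AddErr S γ φ 0 (fun _ : Fin D × Mk => some s) / lam ^ 3 ≤ 8 / lam ^ 3 * Tot := by
      rw [mul_div_right_comm]
      exact mul_le_mul_of_nonneg_left (hle 0 hn (Sum.inr (Sum.inr s))) (by positivity)
    nlinarith
  · intro d hd i
    let d' : Fin n := ⟨d, by omega⟩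
    have h1 := DecB.comb (out := S.out) (E := S.Eτ (d + 1))
      (V := fun u x => S.Eτ d x (zf S φ d i u)) (α := α d' i)
      (G := fun j u x => S.Eτ d x (HP S.Eμ γ (φ u) d (prog (Sum.inl ⟨d', i, j⟩) d)))
      (η := fun _ => lam + 16 * (Tot / ε ^ 2 + Tot + 10 * ε) / lam ^ 3) (δ := η0 / 4)
      (by positivity) (fun u x => ?_) (fun j => ?_)
    · refine h1.mono ?_
      rw [← sum_mul]
      have h2 : ∑ j, |α d' i j| ≤ Ab := by
        rw [hAb, Fintype.sum_sigma]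
        refine le_trans ?_ (single_le_sum (f := fun d : Fin n =>
          ∑ y : (Σ i : Idx k0 Bool d, Fin (N d i)), |α d y.1 y.2|)
          (fun _ _ => sum_nonneg fun _ _ => abs_nonneg _) (mem_univ d'))
        rw [Fintype.sum_sigma]
        exact single_le_sum (f := fun i : Idx k0 Bool d' => ∑ j, |α d' i j|)
          (fun _ _ => sum_nonneg fun _ _ => abs_nonneg _) (mem_univ i)
      refine le_trans (add_le_add_right (mul_le_mul_of_nonneg_right h2 (by positivity)) _) ?_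
      have h3 : 160 * Ab * ε / lam ^ 3 ≤ η0 / 4 := by
        have := (le_max_right _ _).trans hD
        rw [div_le_iff₀ (by positivity)] at this
        rw [hε, div_le_iff₀ (by positivity), mul_one_div, div_le_iff₀ hD0]
        nlinarith
      have e : Ab * (lam + 16 * (Tot / ε ^ 2 + Tot + 10 * ε) / lam ^ 3) =
          lam * Ab + 16 * Ab * (1 / ε ^ 2 + 1) / lam ^ 3 * Tot + 160 * Ab * ε / lam ^ 3 := by
        ring
      rw [e, add_mul]
      nlinarith
    · have e1 : S.Eτ d x (zf S φ d i u) = S.Eτ d x (ZZ S.Eμ (φ u) d i) :=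
        (ZZ_eq_zeta S.Eμ (φ u) S.towμ d i _ fun d'' hd'' => by subst hd''; exact S.tow2 _ x).symm
      simp only [e1, ← PF.const_mul]
      rw [← PF.sum, ← PF.sub]
      refine PF.abs_le_of _ fun y => ?_
      have := hP ⟨Ω, S.Eμ, φ u, hφ u⟩ d' i y
      convert this using 4 with j
      simp only [prog]
      rw [HP_comap MP.snd]
      exact congrArg (fun Q => α d' i j * HP S.Eμ γ (φ u) d Q y) (hP' d' i j)
    · refine (dec_succ S hφ d (fun d'' hd'' => hγ' d'' (by omega)) (hγ d hd).1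
        (prog (Sum.inl ⟨d', i, j⟩) d) (scaleP D (P' ⟨d', i, j⟩ d)) hε0 hε1
        (fun u x => HP_scale _ _ _ _ _ _) (fun u u' x => H2_scale _ _ _ _ _ _ _) hl).mono ?_
      have a1 := hle (d + 1) hd (Sum.inr (Sum.inl ⟨d', i, j⟩))
      have a2 := hle d (by omega) (Sum.inl ⟨d', i, j⟩)
      gcongr

end Crest.Agent.R141.C
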