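import Crest.Agent.R141.Defs

/-! Positive unital functionals / operators and nested power means. -/

set_option autoImplicit false

namespace Crest.Agent.R141.C

open Finset
open scoped BigOperators

/-- A positive unital linear functional on real functions on `Ω`. -/
structure PF (Ω : Type*) where
  toLin : (Ω → ℝ) →ₗ[ℝ] ℝ
  nonneg' : ∀ f : Ω → ℝ, (∀ ω, 0 ≤ f ω) → 0 ≤ toLin f
  one' : toLin (fun _ => 1) = 1

instance {Ω : Type*} : CoeFun (PF Ω) (fun _ => (Ω → ℝ) → ℝ) := ⟨fun L => L.toLin⟩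

namespace PF

variable {Ω : Type*} (L : PF Ω)

theorem nonneg {f : Ω → ℝ} (h : ∀ ω, 0 ≤ f ω) : 0 ≤ L f := L.nonneg' f h

theorem add (f g : Ω → ℝ) : L (fun ω => f ω + g ω) = L f + L g := L.toLin.map_add f g

theorem sub (f g : Ω → ℝ) : L (fun ω => f ω - g ω) = L f - L g := L.toLin.map_sub f g

theorem neg (f : Ω → ℝ) : L (fun ω => - f ω) = - L f := L.toLin.map_neg f

theorem const_mul (c : ℝ) (f : Ω → ℝ) : L (fun ω => c * f ω) = c * L f :=
  L.toLin.map_smul c f

theorem mul_const (c : ℝ) (f : Ω → ℝ) : L (fun ω => f ω * c) = L f * c := by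
  rw [mul_comm, ← L.const_mul]; congr 1; funext ω; ring

theorem div_const (c : ℝ) (f : Ω → ℝ) : L (fun ω => f ω / c) = L f / c := by
  simp only [div_eq_mul_inv]; exact L.mul_const _ _

@[simp] theorem const (c : ℝ) : L (fun _ => c) = c := by
  have := L.const_mul c (fun _ => 1)
  simp only [mul_one] at this
  rw [this, L.one', mul_one]

theorem sum {ι : Type*} (s : Finset ι) (f : ι → Ω → ℝ) :
    L (fun ω => ∑ i ∈ s, f i ω) = ∑ i ∈ s, L (f i) := by
  rw [← map_sum]; congr 1; funext ω; simp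

theorem expect {ι : Type*} (s : Finset ι) (f : ι → Ω → ℝ) :
    L (fun ω => 𝔼 i ∈ s, f i ω) = 𝔼 i ∈ s, L (f i) := by
  simp only [Finset.expect_eq_sum_div_card]
  rw [L.div_const, L.sum]

theorem mono {f g : Ω → ℝ} (h : ∀ ω, f ω ≤ g ω) : L f ≤ L g := by
  have := L.nonneg (f := fun ω => g ω - f ω) (fun ω => sub_nonneg.2 (h ω))
  rw [L.sub] at this; linarith

theorem le_of_le {f : Ω → ℝ} {c : ℝ} (h : ∀ ω, f ω ≤ c) : L f ≤ c := by
  simpa using L.mono (g := fun _ => c) h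

theorem ge_of_ge {f : Ω → ℝ} {c : ℝ} (h : ∀ ω, c ≤ f ω) : c ≤ L f := by
  simpa using L.mono (f := fun _ => c) h

theorem abs_le (f : Ω → ℝ) : |L f| ≤ L (fun ω => |f ω|) := by
  rw [_root_.abs_le]; constructor
  · rw [← L.neg]; exact L.mono fun ω => neg_abs_le _
  · exact L.mono fun ω => le_abs_self _

theorem abs_le_of {f : Ω → ℝ} {c : ℝ} (h : ∀ ω, |f ω| ≤ c) : |L f| ≤ c :=
  (L.abs_le f).trans (L.le_of_le h)

theorem abs_sub_le (f g : Ω → ℝ) : |L f - L g| ≤ L (fun ω => |f ω - g ω|) := by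
  rw [← L.sub]; exact L.abs_le _

theorem cauchy (f g : Ω → ℝ) :
    (L (fun ω => f ω * g ω)) ^ 2 ≤ L (fun ω => f ω ^ 2) * L (fun ω => g ω ^ 2) := by
  have h : ∀ t : ℝ, 0 ≤ L (fun ω => f ω ^ 2) * (t * t) + 2 * L (fun ω => f ω * g ω) * t
      + L (fun ω => g ω ^ 2) := by
    intro t
    have h1 := L.nonneg (f := fun ω => (t * f ω + g ω) ^ 2) (fun ω => sq_nonneg _)
    have h2 : (fun ω => (t * f ω + g ω) ^ 2) =
        fun ω => (t * t) * f ω ^ 2 + ((2 * t) * (f ω * g ω) + g ω ^ 2) := by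
      funext ω; ring
    rw [h2, L.add, L.add, L.const_mul, L.const_mul] at h1
    linarith
  have := discrim_le_zero h
  rw [discrim] at this
  nlinarith

theorem sq_le (f : Ω → ℝ) : (L f) ^ 2 ≤ L (fun ω => f ω ^ 2) := by
  have := L.cauchy f (fun _ => 1)
  simpa using this

theorem congr {f g : Ω → ℝ} (h : ∀ ω, f ω = g ω) : L f = L g := by
  rw [show f = g from funext h]

end PF

/-- A positive unital operator: a functional at each point. -/
abbrev PO (Ω : Type*) := Ω → PF Ω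

/-- The action of an operator on functions. -/
def ap {Ω : Type*} (E : PO Ω) (f : Ω → ℝ) : Ω → ℝ := fun ω => E ω f

@[simp] theorem ap_apply {Ω : Type*} (E : PO Ω) (f : Ω → ℝ) (ω : Ω) : ap E f ω = E ω f := rfl

/-- The averaging identity of a conditional expectation. -/
def IsAvg {Ω : Type*} (E : PO Ω) : Prop :=
  ∀ (f g : Ω → ℝ) (ω : Ω), E ω (fun x => E x f * g x) = E ω f * E ω g

/-- Tower property of a functional over an operator. -/
def TowF {Ω : Type*} (L : PF Ω) (E : PO Ω) : Prop := ∀ f : Ω → ℝ, L (fun x => E x f) = L f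

/-- Tower property: `E'` is coarser than `E`. -/
def Tow {Ω : Type*} (E' E : PO Ω) : Prop := ∀ ω, TowF (E' ω) E

/-- Covariance under a functional. -/
def cov {Ω : Type*} (L : PF Ω) (f g : Ω → ℝ) : ℝ := L (fun x => f x * g x) - L f * L g

section nmlemmas

variable {Ω : Type*}

/-- Monotone/homogeneous comparison of nested power means; positivity. -/
theorem nm_bounds (E : ℕ → PO Ω) (mm : ℕ → ℝ) (n : ℕ) (hm : ∀ d < n, 0 < mm d)
    {Z : Ω → ℝ} {a b : ℝ} (ha : 0 < a) (h : ∀ ω, a ≤ Z ω ∧ Z ω ≤ b) :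
    ∀ d ≤ n, ∀ ω, a ≤ nm (fun d => ap (E d)) mm Z d ω ∧ nm (fun d => ap (E d)) mm Z d ω ≤ b := by
  intro d
  induction d with
  | zero => intro _ ω; exact h ω
  | succ d ih =>
    intro hd ω
    have ih' := ih (by omega)
    have hmd := hm d (by omega)
    have hb : 0 < b := lt_of_lt_of_le ha ((h ω).1.trans (h ω).2)
    simp only [nm_succ, ap_apply]
    have h1 : a ^ mm d ≤ E d ω (fun ω' => nm (fun d => ap (E d)) mm Z d ω' ^ mm d) :=
      (E d ω).ge_of_ge fun x => Real.rpow_le_rpow ha.le (ih' x).1 hmd.le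
    have h2 : E d ω (fun ω' => nm (fun d => ap (E d)) mm Z d ω' ^ mm d) ≤ b ^ mm d :=
      (E d ω).le_of_le fun x => Real.rpow_le_rpow (ha.le.trans (ih' x).1) (ih' x).2 hmd.le
    have hp : 0 ≤ a ^ mm d := Real.rpow_nonneg ha.le _
    constructor
    · calc a = (a ^ mm d) ^ (1 / mm d) := by
            rw [one_div, Real.rpow_rpow_inv ha.le hmd.ne']
        _ ≤ _ := Real.rpow_le_rpow hp h1 (by positivity)
    · calc _ ≤ (b ^ mm d) ^ (1 / mm d) := Real.rpow_le_rpow (hp.trans h1) h2 (by positivity)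
        _ = b := by rw [one_div, Real.rpow_rpow_inv hb.le hmd.ne']

theorem nm_nonneg (E : ℕ → PO Ω) (mm : ℕ → ℝ) {Z : Ω → ℝ} (h : ∀ ω, 0 ≤ Z ω) :
    ∀ d ω, 0 ≤ nm (fun d => ap (E d)) mm Z d ω := by
  intro d
  induction d with
  | zero => exact h
  | succ d ih =>
    intro ω
    simp only [nm_succ, ap_apply]
    exact Real.rpow_nonneg ((E d ω).nonneg fun x => Real.rpow_nonneg (ih x) _) _

theorem nm_mono (E : ℕ → PO Ω) (mm : ℕ → ℝ) (n : ℕ) (hm : ∀ d < n, 0 < mm d)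
    {F G : Ω → ℝ} {t : ℝ} (ht : 0 ≤ t) (hF : ∀ ω, 0 ≤ F ω) (hG : ∀ ω, 0 ≤ G ω)
    (h : ∀ ω, F ω ≤ t * G ω) :
    ∀ d ≤ n, ∀ ω, nm (fun d => ap (E d)) mm F d ω ≤ t * nm (fun d => ap (E d)) mm G d ω := by
  intro d
  induction d with
  | zero => intro _ ω; exact h ω
  | succ d ih =>
    intro hd ω
    have ih' := ih (by omega)
    have hmd := hm d (by omega)
    simp only [nm_succ, ap_apply]
    have hF' := nm_nonneg E mm hF d
    have hG' := nm_nonneg E mm hG d
    have h1 : E d ω (fun ω' => nm (fun d => ap (E d)) mm F d ω' ^ mm d) ≤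
        t ^ mm d * E d ω (fun ω' => nm (fun d => ap (E d)) mm G d ω' ^ mm d) := by
      rw [← (E d ω).const_mul]
      refine (E d ω).mono fun x => ?_
      rw [← Real.mul_rpow ht (hG' x)]
      exact Real.rpow_le_rpow (hF' x) (ih' x) hmd.le
    have h0 : 0 ≤ E d ω (fun ω' => nm (fun d => ap (E d)) mm F d ω' ^ mm d) :=
      (E d ω).nonneg fun x => Real.rpow_nonneg (hF' x) _
    have h0' : 0 ≤ E d ω (fun ω' => nm (fun d => ap (E d)) mm G d ω' ^ mm d) :=
      (E d ω).nonneg fun x => Real.rpow_nonneg (hG' x) _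
    calc _ ≤ _ := Real.rpow_le_rpow h0 h1 (by positivity)
      _ = _ := by
        rw [Real.mul_rpow (Real.rpow_nonneg ht _) h0', one_div, Real.rpow_rpow_inv ht hmd.ne']

theorem nm_const_mul (E : ℕ → PO Ω) (mm : ℕ → ℝ) (n : ℕ) (hm : ∀ d < n, 0 < mm d)
    {G : Ω → ℝ} {t : ℝ} (ht : 0 < t) (hG : ∀ ω, 0 ≤ G ω) :
    ∀ d ≤ n, ∀ ω, nm (fun d => ap (E d)) mm (fun ω => t * G ω) d ω =
      t * nm (fun d => ap (E d)) mm G d ω := by
  intro d hd ω
  apply le_antisymm
  · exact nm_mono E mm n hm ht.le (fun ω => mul_nonneg ht.le (hG ω)) hG (fun _ => le_rfl) d hd ω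
  · have := nm_mono E mm n hm (F := G) (G := fun ω => t * G ω) (t := t⁻¹) (by positivity) hG
      (fun ω => mul_nonneg ht.le (hG ω))
      (fun ω => by rw [← mul_assoc, inv_mul_cancel₀ ht.ne', one_mul]) d hd ω
    calc _ ≤ t * (t⁻¹ * _) := mul_le_mul_of_nonneg_left this ht.le
      _ = _ := by rw [← mul_assoc, mul_inv_cancel₀ ht.ne', one_mul]

end nmlemmas

end Crest.Agent.R141.C
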