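import Crest.Agent.R141.CDec3

/-! Concrete product spaces: revealing coordinates, tilted conditional expectations. -/

set_option autoImplicit false
set_option maxHeartbeats 400000

namespace Crest.Agent.R141.C

open Finset
open scoped BigOperators

/-- The uniform average as a positive functional, after a change of variables. -/
noncomputable def avgPF {Ω Ω' : Type*} [Fintype Ω'] [Nonempty Ω'] (g : Ω' → Ω) : PF Ω where
  toLin :=
    { toFun := fun f => 𝔼 y, f (g y)
      map_add' := fun _ _ => expect_add_distrib _ _ _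
      map_smul' := fun c f => by simp [mul_expect] }
  nonneg' := fun _ hf => expect_nonneg fun _ _ => hf _
  one' := Fintype.expect_const _

theorem avgPF_apply {Ω Ω' : Type*} [Fintype Ω'] [Nonempty Ω'] (g : Ω' → Ω) (f : Ω → ℝ) :
    avgPF g f = 𝔼 y, f (g y) := rfl

theorem avgPF_pos {Ω Ω' : Type*} [Fintype Ω'] [Nonempty Ω'] (g : Ω' → Ω) {f : Ω → ℝ}
    (hf : ∀ x, 0 < f x) : 0 < avgPF g f :=
  expect_pos (fun _ _ => hf _) univ_nonempty

open Classical in
/-- Tilt a functional by a density. -/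
noncomputable def tiltPF {Ω : Type*} (L : PF Ω) (ρ : Ω → ℝ) : PF Ω :=
  if h : (∀ x, 0 ≤ ρ x) ∧ 0 < L ρ then
    { toLin :=
        { toFun := fun f => L (fun x => ρ x * f x) / L ρ
          map_add' := fun f g => by
            simp only [Pi.add_apply, mul_add]; rw [L.add, add_div]
          map_smul' := fun c f => by
            simp only [Pi.smul_apply, smul_eq_mul, RingHom.id_apply, mul_left_comm _ c]
            rw [L.const_mul, mul_div_assoc] }
      nonneg' := fun f hf => div_nonneg (L.nonneg fun x => mul_nonneg (h.1 x) (hf x)) h.2.le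
      one' := by simp [h.2.ne'] }
  else L

theorem tiltPF_apply {Ω : Type*} (L : PF Ω) {ρ : Ω → ℝ} (h1 : ∀ x, 0 ≤ ρ x) (h2 : 0 < L ρ)
    (f : Ω → ℝ) : tiltPF L ρ f = L (fun x => ρ x * f x) / L ρ := by
  rw [tiltPF, dif_pos ⟨h1, h2⟩]; rfl

section

variable {Sp C V : Type} [DecidableEq C]

/-- Keep the coordinates in `S` from `ω`, take everything else from `ω'`. -/
def merge (S : Finset C) (ω ω' : Sp × (C → V)) : Sp × (C → V) := (ω'.1, S.piecewise ω.2 ω'.2)

/-- Change one coordinate. -/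
def upd (ω : Sp × (C → V)) (c : C) (y : V) : Sp × (C → V) := (ω.1, Function.update ω.2 c y)

/-- `f` depends only on the coordinates in `S`. -/
def Dep (S : Finset C) (f : Sp × (C → V) → ℝ) : Prop := ∀ ω ω', f (merge S ω ω') = f ω

/-- `f` does not depend on the coordinate `c`. -/
def Ind (c : C) (f : Sp × (C → V) → ℝ) : Prop := ∀ ω y, f (upd ω c y) = f ω

theorem merge_merge {S S' : Finset C} (h : S ⊆ S') (ω ω' ω'' : Sp × (C → V)) :
    merge S' (merge S ω ω') ω'' = merge S ω (merge S' ω' ω'') := by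
  refine Prod.ext rfl (funext fun c => ?_)
  by_cases h1 : c ∈ S
  · simp [merge, piecewise, h1, h h1]
  · by_cases h2 : c ∈ S' <;> simp [merge, piecewise, h1, h2]

theorem merge_merge' {S S' : Finset C} (h : S ⊆ S') (ω ω' ω'' : Sp × (C → V)) :
    merge S (merge S' ω ω') ω'' = merge S ω ω'' := by
  refine Prod.ext rfl (funext fun c => ?_)
  by_cases h1 : c ∈ S
  · simp [merge, piecewise, h1, h h1]
  · simp [merge, piecewise, h1]

theorem merge_self (S : Finset C) (ω : Sp × (C → V)) : merge S ω ω = ω :=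
  Prod.ext rfl (funext fun c => by by_cases h : c ∈ S <;> simp [merge, piecewise, h])

theorem Dep.mono {S S' : Finset C} {f : Sp × (C → V) → ℝ} (hf : Dep S f) (h : S ⊆ S') :
    Dep S' f := fun ω ω' => by
  rw [← hf (merge S' ω ω') ω, merge_merge' h, merge_self]

theorem Dep.comp {S : Finset C} {f : Sp × (C → V) → ℝ} (hf : Dep S f) (g : ℝ → ℝ) :
    Dep S (fun x => g (f x)) := fun ω ω' => by simp only [hf ω ω']

theorem Dep.comp₂ {S : Finset C} {f f' : Sp × (C → V) → ℝ} (hf : Dep S f) (hf' : Dep S f')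
    (g : ℝ → ℝ → ℝ) : Dep S (fun x => g (f x) (f' x)) := fun ω ω' => by
  simp only [hf ω ω', hf' ω ω']

theorem merge_upd_left (S : Finset C) (ω ω' : Sp × (C → V)) (c : C) (y : V) :
    merge S (upd ω c y) ω' = if c ∈ S then upd (merge S ω ω') c y else merge S ω ω' := by
  split_ifs with h
  · refine Prod.ext rfl (funext fun c' => ?_)
    by_cases h1 : c' = c
    · subst h1; simp [merge, upd, piecewise, h]
    · simp [merge, upd, piecewise, h1]
  · refine Prod.ext rfl (funext fun c' => ?_)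
    by_cases h1 : c' = c
    · subst h1; simp [merge, upd, piecewise, h]
    · simp [merge, upd, piecewise, h1]

theorem merge_upd_right {S : Finset C} (ω ω' : Sp × (C → V)) {c : C} (h : c ∉ S) (y : V) :
    merge S ω (upd ω' c y) = upd (merge S ω ω') c y := by
  refine Prod.ext rfl (funext fun c' => ?_)
  by_cases h1 : c' = c
  · subst h1; simp [merge, upd, piecewise, h]
  · simp [merge, upd, piecewise, h1]

variable [Fintype Sp] [Nonempty Sp] [Fintype C] [Fintype V] [Nonempty V]

/-- Prior conditional expectation given the coordinates in `S`. -/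
noncomputable def E0 (S : Finset C) : PO (Sp × (C → V)) := fun ω => avgPF (merge S ω)

theorem E0_apply (S : Finset C) (ω : Sp × (C → V)) (f : Sp × (C → V) → ℝ) :
    E0 S ω f = 𝔼 ω', f (merge S ω ω') := rfl

theorem E0_pos (S : Finset C) (ω : Sp × (C → V)) {f : Sp × (C → V) → ℝ} (hf : ∀ x, 0 < f x) :
    0 < E0 S ω f := avgPF_pos _ hf

theorem E0_dep (S : Finset C) (f : Sp × (C → V) → ℝ) : Dep S (fun ω => E0 S ω f) :=
  fun ω ω' => by simp only [E0_apply, merge_merge' subset_rfl]

theorem E0_pull {S : Finset C} {f : Sp × (C → V) → ℝ} (hf : Dep S f) (g : Sp × (C → V) → ℝ)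
    (ω : Sp × (C → V)) : E0 S ω (fun x => f x * g x) = f ω * E0 S ω g := by
  simp only [E0_apply, hf ω, mul_expect]

theorem expect_merge (S : Finset C) (G : Sp × (C → V) → ℝ) :
    𝔼 ω', 𝔼 ω'', G (merge S ω' ω'') = 𝔼 ω, G ω := by
  rw [← expect_prod (fun x : (Sp × (C → V)) × (Sp × (C → V)) => G (merge S x.1 x.2))]
  have hinv : ∀ x : (Sp × (C → V)) × (Sp × (C → V)),
      (merge S (merge S x.2 x.1) (merge S x.1 x.2), merge S (merge S x.1 x.2) (merge S x.2 x.1))
        = (x.2, x.1) := by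
    intro x
    refine Prod.ext (Prod.ext rfl (funext fun c => ?_)) (Prod.ext rfl (funext fun c => ?_)) <;>
      by_cases h : c ∈ S <;> simp [merge, piecewise, h]
  let e : (Sp × (C → V)) × (Sp × (C → V)) ≃ (Sp × (C → V)) × (Sp × (C → V)) :=
    { toFun := fun x => (merge S x.1 x.2, merge S x.2 x.1)
      invFun := fun x => (merge S x.1 x.2, merge S x.2 x.1)
      left_inv := fun x => by
        have := hinv x
        exact Prod.ext (congrArg Prod.snd this) (congrArg Prod.fst this)
      right_inv := fun x => by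
        have := hinv x
        exact Prod.ext (congrArg Prod.snd this) (congrArg Prod.fst this) }
  exact (Fintype.expect_equiv e _ (fun x => G x.1) fun x => rfl).trans (MP.fst G)

theorem E0_tow {S S' : Finset C} (h : S ⊆ S') : Tow (E0 (Sp := Sp) (V := V) S) (E0 S') := by
  intro ω f
  simp only [E0_apply, merge_merge h]
  exact expect_merge S' (fun x => f (merge S ω x))

theorem E0_ind (S : Finset C) {c : C} {f : Sp × (C → V) → ℝ} (hf : Ind c f) :
    Ind c (fun ω => E0 S ω f) := fun ω y => by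
  simp only [E0_apply, merge_upd_left]
  split_ifs
  · simp only [hf _ y]
  · rfl

theorem E0_avg {S : Finset C} {c : C} (hc : c ∉ S) (f : Sp × (C → V) → ℝ) (ω : Sp × (C → V)) :
    E0 S ω f = E0 S ω (fun x => 𝔼 y, f (upd x c y)) := by
  simp only [E0_apply, ← merge_upd_right _ _ hc]
  rw [expect_prod, expect_prod]
  exact expect_congr rfl fun s _ => expect_update c (fun x => f (merge S ω (s, x)))

theorem E0_local {S : Finset C} {f g : Sp × (C → V) → ℝ} (ω : Sp × (C → V))
    (h : ∀ x, (∀ c ∈ S, x.2 c = ω.2 c) → f x = g x) : E0 S ω f = E0 S ω g :=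
  expect_congr rfl fun ω' _ => h _ fun c hc => by simp [merge, piecewise, hc]

/-- Tilted conditional expectation. -/
noncomputable def EP (ρ : Sp × (C → V) → ℝ) (S : Finset C) : PO (Sp × (C → V)) :=
  fun ω => tiltPF (E0 S ω) ρ

theorem EP_apply {ρ : Sp × (C → V) → ℝ} (hρ : ∀ x, 0 < ρ x) (S : Finset C) (ω : Sp × (C → V))
    (f : Sp × (C → V) → ℝ) : EP ρ S ω f = E0 S ω (fun x => ρ x * f x) / E0 S ω ρ :=
  tiltPF_apply _ (fun x => (hρ x).le) (E0_pos S ω hρ) f

variable {ρ : Sp × (C → V) → ℝ}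

theorem EP_dep (hρ : ∀ x, 0 < ρ x) (S : Finset C) (f : Sp × (C → V) → ℝ) :
    Dep S (fun ω => EP ρ S ω f) := by
  simp only [EP_apply hρ]
  exact (E0_dep S _).comp₂ (E0_dep S _) (· / ·)

theorem EP_pull (hρ : ∀ x, 0 < ρ x) {S : Finset C} {f : Sp × (C → V) → ℝ} (hf : Dep S f)
    (g : Sp × (C → V) → ℝ) (ω : Sp × (C → V)) :
    EP ρ S ω (fun x => f x * g x) = f ω * EP ρ S ω g := by
  simp only [EP_apply hρ, mul_left_comm (ρ _)]
  rw [E0_pull hf, mul_div_assoc]

theorem EP_avg' (hρ : ∀ x, 0 < ρ x) (S : Finset C) : IsAvg (EP ρ S) :=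
  fun f g ω => EP_pull hρ (EP_dep hρ S f) g ω

theorem EP_tow (hρ : ∀ x, 0 < ρ x) {S S' : Finset C} (h : S ⊆ S') : Tow (EP ρ S) (EP ρ S') := by
  intro ω f
  rw [EP_apply hρ, EP_apply hρ, ← E0_tow h ω, ← E0_tow h ω (fun x => ρ x * f x)]
  congr 1
  refine PF.congr _ fun x => ?_
  simp only [mul_comm (ρ _) (EP ρ S' _ f)]
  rw [E0_pull (EP_dep hρ S' f), EP_apply hρ, div_mul_cancel₀ _ (E0_pos S' x hρ).ne']

theorem EP_ind (hρ : ∀ x, 0 < ρ x) (S : Finset C) {c : C} (hc : Ind c ρ)
    {f : Sp × (C → V) → ℝ} (hf : Ind c f) : Ind c (fun ω => EP ρ S ω f) := fun ω y => by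
  simp only [EP_apply hρ]
  exact congrArg₂ (· / ·) (E0_ind S (f := fun x => ρ x * f x)
    (fun ω y => by simp only [hc ω y, hf ω y]) ω y) (E0_ind S hc ω y)

theorem EP_avg (hρ : ∀ x, 0 < ρ x) {S : Finset C} {c : C} (hc : c ∉ S) (hc' : Ind c ρ)
    (f : Sp × (C → V) → ℝ) (ω : Sp × (C → V)) :
    EP ρ S ω f = EP ρ S ω (fun x => 𝔼 y, f (upd x c y)) := by
  simp only [EP_apply hρ]
  rw [E0_avg hc]
  simp only [hc' _ _, mul_expect]

theorem EP_local (hρ : ∀ x, 0 < ρ x) {S : Finset C} {f g : Sp × (C → V) → ℝ}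
    (ω : Sp × (C → V)) (h : ∀ x, (∀ c ∈ S, x.2 c = ω.2 c) → f x = g x) :
    EP ρ S ω f = EP ρ S ω g := by
  simp only [EP_apply hρ]
  rw [E0_local ω fun x hx => by rw [h x hx]]

end

end Crest.Agent.R141.C
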