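import Crest.Agent.R141.CPin1

/-! The tilted path measure of a nested power mean. -/

set_option autoImplicit false
set_option maxHeartbeats 400000

namespace Crest.Agent.R141.C

open Finset
open scoped BigOperators

section

variable {Sp C V : Type} [DecidableEq C] [Fintype Sp] [Nonempty Sp] [Fintype C] [Fintype V]
  [Nonempty V]

/-- Nested power means under the prior. -/
noncomputable def TT (Sm : ℕ → Finset C) (mm : ℕ → ℝ) (Z : Sp × (C → V) → ℝ) (d : ℕ) :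
    Sp × (C → V) → ℝ := nm (fun d => ap (E0 (Sm d))) mm Z d

/-- Partial densities of the tilted path measure. -/
noncomputable def rho (Sm : ℕ → Finset C) (mm : ℕ → ℝ) (Z : Sp × (C → V) → ℝ) (d : ℕ)
    (x : Sp × (C → V)) : ℝ := ∏ j ∈ range d, (TT Sm mm Z j x / TT Sm mm Z (j + 1) x) ^ mm j

variable {Sm : ℕ → Finset C} {mm : ℕ → ℝ} {Z : Sp × (C → V) → ℝ}

theorem TT_succ (d : ℕ) (ω : Sp × (C → V)) : TT Sm mm Z (d + 1) ω =
    (E0 (Sm d) ω (fun x => TT Sm mm Z d x ^ mm d)) ^ (1 / mm d) := rfl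

theorem TT_pos (hZ : ∀ x, 0 < Z x) : ∀ d x, 0 < TT Sm mm Z d x
  | 0, x => hZ x
  | d + 1, x => Real.rpow_pos_of_pos
      (E0_pos _ x fun y => Real.rpow_pos_of_pos (TT_pos hZ d y) _) _

theorem rho_pos (hZ : ∀ x, 0 < Z x) (d : ℕ) (x : Sp × (C → V)) : 0 < rho Sm mm Z d x :=
  prod_pos fun j _ => Real.rpow_pos_of_pos (div_pos (TT_pos hZ _ _) (TT_pos hZ _ _)) _

theorem TT_dep (d : ℕ) : Dep (Sm d) (TT Sm mm Z (d + 1)) :=
  (E0_dep (Sm d) _).comp (fun t => t ^ (1 / mm d))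

theorem TT_succ_rpow (hZ : ∀ x, 0 < Z x) {d : ℕ} (hm : 0 < mm d) (ω : Sp × (C → V)) :
    TT Sm mm Z (d + 1) ω ^ mm d = E0 (Sm d) ω (fun x => TT Sm mm Z d x ^ mm d) := by
  rw [TT_succ, one_div, Real.rpow_inv_rpow
    (E0_pos _ ω fun y => Real.rpow_pos_of_pos (TT_pos hZ d y) _).le hm.ne']

theorem TT_ind {c : C} (hc : Ind c Z) : ∀ d, Ind c (TT Sm mm Z d)
  | 0 => hc
  | d + 1 => fun ω y => by
    rw [TT_succ, TT_succ]
    congr 1
    exact E0_ind (Sm d) (f := fun x => TT Sm mm Z d x ^ mm d)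
      (fun ω y => by simp only [TT_ind hc d ω y]) ω y

theorem rho_ind {c : C} (hc : Ind c Z) (d : ℕ) : Ind c (rho Sm mm Z d) := fun ω y => by
  simp only [rho, TT_ind hc _ ω y]

/-- Measurability at the end of level `d`. -/
def Lv (Sm : ℕ → Finset C) (d : ℕ) (f : Sp × (C → V) → ℝ) : Prop :=
  ∀ d', d = d' + 1 → Dep (Sm d') f

theorem TT_lv (d : ℕ) : Lv Sm d (TT Sm mm Z d) := fun d' hd => by subst hd; exact TT_dep d'

omit [Fintype Sp] [Nonempty Sp] [Fintype C] [Fintype V] [Nonempty V] in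
theorem Lv.comp₂ {d : ℕ} {f f' : Sp × (C → V) → ℝ} (hf : Lv Sm d f) (hf' : Lv Sm d f')
    (g : ℝ → ℝ → ℝ) : Lv Sm d (fun x => g (f x) (f' x)) :=
  fun d' hd => (hf d' hd).comp₂ (hf' d' hd) g

omit [Fintype Sp] [Nonempty Sp] [Fintype C] [Fintype V] [Nonempty V] in
theorem Dep.lv (hS : ∀ d, Sm (d + 1) ⊆ Sm d) {d : ℕ} {f : Sp × (C → V) → ℝ}
    (hf : Dep (Sm d) f) : Lv Sm d f := fun d' hd => by subst hd; exact hf.mono (hS d')

theorem rho_int (hS : ∀ d, Sm (d + 1) ⊆ Sm d) (hZ : ∀ x, 0 < Z x) :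
    ∀ d, (∀ j < d, 0 < mm j) → ∀ (g : Sp × (C → V) → ℝ), Lv Sm d g → ∀ L : PF (Sp × (C → V)),
      (∀ d', d = d' + 1 → TowF L (E0 (Sm d'))) → L (fun x => rho Sm mm Z d x * g x) = L g := by
  intro d
  induction d with
  | zero => intro _ g _ L _; simp [rho]
  | succ d ih =>
    intro hm g hg L hL
    have hg' := hg d rfl
    rw [← hL d rfl]
    refine PF.congr _ fun ω => ?_
    simp only [rho, prod_range_succ, mul_assoc]
    have h1 := ih (fun j hj => hm j (by omega))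
      (fun x => (TT Sm mm Z d x / TT Sm mm Z (d + 1) x) ^ mm d * g x)
      (((TT_lv d).comp₂ ((TT_dep d).lv hS) (fun a b => (a / b) ^ mm d)).comp₂ (hg'.lv hS) (· * ·))
      (E0 (Sm d) ω) (fun d' hd => by subst hd; exact E0_tow (hS d') ω)
    simp only [rho] at h1
    rw [h1]
    have h2 : ∀ x, (TT Sm mm Z d x / TT Sm mm Z (d + 1) x) ^ mm d * g x =
        (g x / TT Sm mm Z (d + 1) x ^ mm d) * TT Sm mm Z d x ^ mm d := by
      intro x
      rw [Real.div_rpow (TT_pos hZ _ _).le (TT_pos hZ _ _).le]; ring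
    simp only [h2]
    rw [E0_pull (hg'.comp₂ (TT_dep d) (fun a b => a / b ^ mm d)),
      ← TT_succ_rpow hZ (hm d (by omega)),
      div_mul_cancel₀ _ (Real.rpow_pos_of_pos (TT_pos hZ _ _) _).ne']

omit [Fintype Sp] [Nonempty Sp] [Fintype C] [Fintype V] [Nonempty V] [DecidableEq C] in
theorem Sm_anti (hS : ∀ d, Sm (d + 1) ⊆ Sm d) {d d' : ℕ} (h : d ≤ d') : Sm d' ⊆ Sm d := by
  induction h with
  | refl => exact subset_rfl
  | step _ ih => exact (hS _).trans ih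

/-- The tilted conditional expectation at a time inside level `d`. -/
theorem EP_level (hS : ∀ d, Sm (d + 1) ⊆ Sm d) (hZ : ∀ x, 0 < Z x) {n d : ℕ}
    (hm : ∀ j < n, 0 < mm j) (hd : d < n) {S : Finset C} (h1 : Sm d ⊆ S)
    (h2 : ∀ d', d = d' + 1 → S ⊆ Sm d') {f : Sp × (C → V) → ℝ} (hf : Lv Sm d f)
    (ω : Sp × (C → V)) :
    EP (rho Sm mm Z n) S ω f = E0 S ω (fun x => TT Sm mm Z d x ^ mm d * f x) /
      E0 S ω (fun x => TT Sm mm Z d x ^ mm d) := by
  set R : Sp × (C → V) → ℝ := fun x => (∏ j ∈ Ico (d + 1) n,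
    (TT Sm mm Z j x / TT Sm mm Z (j + 1) x) ^ mm j) / TT Sm mm Z (d + 1) x ^ mm d with hR
  have hRd : Dep S R := by
    refine Dep.mono (fun ω ω' => ?_) h1
    simp only [hR, TT_dep d ω ω']
    congr 1
    refine prod_congr rfl fun j hj => ?_
    obtain ⟨j, rfl⟩ : ∃ j', j = j' + 1 := ⟨j - 1, by have := (mem_Ico.1 hj).1; omega⟩
    have := (mem_Ico.1 hj).1
    rw [(TT_dep j).mono (Sm_anti hS (by omega)) ω ω',
      (TT_dep (j + 1)).mono (Sm_anti hS (by omega)) ω ω']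
  have hR0 : 0 < R ω := div_pos (prod_pos fun j _ =>
    Real.rpow_pos_of_pos (div_pos (TT_pos hZ _ _) (TT_pos hZ _ _)) _)
    (Real.rpow_pos_of_pos (TT_pos hZ _ _) _)
  have key : ∀ g, Lv Sm d g → E0 S ω (fun x => rho Sm mm Z n x * g x) =
      R ω * E0 S ω (fun x => TT Sm mm Z d x ^ mm d * g x) := by
    intro g hg
    rw [← rho_int hS hZ d (fun j hj => hm j (by omega)) _
      ((TT_lv d).comp₂ hg (fun a b => a ^ mm d * b)) (E0 S ω)
      (fun d' hd' => E0_tow (h2 d' hd') ω), ← E0_pull hRd]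
    refine PF.congr _ fun x => ?_
    simp only [rho, hR]
    rw [← prod_range_mul_prod_Ico _ (show d + 1 ≤ n by omega), prod_range_succ,
      Real.div_rpow (TT_pos hZ _ _).le (TT_pos hZ _ _).le]
    ring
  rw [EP_apply (rho_pos hZ n), key f hf]
  have := key (fun _ => 1) (fun _ _ _ _ => rfl)
  simp only [mul_one] at this
  rw [this, mul_div_mul_left _ _ hR0.ne']

/-- The tilt lemma. -/
theorem TT_mul (hS : ∀ d, Sm (d + 1) ⊆ Sm d) (hZ : ∀ x, 0 < Z x) {n : ℕ}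
    (hm : ∀ j < n, 0 < mm j) {B : Sp × (C → V) → ℝ} (hB : ∀ x, 0 ≤ B x) :
    ∀ d ≤ n, ∀ ω, TT Sm mm (fun x => Z x * B x) d ω =
      TT Sm mm Z d ω * nm (fun d => ap (EP (rho Sm mm Z n) (Sm d))) mm B d ω := by
  intro d
  induction d with
  | zero => intro _ ω; rfl
  | succ d ih =>
    intro hd ω
    have hmd := hm d (by omega)
    have hN := nm_nonneg (fun d => EP (rho Sm mm Z n) (Sm d)) mm hB d
    have hlv : Lv Sm d (fun x => nm (fun d => ap (EP (rho Sm mm Z n) (Sm d))) mm B d x ^ mm d) := by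
      intro d' hd'
      subst hd'
      exact (EP_dep (rho_pos hZ n) _ _).comp (fun t => (t ^ (1 / mm d')) ^ mm (d' + 1))
    rw [TT_succ, TT_succ, nm_succ]
    simp only [ap_apply]
    rw [EP_level hS hZ hm (by omega) subset_rfl (fun d' hd' => by subst hd'; exact hS d') hlv]
    have hp := E0_pos (Sm d) ω fun y => Real.rpow_pos_of_pos (TT_pos (Sm := Sm) (mm := mm) hZ d y)
      (mm d)
    rw [← Real.mul_rpow hp.le (div_nonneg (PF.nonneg _ fun x => mul_nonneg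
      (Real.rpow_nonneg (TT_pos hZ _ _).le _) (Real.rpow_nonneg (hN x) _)) hp.le),
      mul_div_cancel₀ _ hp.ne']
    congr 1
    refine PF.congr _ fun x => ?_
    rw [ih (by omega), Real.mul_rpow (TT_pos hZ _ _).le (hN x)]

theorem nm_local {ρ : Sp × (C → V) → ℝ} (hρ : ∀ x, 0 < ρ x) {S : Finset C}
    {F G : Sp × (C → V) → ℝ} (ω : Sp × (C → V))
    (h : ∀ x, (∀ c ∈ S, x.2 c = ω.2 c) → F x = G x) :
    ∀ d, (∀ j < d, S ⊆ Sm j) → ∀ x, (∀ c ∈ S, x.2 c = ω.2 c) →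
      nm (fun d => ap (EP ρ (Sm d))) mm F d x = nm (fun d => ap (EP ρ (Sm d))) mm G d x := by
  intro d
  induction d with
  | zero => intro _ x hx; exact h x hx
  | succ d ih =>
    intro hS x hx
    simp only [nm_succ, ap_apply]
    congr 1
    refine EP_local hρ x fun y hy => ?_
    rw [ih (fun j hj => hS j (by omega)) y fun c hc => (hy c (hS d (by omega) hc)).trans (hx c hc)]

/-- Comparison of densities. -/
theorem rho_le (hZ : ∀ x, 0 < Z x) {Z' : Sp × (C → V) → ℝ} {n : ℕ}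
    (hm : ∀ j < n, 0 < mm j ∧ mm j ≤ 1) (h1 : ∀ x, Z' x ≤ Z x) (h2 : ∀ x, Z x ≤ 4 * Z' x)
    (x : Sp × (C → V)) : rho Sm mm Z n x ≤ 4 ^ n * rho Sm mm Z' n x := by
  have hZ' : ∀ x, 0 < Z' x := fun x => by linarith [hZ x, h2 x]
  have a1 : ∀ d ≤ n, TT Sm mm Z' d x ≤ 1 * TT Sm mm Z d x := fun d hd =>
    nm_mono _ mm n (fun j hj => (hm j hj).1) zero_le_one (fun x => (hZ' x).le)
      (fun x => (hZ x).le) (fun x => by rw [one_mul]; exact h1 x) d hd x
  have a2 : ∀ d ≤ n, TT Sm mm Z d x ≤ 4 * TT Sm mm Z' d x := fun d hd =>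
    nm_mono _ mm n (fun j hj => (hm j hj).1) (by norm_num) (fun x => (hZ x).le)
      (fun x => (hZ' x).le) h2 d hd x
  simp only [rho]
  rw [← card_range n, ← prod_const, card_range, ← prod_mul_distrib]
  refine prod_le_prod (fun j _ => Real.rpow_nonneg
    (div_pos (TT_pos hZ _ _) (TT_pos hZ _ _)).le _) fun j hj => ?_
  have hj' := mem_range.1 hj
  have b1 : TT Sm mm Z j x / TT Sm mm Z (j + 1) x ≤
      4 * (TT Sm mm Z' j x / TT Sm mm Z' (j + 1) x) := by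
    rw [← mul_div_assoc]
    exact div_le_div₀ (by linarith [TT_pos (Sm := Sm) (mm := mm) hZ' j x]) (a2 j hj'.le)
      (TT_pos hZ' _ _) (by simpa using a1 (j + 1) hj')
  have hq := (div_pos (TT_pos (Sm := Sm) (mm := mm) hZ' j x)
    (TT_pos (Sm := Sm) (mm := mm) hZ' (j + 1) x)).le
  refine (Real.rpow_le_rpow (div_pos (TT_pos hZ _ _) (TT_pos hZ _ _)).le b1 (hm j hj').1.le).trans ?_
  rw [Real.mul_rpow (by norm_num) hq]
  refine mul_le_mul_of_nonneg_right ?_ (Real.rpow_nonneg hq _)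
  have := Real.rpow_le_rpow_of_exponent_le (x := 4) (by norm_num) (hm j hj').2
  rwa [Real.rpow_one] at this

/-- The abstract system attached to a positive density and a chain of coordinate sets. -/
noncomputable def mkSys {ρ : Sp × (C → V) → ℝ} (hρ : ∀ x, 0 < ρ x) (Sm St : ℕ → Finset C)
    (h1 : ∀ d, Sm d ⊆ St d) (h2 : ∀ d, St (d + 1) ⊆ Sm d) : Sys (Sp × (C → V)) where
  Eμ d := EP ρ (Sm d)
  Eτ d := EP ρ (St d)
  out := EP ρ ∅ (Classical.arbitrary _)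
  avgμ _ := EP_avg' hρ _
  avgτ _ := EP_avg' hρ _
  tow1 d := EP_tow hρ (h1 d)
  tow2 d := EP_tow hρ (h2 d)
  outμ _ := EP_tow hρ (empty_subset _) _
  outτ _ := EP_tow hρ (empty_subset _) _

theorem EP_empty_rho (hS : ∀ d, Sm (d + 1) ⊆ Sm d) (hZ : ∀ x, 0 < Z x) {n : ℕ}
    (hm : ∀ j < n, 0 < mm j) (ω : Sp × (C → V)) (f : Sp × (C → V) → ℝ) :
    EP (rho Sm mm Z n) ∅ ω f = E0 ∅ ω (fun x => rho Sm mm Z n x * f x) := by
  have := rho_int hS hZ n hm (fun _ => 1) (fun _ _ _ _ => rfl) (E0 ∅ ω)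
    (fun d' _ => E0_tow (empty_subset _) ω)
  simp only [mul_one, PF.const] at this
  rw [EP_apply (rho_pos hZ n), this, div_one]

end

end Crest.Agent.R141.C
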