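import Crest.Agent.R141.CPin2

/-! Pins as coordinates: the semantics of programs is realized by marked factors. -/

set_option autoImplicit false
set_option maxHeartbeats 400000

namespace Crest.Agent.R141.C

open Finset
open scoped BigOperators

/-- Run a program on a sequence of marks. -/
def Atom.eval {M : Type} : ∀ d, Atom M d → (ℕ → M) → Option Bool
  | 0, o, _ => o
  | d + 1, P, x => Atom.eval d (P (x d)) x

theorem Atom.eval_off {M : Type} (x : ℕ → M) : ∀ d, Atom.eval d (Atom.off M d) x = none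
  | 0 => rfl
  | d + 1 => Atom.eval_off x d

/-- Pin indices. -/
abbrev PA (n K : ℕ) := Fin n × Fin (K + 1)

/-- Coordinates: an on/off coordinate and one mark per level for each pin. -/
abbrev PC (n K : ℕ) := PA n K × Option (Fin n)

section

variable {n K : ℕ}

def lev (c : PC n K) : ℕ := match c.2 with
  | none => c.1.1
  | some d => d

def mc (a : PA n K) (d : ℕ) : PC n K := (a, if h : d < n then some ⟨d, h⟩ else none)

/-- Coordinates revealed at the start of level `d`. -/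
def SM (n K : ℕ) (d : ℕ) : Finset (PC n K) := univ.filter fun c => d < lev c

/-- Coordinates revealed at stage `j` of level `d`. -/
def SS (n K : ℕ) (d j : ℕ) : Finset (PC n K) :=
  univ.filter fun c => d < lev c ∨ (c.2 = none ∧ (c.1.1 : ℕ) = d ∧ (c.1.2 : ℕ) < j)

theorem SM_anti (d : ℕ) : SM n K (d + 1) ⊆ SM n K d := fun c => by
  simp only [SM, mem_filter, mem_univ, true_and]; omega

theorem SM_subset_SS (d j : ℕ) : SM n K d ⊆ SS n K d j := fun c => by
  simp only [SM, SS, mem_filter, mem_univ, true_and]; exact Or.inl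

theorem SS_subset_SM (d j : ℕ) : SS n K (d + 1) j ⊆ SM n K d := fun c => by
  simp only [SM, SS, mem_filter, mem_univ, true_and]
  rintro (h | ⟨h1, h2, _⟩)
  · omega
  · simp only [lev, h1]; omega

theorem SS_mono (d : ℕ) {j j' : ℕ} (h : j ≤ j') : SS n K d j ⊆ SS n K d j' := fun c => by
  simp only [SS, mem_filter, mem_univ, true_and]
  rintro (h | ⟨h1, h2, h3⟩)
  · exact Or.inl h
  · exact Or.inr ⟨h1, h2, by omega⟩

theorem lev_mc (a : PA n K) {d : ℕ} (hd : d < n) : lev (mc a d) = d := by simp [lev, mc, hd]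

theorem mc_notMem_SS (a : PA n K) {d : ℕ} (hd : d < n) (j : ℕ) : mc a d ∉ SS n K d j := by
  simp [SS, mc, hd, lev]

theorem mc_notMem_SM (a : PA n K) {d : ℕ} (hd : d < n) : mc a d ∉ SM n K d :=
  fun h => mc_notMem_SS a hd 0 (SM_subset_SS d 0 h)

variable {Sp M : Type}

/-- The marks of pin `a`. -/
def mk (ω : Sp × (PC n K → Bool × M)) (a : PA n K) (d : ℕ) : M := (ω.2 (mc a d)).2

/-- The on/off bit of pin `a`. -/
def bit (ω : Sp × (PC n K → Bool × M)) (a : PA n K) : Bool := (ω.2 (a, none)).1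

/-- Product of the two factors. -/
noncomputable def BB (φ φ' : Bool → Sp × (PC n K → Bool × M) → ℝ) (a b : PA n K) (d : ℕ)
    (P P' : Atom M d) (ω : Sp × (PC n K → Bool × M)) : ℝ :=
  (1 - Wt φ (Atom.eval d P (mk ω a)) ω) * (1 - Wt φ' (Atom.eval d P' (mk ω b)) ω)

variable [Fintype Sp] [Nonempty Sp] [Fintype M] [Nonempty M]
  {ρ : Sp × (PC n K → Bool × M) → ℝ} {φ φ' : Bool → Sp × (PC n K → Bool × M) → ℝ}

theorem K2_ind (hρ : ∀ x, 0 < ρ x) (γ : ℕ → ℝ) {c : PC n K} (hc : Ind c ρ)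
    (h : ∀ s, Ind c (φ s)) (h' : ∀ s, Ind c (φ' s)) :
    ∀ d (P P' : Atom M d), Ind c (K2 (fun d => EP ρ (SM n K d)) γ φ φ' d P P') := by
  intro d
  induction d with
  | zero =>
    intro P P' ω y
    have e : ∀ o, Wt φ o (upd ω c y) = Wt φ o ω := by
      rintro (_ | s) <;> simp [Wt, h _ ω y]
    have e' : ∀ o, Wt φ' o (upd ω c y) = Wt φ' o ω := by
      rintro (_ | s) <;> simp [Wt, h' _ ω y]
    simp only [K2, e, e']
  | succ d ih =>
    intro P P' ω y
    rw [K2_succ, K2_succ]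
    congr 1
    exact EP_ind hρ _ hc (fun ω y => by simp only [H2, ih _ _ ω y]) ω y

/-- Averaging the two mark coordinates of level `d`. -/
theorem EP_avg_marks (hρ : ∀ x, 0 < ρ x) {a b : PA n K} (hab : a ≠ b)
    (ha : ∀ o, Ind (a, o) ρ) (hb : ∀ o, Ind (b, o) ρ) {d : ℕ} {S : Finset (PC n K)}
    (h1 : mc a d ∉ S) (h2 : mc b d ∉ S) (F : M → M → Sp × (PC n K → Bool × M) → ℝ)
    (hFa : ∀ y y', Ind (mc a d) (F y y')) (hFb : ∀ y y', Ind (mc b d) (F y y'))
    (ω : Sp × (PC n K → Bool × M)) :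
    EP ρ S ω (fun x => F (mk x a d) (mk x b d) x) = EP ρ S ω (fun x => 𝔼 y, 𝔼 y', F y y' x) := by
  have hne : mc b d ≠ mc a d := fun h => hab (congrArg Prod.fst h).symm
  rw [EP_avg hρ h1 (ha _), EP_avg hρ h2 (hb _)]
  refine PF.congr _ fun x => ?_
  simp only [mk, upd, Function.update_self, Function.update_of_ne hne]
  have e : ∀ (y y' : Bool × M), F y'.2 y.2 (x.1, Function.update (Function.update x.2 (mc b d) y)
      (mc a d) y') = F y'.2 y.2 x := fun y y' =>
    (hFa _ _ (upd x (mc b d) y) y').trans (hFb _ _ x y)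
  simp only [e]
  rw [MP.snd (fun y => 𝔼 y' : Bool × M, F y'.2 y x), expect_comm,
    MP.snd (fun y => 𝔼 y', F y y' x)]

theorem EP_avg_bits (hρ : ∀ x, 0 < ρ x) {a b : PA n K} (hab : a ≠ b)
    (ha : ∀ o, Ind (a, o) ρ) (hb : ∀ o, Ind (b, o) ρ) {S : Finset (PC n K)}
    (h1 : (a, none) ∉ S) (h2 : (b, none) ∉ S) (F : Bool → Bool → Sp × (PC n K → Bool × M) → ℝ)
    (hFa : ∀ y y', Ind (a, none) (F y y')) (hFb : ∀ y y', Ind (b, none) (F y y'))
    (ω : Sp × (PC n K → Bool × M)) :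
    EP ρ S ω (fun x => F (bit x a) (bit x b) x) = EP ρ S ω (fun x => 𝔼 y, 𝔼 y', F y y' x) := by
  have hne : ((b, none) : PC n K) ≠ (a, none) := fun h => hab (congrArg Prod.fst h).symm
  rw [EP_avg hρ h1 (ha _), EP_avg hρ h2 (hb _)]
  refine PF.congr _ fun x => ?_
  simp only [bit, upd, Function.update_self, Function.update_of_ne hne]
  have e : ∀ (y y' : Bool × M), F y'.1 y.1 (x.1, Function.update (Function.update x.2 (b, none) y)
      (a, none) y') = F y'.1 y.1 x := fun y y' =>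
    (hFa _ _ (upd x (b, none) y) y').trans (hFb _ _ x y)
  simp only [e]
  rw [MP.fst (fun y => 𝔼 y' : Bool × M, F y'.1 y x), expect_comm,
    MP.fst (fun y => 𝔼 y', F y y' x)]

theorem nm_BB (hρ : ∀ x, 0 < ρ x) {a b : PA n K} (hab : a ≠ b)
    (ha : ∀ o, Ind (a, o) ρ) (hb : ∀ o, Ind (b, o) ρ) {mm γ : ℕ → ℝ} (hm0 : mm 0 = 1)
    (hm : ∀ d < n, 0 < mm d) (hγ : ∀ d, d + 1 < n → γ d = mm (d + 1) / mm d ∧ 0 < γ d ∧ γ d < 1)
    (hφ : ∀ s ω, 0 ≤ φ s ω ∧ φ s ω ≤ 1) (hφ' : ∀ s ω, 0 ≤ φ' s ω ∧ φ' s ω ≤ 1)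
    (h : ∀ c s, Ind c (φ s)) (h' : ∀ c s, Ind c (φ' s)) :
    ∀ d < n, ∀ (P P' : Atom M d) ω,
      nm (fun d => ap (EP ρ (SM n K d))) mm (BB φ φ' a b d P P') d ω ^ mm d =
        1 - K2 (fun d => EP ρ (SM n K d)) γ φ φ' d P P' ω := by
  intro d
  induction d with
  | zero => intro _ P P' ω; simp [hm0, nm_zero, BB, K2, Atom.eval]
  | succ d ih =>
    intro hd P P' ω
    have hd' : d < n := by omega
    have e1 : ∀ x, nm (fun d => ap (EP ρ (SM n K d))) mm (BB φ φ' a b (d + 1) P P') d x ^ mm d =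
        1 - K2 (fun d => EP ρ (SM n K d)) γ φ φ' d (P (mk x a d)) (P' (mk x b d)) x := by
      intro x
      rw [← ih hd']
      congr 1
      refine nm_local hρ (S := {mc a d, mc b d}) x (fun y hy => ?_) d (fun j hj c hc => ?_) x
        (fun _ _ => rfl)
      · have h1 : mk y a d = mk x a d := by simp only [mk]; rw [hy _ (by simp)]
        have h2 : mk y b d = mk x b d := by simp only [mk]; rw [hy _ (by simp)]
        simp only [BB, Atom.eval, h1, h2]
      · simp only [mem_insert, mem_singleton] at hc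
        rcases hc with rfl | rfl <;> simp [SM, lev_mc _ hd', hj]
    rw [nm_succ]
    simp only [ap_apply, e1]
    rw [EP_avg_marks hρ hab ha hb (mc_notMem_SM a hd') (mc_notMem_SM b hd')
      (fun y y' x => 1 - K2 (fun d => EP ρ (SM n K d)) γ φ φ' d (P y) (P' y') x)
      (fun y y' ω z => congrArg (1 - ·) (K2_ind hρ γ (c := mc a d) (ha _) (h _) (h' _) d _ _ ω z))
      (fun y y' ω z => congrArg (1 - ·) (K2_ind hρ γ (c := mc b d) (hb _) (h _) (h' _) d _ _ ω z))]
    simp only [expect_sub_distrib, Fintype.expect_const, PF.sub, PF.const]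
    rw [K2_succ, psi, sub_sub_cancel, (hγ d hd).1, ← Real.rpow_mul]
    · congr 1; ring
    · have := (EP ρ (SM n K d) ω).le_of_le fun x => (H2_mem (fun d => EP ρ (SM n K d)) hφ hφ' d
        (fun d' hd'' => (hγ d' (by omega)).2) P P' x).2
      change 0 ≤ 1 - EP ρ (SM n K d) ω (H2 (fun d => EP ρ (SM n K d)) γ φ φ' d P P')
      linarith

end

end Crest.Agent.R141.C
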