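import Crest.Agent.R141.CPin3

/-! The additivity defect is controlled by the covariance of the two on/off bits. -/

set_option autoImplicit false
set_option maxHeartbeats 400000

namespace Crest.Agent.R141.C

open Finset
open scoped BigOperators

section

variable {n K : ℕ} {Sp M : Type}

/-- A program switched by a bit. -/
def sw {d : ℕ} (β : Bool) (P : Atom M d) : Atom M d := if β then P else Atom.off M d

/-- The factor of one pin. -/
noncomputable def pinF (φ : Bool → Sp × (PC n K → Bool × M) → ℝ) (a : PA n K) (d : ℕ)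
    (P : Atom M (d + 1)) (ω : Sp × (PC n K → Bool × M)) : ℝ :=
  1 - Wt φ (Atom.eval (d + 1) (sw (bit ω a) P) (mk ω a)) ω

/-- The on/off bit as a real number. -/
def bitR (a : PA n K) (ω : Sp × (PC n K → Bool × M)) : ℝ := if bit ω a then 1 else 0

theorem pinF_mem {φ : Bool → Sp × (PC n K → Bool × M) → ℝ} (hφ : ∀ s ω, 0 ≤ φ s ω ∧ φ s ω ≤ 1)
    (a : PA n K) (d : ℕ) (P : Atom M (d + 1)) (ω : Sp × (PC n K → Bool × M)) :
    1 / 2 ≤ pinF φ a d P ω ∧ pinF φ a d P ω ≤ 1 := by
  have := Wt_mem hφ (Atom.eval (d + 1) (sw (bit ω a) P) (mk ω a)) ω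
  simp only [pinF]; constructor <;> linarith [this.1, this.2]

variable [Fintype Sp] [Nonempty Sp] [Fintype M] [Nonempty M]
  {φ φ' : Bool → Sp × (PC n K → Bool × M) → ℝ} {Z : Sp × (PC n K → Bool × M) → ℝ}

theorem del_le_cov (hZ : ∀ x, 0 < Z x) {a b : PA n K} (hab : a ≠ b)
    (ha : ∀ o, Ind (a, o) Z) (hb : ∀ o, Ind (b, o) Z) {mm γ : ℕ → ℝ} (hm0 : mm 0 = 1)
    (hm : ∀ d < n, 0 < mm d) (hγ : ∀ d, d + 1 < n → γ d = mm (d + 1) / mm d ∧ 0 < γ d ∧ γ d < 1)
    (hφ : ∀ s ω, 0 ≤ φ s ω ∧ φ s ω ≤ 1) (hφ' : ∀ s ω, 0 ≤ φ' s ω ∧ φ' s ω ≤ 1)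
    (h : ∀ c s, Ind c (φ s)) (h' : ∀ c s, Ind c (φ' s)) {d : ℕ} (hda : (a.1 : ℕ) = d)
    (hdb : (b.1 : ℕ) = d) {j : ℕ} (hja : j ≤ a.2) (hjb : j ≤ b.2) (P P' : Atom M (d + 1))
    (ω : Sp × (PC n K → Bool × M)) :
    |(1 - EP (rho (SM n K) mm Z n) (SS n K d j) ω
        (H2 (fun d => EP (rho (SM n K) mm Z n) (SM n K d)) γ φ φ' d P P')) -
      (1 - EP (rho (SM n K) mm Z n) (SS n K d j) ω
        (HP (fun d => EP (rho (SM n K) mm Z n) (SM n K d)) γ φ d P)) *
      (1 - EP (rho (SM n K) mm Z n) (SS n K d j) ω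
        (HP (fun d => EP (rho (SM n K) mm Z n) (SM n K d)) γ φ' d P'))| ≤
      16 * |cov (EP (rho (SM n K) mm (fun x => Z x * (pinF φ a d P x * pinF φ' b d P' x)) n)
        (SS n K d j) ω) (bitR b) (bitR a)| := by
  have hd : d < n := hda ▸ a.1.2
  set ρ := rho (SM n K) mm Z n with hρ_def
  have hρ : ∀ x, 0 < ρ x := rho_pos hZ n
  have ha' : ∀ o, Ind (a, o) ρ := fun o => rho_ind (ha o) n
  have hb' : ∀ o, Ind (b, o) ρ := fun o => rho_ind (hb o) n
  set E : ℕ → PO (Sp × (PC n K → Bool × M)) := fun d => EP ρ (SM n K d) with hE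
  set S := SS n K d j with hS
  set B : Sp × (PC n K → Bool × M) → ℝ := fun x => pinF φ a d P x * pinF φ' b d P' x with hB
  have hB0 : ∀ x, 0 < B x := fun x => mul_pos (by linarith [(pinF_mem hφ a d P x).1])
    (by linarith [(pinF_mem hφ' b d P' x).1])
  have hZ' : ∀ x, 0 < Z x * B x := fun x => mul_pos (hZ x) (hB0 x)
  set Nn : Sp × (PC n K → Bool × M) → ℝ := fun x => nm (fun d => ap (E d)) mm B d x ^ mm d
    with hNn
  have hS1 : SM n K d ⊆ S := SM_subset_SS d j
  have hS2 : ∀ d', d = d' + 1 → S ⊆ SM n K d' := fun d' hd' => by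
    subst hd'; exact SS_subset_SM d' j
  have hγ' : ∀ d' < d, 0 < γ d' ∧ γ d' < 1 := fun d' hd' => (hγ d' (by omega)).2
  have hNlv : Lv (SM n K) d Nn := fun d' hd' => by
    subst hd'
    exact (EP_dep hρ _ _).comp (fun t => (t ^ (1 / mm d')) ^ mm (d' + 1))
  have hN : ∀ x, Nn x = 1 - K2 E γ φ φ' d (sw (bit x a) P (mk x a d))
      (sw (bit x b) P' (mk x b d)) x := by
    intro x
    rw [← nm_BB hρ hab ha' hb' hm0 hm hγ hφ hφ' h h' d hd]
    simp only [hNn]
    congr 1
    refine nm_local hρ (S := {mc a d, mc b d, (a, none), (b, none)}) x (fun y hy => ?_) d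
      (fun j hj c hc => ?_) x (fun _ _ => rfl)
    · have h1 : mk y a d = mk x a d := by simp only [mk]; rw [hy _ (by simp)]
      have h2 : mk y b d = mk x b d := by simp only [mk]; rw [hy _ (by simp)]
      have h3 : bit y a = bit x a := by simp only [bit]; rw [hy _ (by simp)]
      have h4 : bit y b = bit x b := by simp only [bit]; rw [hy _ (by simp)]
      simp only [hB, pinF, BB, Atom.eval, h1, h2, h3, h4]
    · simp only [mem_insert, mem_singleton] at hc
      rcases hc with rfl | rfl | rfl | rfl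
      · simp [SM, lev_mc _ hd, hj]
      · simp [SM, lev_mc _ hd, hj]
      · simp [SM, lev, hda, hj]
      · simp [SM, lev, hdb, hj]
  set w : Bool → Bool → ℝ := fun α β => 1 - EP ρ S ω (H2 E γ φ φ' d (sw α P) (sw β P')) with hw
  have hna : ((a, none) : PC n K) ∉ S := by simp [hS, SS, lev, hda, hja]
  have hnb : ((b, none) : PC n K) ∉ S := by simp [hS, SS, lev, hdb, hjb]
  have hmk : ∀ (c e : PA n K) x y, mk (upd x (c, none) y : Sp × (PC n K → Bool × M)) e d
      = mk x e d := by
    intro c e x y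
    simp only [mk, upd]
    rw [Function.update_of_ne]
    simp [mc, hd]
  have base : ∀ g : Bool → Bool → ℝ, EP ρ S ω (fun x => Nn x * g (bit x a) (bit x b)) =
      𝔼 α, 𝔼 β, g α β * w α β := by
    intro g
    simp only [hN]
    rw [EP_avg_bits hρ hab ha' hb' hna hnb (fun α β x => (1 - K2 E γ φ φ' d (sw α P (mk x a d))
      (sw β P' (mk x b d)) x) * g α β)
      (fun α β x y => by
        simp only [hmk]
        rw [K2_ind hρ γ (ha' none) (h _) (h' _) d _ _ x y])
      (fun α β x y => by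
        simp only [hmk]
        rw [K2_ind hρ γ (hb' none) (h _) (h' _) d _ _ x y])]
    simp only [PF.expect]
    refine expect_congr rfl fun α _ => expect_congr rfl fun β _ => ?_
    rw [PF.mul_const, mul_comm]
    congr 1
    rw [EP_avg_marks hρ hab ha' hb' (mc_notMem_SS a hd j) (mc_notMem_SS b hd j)
      (fun y y' x => 1 - K2 E γ φ φ' d (sw α P y) (sw β P' y') x)
      (fun y y' ω z => congrArg (1 - ·)
        (K2_ind hρ γ (c := mc a d) (ha' _) (h _) (h' _) d _ _ ω z))
      (fun y y' ω z => congrArg (1 - ·)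
        (K2_ind hρ γ (c := mc b d) (hb' _) (h _) (h' _) d _ _ ω z))]
    simp only [expect_sub_distrib, Fintype.expect_const, PF.sub, PF.const, hw]
    rfl
  have full : ∀ g : Bool → Bool → ℝ,
      EP (rho (SM n K) mm (fun x => Z x * B x) n) S ω (fun x => g (bit x a) (bit x b)) =
        (𝔼 α, 𝔼 β, g α β * w α β) / 𝔼 α, 𝔼 β, w α β := by
    intro g
    have hg : Lv (SM n K) d (fun x : Sp × (PC n K → Bool × M) => g (bit x a) (bit x b)) := by
      intro d' hd' x y
      have h3 : bit (merge (SM n K d') x y) a = bit x a := by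
        simp [bit, merge, piecewise, SM, lev, hda, hd']
      have h4 : bit (merge (SM n K d') x y) b = bit x b := by
        simp [bit, merge, piecewise, SM, lev, hdb, hd']
      simp only [h3, h4]
    have hT : ∀ x, TT (SM n K) mm (fun x => Z x * B x) d x ^ mm d =
        TT (SM n K) mm Z d x ^ mm d * Nn x := fun x => by
      rw [TT_mul SM_anti hZ hm (fun x => (hB0 x).le) d hd.le, Real.mul_rpow (TT_pos hZ _ _).le
        (nm_nonneg _ _ (fun x => (hB0 x).le) _ _)]
    have b1 := base g
    have b2 := base (fun _ _ => 1)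
    simp only [mul_one, one_mul] at b2
    rw [EP_level SM_anti hZ hm hd hS1 hS2 (hNlv.comp₂ hg (· * ·))] at b1
    rw [EP_level SM_anti hZ hm hd hS1 hS2 hNlv] at b2
    rw [EP_level SM_anti hZ' hm hd hS1 hS2 hg, ← b1, ← b2]
    simp only [hT, mul_assoc]
    have hp := E0_pos S ω fun y => Real.rpow_pos_of_pos
      (TT_pos (Sm := SM n K) (mm := mm) hZ d y) (mm d)
    rw [div_div_div_cancel_right₀ hp.ne']
  have hwm : ∀ α β, 1 / 4 ≤ w α β ∧ w α β ≤ 1 := fun α β => by
    have a1 := (EP ρ S ω).nonneg fun x => (H2_mem E hφ hφ' d hγ' (sw α P) (sw β P') x).1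
    have a2 := (EP ρ S ω).le_of_le fun x => (H2_mem E hφ hφ' d hγ' (sw α P) (sw β P') x).2
    simp only [hw]; constructor <;> linarith
  have w00 : w false false = 1 := by
    simp only [hw, sw, Bool.false_eq_true, if_false]
    rw [PF.congr _ fun x => (H2_off_left E γ φ φ' d _ x).trans (HP_off E γ φ' d x)]; simp
  have w10 : w true false = 1 - EP ρ S ω (HP E γ φ d P) := by
    simp only [hw, sw, Bool.false_eq_true, if_false, if_true]
    rw [PF.congr _ fun x => H2_off_right E γ φ φ' d _ x]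
  have w01 : w false true = 1 - EP ρ S ω (HP E γ φ' d P') := by
    simp only [hw, sw, Bool.false_eq_true, if_false, if_true]
    rw [PF.congr _ fun x => H2_off_left E γ φ φ' d _ x]
  have w11 : w true true = 1 - EP ρ S ω (H2 E γ φ φ' d P P') := rfl
  rw [← w10, ← w01, ← w11]
  have f1 := full (fun α β => (if β then 1 else 0) * (if α then 1 else 0))
  have f2 := full (fun α _ => if α then 1 else 0)
  have f3 := full (fun _ β => if β then 1 else 0)
  simp only [expect_bool, if_true, Bool.false_eq_true, if_false, w00] at f1 f2 f3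
  have hc : cov (EP (rho (SM n K) mm (fun x => Z x * B x) n) S ω) (bitR b) (bitR a) =
      (w true true - w true false * w false true) /
        (w true true + w true false + w false true + 1) ^ 2 := by
    have : 0 < w true true + w true false + w false true + 1 := by
      linarith [(hwm true true).1, (hwm true false).1, (hwm false true).1]
    simp only [cov]
    change _ - EP _ S ω (fun x => if bit x b then 1 else 0) *
      EP _ S ω (fun x => if bit x a then 1 else 0) = _
    simp only [bitR]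
    rw [f1, f2, f3]
    have h2 : w true true + w true false + (w false true + 1) ≠ 0 := by linarith
    field_simp
    ring
  rw [hc, abs_div, abs_sq, ← mul_div_assoc, le_div_iff₀ (by
    have : 0 < w true true + w true false + w false true + 1 := by
      linarith [(hwm true true).1, (hwm true false).1, (hwm false true).1]
    positivity), mul_comm]
  refine mul_le_mul_of_nonneg_right ?_ (abs_nonneg _)
  nlinarith [hwm true true, hwm true false, hwm false true]

/-- The `L²` pinning lemma along the stages of one level. -/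
theorem pin_sum {ρ : Sp × (PC n K → Bool × M) → ℝ} (hρ : ∀ x, 0 < ρ x) (d : Fin n)
    (b : PA n K) {lam : ℝ} (hl : 0 < lam) (ω : Sp × (PC n K → Bool × M)) :
    ∑ k : Fin K, EP ρ ∅ ω (fun x => |cov (EP ρ (SS n K d k) x) (bitR b) (bitR (d, k.castSucc))|)
      ≤ K * lam / 2 + 1 / (2 * lam) := by
  have hb : ∀ (a : PA n K) (x : Sp × (PC n K → Bool × M)), 0 ≤ bitR a x ∧ bitR a x ≤ 1 :=
    fun a x => by simp only [bitR]; split_ifs <;> simp
  set e : ℕ → ℝ := fun j => en (EP ρ ∅ ω) (EP ρ (SS n K d j)) (fun _ : Unit => bitR b) with he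
  have step : ∀ k : Fin K,
      EP ρ ∅ ω (fun x => |cov (EP ρ (SS n K d k) x) (bitR b) (bitR (d, k.castSucc))|) ≤
        lam / 2 + (e (k + 1) - e k) / (2 * lam) := by
    intro k
    have hT : Tow (EP ρ (SS n K d k)) (EP ρ (SS n K d (k + 1))) :=
      EP_tow hρ (SS_mono _ (Nat.le_succ _))
    have hO : TowF (EP ρ ∅ ω) (EP ρ (SS n K d k)) := EP_tow hρ (empty_subset _) ω
    refine le_trans ?_ (inc_le (EP_avg' hρ _) hT hO (fun _ : Unit => bitR b) hl)
    simp only [inc, Fintype.expect_const]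
    rw [← hO (fun x => |EP ρ (SS n K d (k + 1)) x (bitR b) - EP ρ (SS n K d k) x (bitR b)|)]
    refine PF.mono _ fun x => ?_
    have hdep : Dep (SS n K d (k + 1)) (bitR (d, k.castSucc) : Sp × (PC n K → Bool × M) → ℝ) := by
      intro y y'
      simp [bitR, bit, merge, piecewise, SS]
    have e1 : cov (EP ρ (SS n K d k) x) (bitR b) (bitR (d, k.castSucc)) =
        EP ρ (SS n K d k) x (fun y => (EP ρ (SS n K d (k + 1)) y (bitR b) -
          EP ρ (SS n K d k) y (bitR b)) * bitR (d, k.castSucc) y) := by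
      simp only [sub_mul]
      rw [PF.sub, EP_avg' hρ, cov, ← hT x (fun y => bitR b y * bitR (d, k.castSucc) y)]
      congr 1
      refine PF.congr _ fun y => ?_
      simp only [mul_comm (bitR b _)]
      rw [EP_pull hρ hdep, mul_comm]
    rw [e1]
    refine (PF.abs_le _ _).trans (PF.mono _ fun y => ?_)
    rw [abs_mul, abs_of_nonneg (hb _ y).1]
    exact mul_le_of_le_one_right (abs_nonneg _) (hb _ y).2
  refine (sum_le_sum fun k _ => step k).trans ?_
  rw [sum_add_distrib, ← sum_div _ _ (2 * lam), Fin.sum_univ_eq_sum_range (fun k => e (k + 1) - e k),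
    sum_range_sub]
  simp only [sum_const, card_univ, Fintype.card_fin, nsmul_eq_mul]
  have h1 := (en_mem (EP ρ ∅ ω) (EP ρ (SS n K d K)) (V := fun _ : Unit => bitR b)
    (fun _ x => hb b x)).2
  have h2 := (en_mem (EP ρ ∅ ω) (EP ρ (SS n K d 0)) (V := fun _ : Unit => bitR b)
    (fun _ x => hb b x)).1
  rw [mul_div_assoc]
  exact add_le_add le_rfl (div_le_div_of_nonneg_right (by simp only [he]; linarith)
    (by positivity))

end

end Crest.Agent.R141.C
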