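import Crest.Agent.R141.CPin4

/-! The pinned system and the average of its additivity defects. -/

set_option autoImplicit false
set_option maxHeartbeats 400000

namespace Crest.Agent.R141.C

open Finset
open scoped BigOperators

section

variable {n K : ℕ} {Sp M U T : Type}

/-- Indicator of the spin at site `u`. -/
def ind (sp : U → Sp → Bool) {X : Type} (u : U) (s : Bool) (ω : Sp × X) : ℝ :=
  if sp u ω.1 = s then 1 else 0

theorem ind_mem (sp : U → Sp → Bool) {X : Type} (u : U) (s : Bool) (ω : Sp × X) :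
    0 ≤ ind sp u s ω ∧ ind sp u s ω ≤ 1 := by
  simp only [ind]; split_ifs <;> simp

/-- The weight with the active pins. -/
noncomputable def ZA (sp : U → Sp → Bool) (prog : T → (d : ℕ) → Atom M (d + 1)) (Y : Sp → ℝ)
    (act : Finset (PA n K)) (ty : PA n K → U × T) (ω : Sp × (PC n K → Bool × M)) : ℝ :=
  Y ω.1 * ∏ a ∈ act, pinF (ind sp (ty a).1) a a.1 (prog (ty a).2 a.1) ω

theorem ZA_pos (sp : U → Sp → Bool) (prog : T → (d : ℕ) → Atom M (d + 1)) {Y : Sp → ℝ}
    (hY : ∀ σ, 0 < Y σ) (act : Finset (PA n K)) (ty : PA n K → U × T)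
    (ω : Sp × (PC n K → Bool × M)) : 0 < ZA sp prog Y act ty ω :=
  mul_pos (hY _) (prod_pos fun a _ => by
    linarith [(pinF_mem (ind_mem sp (ty a).1) a a.1 (prog (ty a).2 a.1) ω).1])

theorem ZA_ind (sp : U → Sp → Bool) (prog : T → (d : ℕ) → Atom M (d + 1)) (Y : Sp → ℝ)
    {act : Finset (PA n K)} (ty : PA n K → U × T) {a : PA n K} (ha : a ∉ act)
    (o : Option (Fin n)) : Ind (a, o) (ZA sp prog Y act ty) := by
  intro ω y
  simp only [ZA]
  congr 1
  refine prod_congr rfl fun b hb => ?_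
  have hne : b ≠ a := ne_of_mem_of_not_mem hb ha
  have h1 : mk (upd ω (a, o) y) b = mk ω b := by
    funext d
    simp only [mk, upd]
    rw [Function.update_of_ne fun h => hne (congrArg Prod.fst h)]
  have h2 : bit (upd ω (a, o) y) b = bit ω b := by
    simp only [bit, upd]
    rw [Function.update_of_ne fun h => hne (congrArg Prod.fst h)]
  simp only [pinF, h1, h2]
  congr 1
  rcases Atom.eval _ _ _ with _ | s <;> rfl

theorem ZA_update (sp : U → Sp → Bool) (prog : T → (d : ℕ) → Atom M (d + 1)) (Y : Sp → ℝ)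
    {act : Finset (PA n K)} (ty : PA n K → U × T) {a : PA n K} (ha : a ∉ act) (c : U × T) :
    ZA sp prog Y act (Function.update ty a c) = ZA sp prog Y act ty := by
  funext ω
  simp only [ZA]
  congr 1
  refine prod_congr rfl fun b hb => ?_
  rw [Function.update_of_ne (ne_of_mem_of_not_mem hb ha)]

/-- Active pins of the base system. -/
def actB (k : Fin n → Fin K) : Finset (PA n K) :=
  univ.filter fun a => a.2 ≠ (k a.1).castSucc ∧ a.2 ≠ Fin.last K

/-- Active pins when all pins of level `d` are switched on. -/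
def actF (d : Fin n) (k : Fin n → Fin K) : Finset (PA n K) :=
  univ.filter fun a => a.1 = d ∨ (a.2 ≠ (k a.1).castSucc ∧ a.2 ≠ Fin.last K)

theorem actF_update (d : Fin n) (k : Fin n → Fin K) (j : Fin K) :
    actF d (Function.update k d j) = actF d k := by
  ext a
  simp only [actF, mem_filter, mem_univ, true_and]
  by_cases h : a.1 = d
  · simp [h]
  · simp [h]

theorem actF_eq (d : Fin n) (k : Fin n → Fin K) :
    actF d k = insert (d, (k d).castSucc) (insert (d, Fin.last K) (actB k)) := by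
  ext ⟨a1, a2⟩
  simp only [actF, actB, mem_filter, mem_univ, true_and, mem_insert, Prod.mk.injEq]
  by_cases h : a1 = d
  · subst h; simp only [true_or, true_and, true_iff]; tauto
  · simp [h]

/-- The good time inside level `d`. -/
def ST (k : Fin n → Fin K) (d : ℕ) : Finset (PC n K) :=
  SS n K d (if h : d < n then k ⟨d, h⟩ else 0)

variable [Fintype Sp] [Nonempty Sp] [Fintype M] [Nonempty M]

/-- The base system. -/
noncomputable def sysB (mm : ℕ → ℝ) {Z : Sp × (PC n K → Bool × M) → ℝ} (hZ : ∀ x, 0 < Z x)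
    (k : Fin n → Fin K) : Sys (Sp × (PC n K → Bool × M)) :=
  mkSys (rho_pos (Sm := SM n K) (mm := mm) hZ n) (SM n K) (ST k) (fun d => SM_subset_SS d _)
    (fun d => SS_subset_SM d _)

/-- The defect as an explicit function of the weight. -/
noncomputable def Gd (mm γ : ℕ → ℝ) (Z : Sp × (PC n K → Bool × M) → ℝ) (d j : ℕ)
    (φ φ' : Bool → Sp × (PC n K → Bool × M) → ℝ) (P P' : Atom M (d + 1)) : ℝ :=
  EP (rho (SM n K) mm Z n) ∅ (Classical.arbitrary _) (fun ω =>
    |(1 - EP (rho (SM n K) mm Z n) (SS n K d j) ω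
        (H2 (fun d => EP (rho (SM n K) mm Z n) (SM n K d)) γ φ φ' d P P')) -
      (1 - EP (rho (SM n K) mm Z n) (SS n K d j) ω
        (HP (fun d => EP (rho (SM n K) mm Z n) (SM n K d)) γ φ d P)) *
      (1 - EP (rho (SM n K) mm Z n) (SS n K d j) ω
        (HP (fun d => EP (rho (SM n K) mm Z n) (SM n K d)) γ φ' d P'))|)

variable [Fintype U] [Nonempty U] [Fintype T] [Nonempty T]

omit [Nonempty U] [Nonempty T] in
theorem sum_diag_le (F : U × T → U × T → ℝ) (hF : ∀ c c', 0 ≤ F c c') :
    ∑ t, 𝔼 u, 𝔼 u', F (u, t) (u', t) ≤ (Fintype.card T : ℝ) ^ 2 * 𝔼 c, 𝔼 c', F c c' := by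
  have e : 𝔼 c, 𝔼 c', F c c' = 𝔼 t, 𝔼 t', 𝔼 u, 𝔼 u', F (u, t) (u', t') := by
    rw [expect_prod, expect_comm]
    refine expect_congr rfl fun t _ => ?_
    simp only [expect_prod]
    rw [← expect_comm (s := univ) (t := univ) (fun u t' => 𝔼 u', F (u, t) (u', t'))]
    exact expect_congr rfl fun u _ => expect_comm _ _ _
  rw [e, sq, mul_assoc, mul_expect, Fintype.card_mul_expect]
  refine sum_le_sum fun t _ => ?_
  rw [Fintype.card_mul_expect]
  exact single_le_sum (f := fun t' => 𝔼 u, 𝔼 u', F (u, t) (u', t'))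
    (fun t' _ => expect_nonneg fun _ _ => expect_nonneg fun _ _ => hF _ _) (mem_univ t)

theorem avg_addErr (hK : 0 < K) (sp : U → Sp → Bool) (prog : T → (d : ℕ) → Atom M (d + 1))
    {Y : Sp → ℝ} (hY : ∀ σ, 0 < Y σ) {mm γ : ℕ → ℝ} (hm0 : mm 0 = 1)
    (hm : ∀ d < n, 0 < mm d ∧ mm d ≤ 1)
    (hγ : ∀ d, d + 1 < n → γ d = mm (d + 1) / mm d ∧ 0 < γ d ∧ γ d < 1) {lam : ℝ}
    (hl : 0 < lam) :
    𝔼 k : Fin n → Fin K, 𝔼 ty : PA n K → U × T, ∑ d ∈ range n, ∑ t,
      AddErr (sysB mm (ZA_pos sp prog hY (actB k) ty) k) γ (ind sp) d (prog t d) ≤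
      n * ((Fintype.card T : ℝ) ^ 2 * (4 ^ n * (16 * (lam / 2 + 1 / (2 * lam * K))))) := by
  classical
  have : Nonempty (Fin K) := ⟨⟨0, hK⟩⟩
  have hK' : (0 : ℝ) < K := by exact_mod_cast hK
  simp only [expect_sum_comm (t := range n)]
  rw [← Fin.sum_univ_eq_sum_range (fun d => 𝔼 k : Fin n → Fin K, 𝔼 ty : PA n K → U × T, ∑ t,
      AddErr (sysB mm (ZA_pos sp prog hY (actB k) ty) k) γ (ind sp) d (prog t d))]
  refine (sum_le_card_nsmul _ _ ((Fintype.card T : ℝ) ^ 2 *
    (4 ^ n * (16 * (lam / 2 + 1 / (2 * lam * K))))) fun d _ => ?_).trans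
    (by rw [card_univ, Fintype.card_fin, nsmul_eq_mul])
  set H : Finset (PA n K) → (PA n K → U × T) → Fin K → ℝ := fun act ty j =>
    EP (rho (SM n K) mm (ZA sp prog Y act ty) n) ∅ (Classical.arbitrary _) (fun x =>
      |cov (EP (rho (SM n K) mm (ZA sp prog Y act ty) n) (SS n K d j) x)
        (bitR (d, Fin.last K)) (bitR (d, j.castSucc))|) with hH
  have h1 : ∀ k : Fin n → Fin K, 𝔼 ty : PA n K → U × T, ∑ t,
      AddErr (sysB mm (ZA_pos sp prog hY (actB k) ty) k) γ (ind sp) d (prog t d) ≤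
      (Fintype.card T : ℝ) ^ 2 * (4 ^ n * (16 * 𝔼 ty, H (actF d k) ty (k d))) := by
    intro k
    set a : PA n K := (d, (k d).castSucc) with ha
    set b : PA n K := (d, Fin.last K) with hb
    have hab : a ≠ b := fun h => (Fin.castSucc_lt_last (k d)).ne (congrArg Prod.snd h)
    have ha' : a ∉ actB k := by simp [actB, ha]
    have hb' : b ∉ actB k := by simp [actB, hb]
    set G : (PA n K → U × T) → U × T → U × T → ℝ := fun ty c c' =>
      Gd mm γ (ZA sp prog Y (actB k) ty) d (k d) (ind sp c.1) (ind sp c'.1) (prog c.2 d)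
        (prog c'.2 d) with hG
    have e1 : ∀ ty t, AddErr (sysB mm (ZA_pos sp prog hY (actB k) ty) k) γ (ind sp) d
        (prog t d) = 𝔼 u, 𝔼 u', G ty (u, t) (u', t) := by
      intro ty t
      simp only [AddErr, hG, Gd, Del, sysB, mkSys, ST, d.2, dif_pos]
    have e2 : 𝔼 ty, G ty (ty a) (ty b) = 𝔼 ty, 𝔼 c, 𝔼 c', G ty c c' := by
      rw [expect_update a, expect_update b]
      refine expect_congr rfl fun ty _ => ?_
      rw [expect_comm]
      refine expect_congr rfl fun c _ => expect_congr rfl fun c' _ => ?_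
      simp only [hG, ZA_update _ _ _ _ ha', ZA_update _ _ _ _ hb', Function.update_self,
        Function.update_of_ne hab.symm]
    have e3 : ∀ ty, G ty (ty a) (ty b) ≤ 4 ^ n * (16 * H (actF d k) ty (k d)) := by
      intro ty
      have hZ := ZA_pos sp prog hY (actB k) ty
      have eZ : ZA sp prog Y (actF d k) ty = fun x => ZA sp prog Y (actB k) ty x *
          (pinF (ind sp (ty a).1) a d (prog (ty a).2 d) x *
            pinF (ind sp (ty b).1) b d (prog (ty b).2 d) x) := by
        funext x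
        simp only [ZA]
        rw [actF_eq, prod_insert (by simp [hab, ha', ← ha, ← hb]), prod_insert hb']
        ring
      have hZ' := ZA_pos sp prog hY (actF d k) ty
      have hr := rho_le (Sm := SM n K) hZ (Z' := ZA sp prog Y (actF d k) ty) hm
        (fun x => by
          rw [eZ]
          refine mul_le_of_le_one_right (hZ x).le (mul_le_one₀ (pinF_mem (ind_mem _ _) _ _ _ _).2
            (by linarith [(pinF_mem (ind_mem sp (ty b).1) b d (prog (ty b).2 d) x).1])
            (pinF_mem (ind_mem _ _) _ _ _ _).2))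
        (fun x => by
          rw [eZ]
          have p1 := (pinF_mem (ind_mem sp (ty a).1) a d (prog (ty a).2 d) x).1
          have p2 := (pinF_mem (ind_mem sp (ty b).1) b d (prog (ty b).2 d) x).1
          have p3 : (1 : ℝ) / 2 * (1 / 2) ≤ _ := mul_le_mul p1 p2 (by norm_num) (by linarith)
          nlinarith [hZ x])
      simp only [hG, Gd, hH]
      rw [EP_empty_rho SM_anti hZ fun j hj => (hm j hj).1,
        EP_empty_rho SM_anti hZ' fun j hj => (hm j hj).1, ← PF.const_mul, ← PF.const_mul]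
      refine PF.mono _ fun x => ?_
      have := del_le_cov hZ hab (ZA_ind sp prog Y ty ha') (ZA_ind sp prog Y ty hb') hm0
        (fun j hj => (hm j hj).1) hγ (ind_mem sp (ty a).1) (ind_mem sp (ty b).1)
        (fun _ _ _ _ => rfl) (fun _ _ _ _ => rfl) (d := d) rfl rfl (j := k d) le_rfl
        (k d).2.le (prog (ty a).2 d) (prog (ty b).2 d) x
      rw [← eZ] at this
      calc _ ≤ (4 ^ n * rho (SM n K) mm (ZA sp prog Y (actF d k) ty) n x) * _ :=
            mul_le_mul (hr x) this (abs_nonneg _)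
              (mul_pos (by positivity) (rho_pos hZ' n x)).le
        _ = _ := by ring
    simp only [e1]
    refine (expect_le_expect fun ty _ => sum_diag_le (G ty) fun c c' =>
      PF.nonneg _ fun _ => abs_nonneg _).trans ?_
    rw [← mul_expect, ← e2, mul_expect univ _ (16 : ℝ), mul_expect univ _ ((4 : ℝ) ^ n)]
    exact mul_le_mul_of_nonneg_left (expect_le_expect fun ty _ => e3 ty) (by positivity)
  refine (expect_le_expect fun k _ => h1 k).trans ?_
  simp only [← mul_expect]
  gcongr
  rw [expect_update d]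
  simp only [actF_update, Function.update_self]
  refine expect_le univ_nonempty fun k _ => ?_
  rw [expect_comm]
  refine expect_le univ_nonempty fun ty _ => ?_
  rw [Fintype.expect_eq_sum_div_card, Fintype.card_fin, div_le_iff₀ hK']
  refine (pin_sum (rho_pos (ZA_pos sp prog hY (actF d k) ty) n) d _ hl _).trans (le_of_eq ?_)
  field_simp

end

end Crest.Agent.R141.C
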