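import Crest.Agent.R141.CCore4

/-! Programs (marked pins) and their semantics. -/

set_option autoImplicit false
set_option maxHeartbeats 400000

namespace Crest.Agent.R141.C

open Finset
open scoped BigOperators

/-- A program of depth `d`: reads one mark per level and finally outputs `none` or a spin. -/
def Atom (Mk : Type) : ℕ → Type
  | 0 => Option Bool
  | d + 1 => Mk → Atom Mk d

/-- The program that is always off. -/
def Atom.off (Mk : Type) : ∀ d, Atom Mk d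
  | 0 => none
  | d + 1 => fun _ => Atom.off Mk d

/-- Change of mark space. -/
def Atom.comap {Mk Mk' : Type} (π : Mk' → Mk) : ∀ d, Atom Mk d → Atom Mk' d
  | 0, o => o
  | d + 1, P => fun y => Atom.comap π d (P (π y))

/-- Terminal weight of an output. -/
noncomputable def Wt {Ω : Type*} (φ : Bool → Ω → ℝ) : Option Bool → Ω → ℝ
  | none => fun _ => 0
  | some s => fun ω => φ s ω / 2

section

variable {Ω : Type*} {Mk : Type} [Fintype Mk]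

/-- Single-pin semantics. -/
noncomputable def KP (E : ℕ → PO Ω) (γ : ℕ → ℝ) (φ : Bool → Ω → ℝ) :
    ∀ d, Atom Mk d → Ω → ℝ
  | 0, o => Wt φ o
  | d + 1, P => fun ω => psi (γ d) (E d ω (fun x => 𝔼 y, KP E γ φ d (P y) x))

/-- Average over the mark of the current level. -/
noncomputable def HP (E : ℕ → PO Ω) (γ : ℕ → ℝ) (φ : Bool → Ω → ℝ) (d : ℕ)
    (P : Atom Mk (d + 1)) : Ω → ℝ := fun x => 𝔼 y, KP E γ φ d (P y) x

/-- Two-pin semantics. -/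
noncomputable def K2 (E : ℕ → PO Ω) (γ : ℕ → ℝ) (φ φ' : Bool → Ω → ℝ) :
    ∀ d, Atom Mk d → Atom Mk d → Ω → ℝ
  | 0, o, o' => fun ω => 1 - (1 - Wt φ o ω) * (1 - Wt φ' o' ω)
  | d + 1, P, P' => fun ω =>
      psi (γ d) (E d ω (fun x => 𝔼 y, 𝔼 y', K2 E γ φ φ' d (P y) (P' y') x))

noncomputable def H2 (E : ℕ → PO Ω) (γ : ℕ → ℝ) (φ φ' : Bool → Ω → ℝ) (d : ℕ)
    (P P' : Atom Mk (d + 1)) : Ω → ℝ := fun x => 𝔼 y, 𝔼 y', K2 E γ φ φ' d (P y) (P' y') x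

theorem KP_succ (E : ℕ → PO Ω) (γ : ℕ → ℝ) (φ : Bool → Ω → ℝ) (d : ℕ) (P : Atom Mk (d + 1))
    (ω : Ω) : KP E γ φ (d + 1) P ω = psi (γ d) (E d ω (HP E γ φ d P)) := rfl

theorem K2_succ (E : ℕ → PO Ω) (γ : ℕ → ℝ) (φ φ' : Bool → Ω → ℝ) (d : ℕ)
    (P P' : Atom Mk (d + 1)) (ω : Ω) :
    K2 E γ φ φ' (d + 1) P P' ω = psi (γ d) (E d ω (H2 E γ φ φ' d P P')) := rfl

theorem Wt_mem {φ : Bool → Ω → ℝ} (hφ : ∀ s ω, 0 ≤ φ s ω ∧ φ s ω ≤ 1) (o : Option Bool)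
    (ω : Ω) : 0 ≤ Wt φ o ω ∧ Wt φ o ω ≤ 1 / 2 := by
  rcases o with _ | s
  · simp [Wt]
  · simp only [Wt]; constructor <;> linarith [(hφ s ω).1, (hφ s ω).2]

variable [Nonempty Mk]

theorem KP_mem (E : ℕ → PO Ω) {γ : ℕ → ℝ} {φ : Bool → Ω → ℝ}
    (hφ : ∀ s ω, 0 ≤ φ s ω ∧ φ s ω ≤ 1) :
    ∀ d, (∀ d' < d, 0 < γ d' ∧ γ d' < 1) → ∀ (P : Atom Mk d) ω,
      0 ≤ KP E γ φ d P ω ∧ KP E γ φ d P ω ≤ 1 / 2 := by
  intro d
  induction d with
  | zero => intro _ P ω; exact Wt_mem hφ P ω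
  | succ d ih =>
    intro hγ P ω
    have ih' := ih fun d' hd => hγ d' (by omega)
    have h0 : 0 ≤ E d ω (HP E γ φ d P) :=
      PF.nonneg _ fun x => expect_nonneg fun y _ => (ih' _ x).1
    have h1 : E d ω (HP E γ φ d P) ≤ 1 / 2 :=
      PF.le_of_le _ fun x => expect_le univ_nonempty fun y _ => (ih' _ x).2
    rw [KP_succ]
    exact ⟨psi_nonneg (hγ d (by omega)).1 h0 (by linarith),
      (psi_le (hγ d (by omega)).2.le h0 (by linarith)).trans h1⟩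

theorem HP_mem (E : ℕ → PO Ω) {γ : ℕ → ℝ} {φ : Bool → Ω → ℝ}
    (hφ : ∀ s ω, 0 ≤ φ s ω ∧ φ s ω ≤ 1) (d : ℕ) (hγ : ∀ d' < d, 0 < γ d' ∧ γ d' < 1)
    (P : Atom Mk (d + 1)) (ω : Ω) : 0 ≤ HP E γ φ d P ω ∧ HP E γ φ d P ω ≤ 1 / 2 :=
  ⟨expect_nonneg fun _ _ => (KP_mem E hφ d hγ _ ω).1,
    expect_le univ_nonempty fun _ _ => (KP_mem E hφ d hγ _ ω).2⟩

theorem K2_mem (E : ℕ → PO Ω) {γ : ℕ → ℝ} {φ φ' : Bool → Ω → ℝ}
    (hφ : ∀ s ω, 0 ≤ φ s ω ∧ φ s ω ≤ 1) (hφ' : ∀ s ω, 0 ≤ φ' s ω ∧ φ' s ω ≤ 1) :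
    ∀ d, (∀ d' < d, 0 < γ d' ∧ γ d' < 1) → ∀ (P P' : Atom Mk d) ω,
      0 ≤ K2 E γ φ φ' d P P' ω ∧ K2 E γ φ φ' d P P' ω ≤ 3 / 4 := by
  intro d
  induction d with
  | zero =>
    intro _ P P' ω
    have h1 := Wt_mem hφ P ω
    have h2 := Wt_mem hφ' P' ω
    simp only [K2]
    constructor <;> nlinarith [h1.1, h1.2, h2.1, h2.2]
  | succ d ih =>
    intro hγ P P' ω
    have ih' := ih fun d' hd => hγ d' (by omega)
    have h0 : 0 ≤ E d ω (H2 E γ φ φ' d P P') :=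
      PF.nonneg _ fun x => expect_nonneg fun y _ => expect_nonneg fun y' _ => (ih' _ _ x).1
    have h1 : E d ω (H2 E γ φ φ' d P P') ≤ 3 / 4 :=
      PF.le_of_le _ fun x => expect_le univ_nonempty fun y _ =>
        expect_le univ_nonempty fun y' _ => (ih' _ _ x).2
    rw [K2_succ]
    exact ⟨psi_nonneg (hγ d (by omega)).1 h0 (by linarith),
      (psi_le (hγ d (by omega)).2.le h0 (by linarith)).trans h1⟩

theorem H2_mem (E : ℕ → PO Ω) {γ : ℕ → ℝ} {φ φ' : Bool → Ω → ℝ}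
    (hφ : ∀ s ω, 0 ≤ φ s ω ∧ φ s ω ≤ 1) (hφ' : ∀ s ω, 0 ≤ φ' s ω ∧ φ' s ω ≤ 1) (d : ℕ)
    (hγ : ∀ d' < d, 0 < γ d' ∧ γ d' < 1) (P P' : Atom Mk (d + 1)) (ω : Ω) :
    0 ≤ H2 E γ φ φ' d P P' ω ∧ H2 E γ φ φ' d P P' ω ≤ 3 / 4 :=
  ⟨expect_nonneg fun _ _ => expect_nonneg fun _ _ => (K2_mem E hφ hφ' d hγ _ _ ω).1,
    expect_le univ_nonempty fun _ _ => expect_le univ_nonempty fun _ _ =>
      (K2_mem E hφ hφ' d hγ _ _ ω).2⟩

omit [Nonempty Mk] in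
theorem KP_off (E : ℕ → PO Ω) (γ : ℕ → ℝ) (φ : Bool → Ω → ℝ) :
    ∀ d ω, KP E γ φ d (Atom.off Mk d) ω = 0 := by
  intro d
  induction d with
  | zero => intro ω; rfl
  | succ d ih => intro ω; simp [KP, Atom.off, ih, psi]

omit [Nonempty Mk] in
theorem HP_off (E : ℕ → PO Ω) (γ : ℕ → ℝ) (φ : Bool → Ω → ℝ) (d : ℕ) (ω : Ω) :
    HP E γ φ d (Atom.off Mk (d + 1)) ω = 0 := by
  simp [HP, Atom.off, KP_off]

theorem K2_off_right (E : ℕ → PO Ω) (γ : ℕ → ℝ) (φ φ' : Bool → Ω → ℝ) :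
    ∀ d (P : Atom Mk d) ω, K2 E γ φ φ' d P (Atom.off Mk d) ω = KP E γ φ d P ω := by
  intro d
  induction d with
  | zero => intro P ω; simp [K2, KP, Atom.off, Wt]
  | succ d ih => intro P ω; simp [K2, KP, Atom.off, ih]

theorem K2_off_left (E : ℕ → PO Ω) (γ : ℕ → ℝ) (φ φ' : Bool → Ω → ℝ) :
    ∀ d (P : Atom Mk d) ω, K2 E γ φ φ' d (Atom.off Mk d) P ω = KP E γ φ' d P ω := by
  intro d
  induction d with
  | zero => intro P ω; simp [K2, KP, Atom.off, Wt]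
  | succ d ih => intro P ω; simp [K2, KP, Atom.off, ih]

theorem H2_off_right (E : ℕ → PO Ω) (γ : ℕ → ℝ) (φ φ' : Bool → Ω → ℝ) (d : ℕ)
    (P : Atom Mk (d + 1)) (ω : Ω) :
    H2 E γ φ φ' d P (Atom.off Mk (d + 1)) ω = HP E γ φ d P ω := by
  simp [H2, HP, Atom.off, K2_off_right]

theorem H2_off_left (E : ℕ → PO Ω) (γ : ℕ → ℝ) (φ φ' : Bool → Ω → ℝ) (d : ℕ)
    (P : Atom Mk (d + 1)) (ω : Ω) :
    H2 E γ φ φ' d (Atom.off Mk (d + 1)) P ω = HP E γ φ' d P ω := by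
  simp [H2, HP, Atom.off, K2_off_left]

end

/-- A map of finite sets preserving uniform averages. -/
def MP {A B : Type*} [Fintype A] [Fintype B] (π : A → B) : Prop :=
  ∀ f : B → ℝ, 𝔼 a, f (π a) = 𝔼 b, f b

theorem MP.comp {A B C : Type*} [Fintype A] [Fintype B] [Fintype C] {π : A → B} {π' : B → C}
    (h : MP π) (h' : MP π') : MP (fun a => π' (π a)) := fun f => by
  rw [h (fun b => f (π' b)), h' f]

theorem expect_prod {A B : Type*} [Fintype A] [Fintype B] (f : A × B → ℝ) :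
    𝔼 x, f x = 𝔼 a, 𝔼 b, f (a, b) := by
  rw [← univ_product_univ, expect_product]

theorem MP.fst {A B : Type*} [Fintype A] [Fintype B] [Nonempty B] :
    MP (Prod.fst : A × B → A) := fun f => by
  rw [expect_prod]; simp

theorem MP.snd {A B : Type*} [Fintype A] [Fintype B] [Nonempty A] :
    MP (Prod.snd : A × B → B) := fun f => by
  rw [expect_prod]; simp

theorem MP.eval {J : Type*} [Fintype J] [DecidableEq J] {A : J → Type*} [∀ j, Fintype (A j)]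
    [∀ j, Nonempty (A j)] (j : J) : MP (fun y : (∀ j, A j) => y j) := fun f => by
  exact (Fintype.expect_equiv (Equiv.piSplitAt j A) (fun y => f (y j)) (fun x => f x.1)
    (fun y => rfl)).trans (MP.fst f)

theorem KP_comap {Ω : Type*} {Mk Mk' : Type} [Fintype Mk] [Fintype Mk'] {π : Mk' → Mk}
    (hπ : MP π) (E : ℕ → PO Ω) (γ : ℕ → ℝ) (φ : Bool → Ω → ℝ) :
    ∀ d (P : Atom Mk d) ω, KP E γ φ d (Atom.comap π d P) ω = KP E γ φ d P ω := by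
  intro d
  induction d with
  | zero => intro P ω; rfl
  | succ d ih =>
    intro P ω
    simp only [KP, Atom.comap, ih]
    congr 1
    exact PF.congr _ fun x => hπ (fun y => KP E γ φ d (P y) x)

theorem HP_comap {Ω : Type*} {Mk Mk' : Type} [Fintype Mk] [Fintype Mk'] {π : Mk' → Mk}
    (hπ : MP π) (E : ℕ → PO Ω) (γ : ℕ → ℝ) (φ : Bool → Ω → ℝ) (d : ℕ) (P : Atom Mk (d + 1))
    (ω : Ω) : HP E γ φ d (Atom.comap π (d + 1) P) ω = HP E γ φ d P ω := by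
  simp only [HP, Atom.comap, KP_comap hπ]
  exact hπ (fun y => KP E γ φ d (P y) ω)

end Crest.Agent.R141.C
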