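import Crest.Agent.R141.COp

/-! The function `1 - (1 - x) ^ γ` and its power series with positive coefficients. -/

set_option autoImplicit false

namespace Crest.Agent.R141.C

open Finset
open scoped BigOperators

/-- `ψ γ x = 1 - (1 - x) ^ γ`. -/
noncomputable def psi (γ x : ℝ) : ℝ := 1 - (1 - x) ^ γ

/-- Coefficient of `x ^ (k + 1)` in `psi γ`. -/
noncomputable def cc (γ : ℝ) : ℕ → ℝ
  | 0 => γ
  | k + 1 => cc γ k * (((k : ℝ) + 1 - γ) / ((k : ℝ) + 2))

theorem choose_succ_eq (γ : ℝ) (k : ℕ) :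
    Ring.choose γ (k + 1) = Ring.choose γ k * ((γ - k) / ((k : ℝ) + 1)) := by
  rw [Ring.choose_eq_smul, Ring.choose_eq_smul, descPochhammer_succ_right, Polynomial.smeval_mul]
  simp only [Polynomial.smeval_sub, Polynomial.smeval_X, Polynomial.smeval_natCast, smul_eq_mul,
    Nat.factorial_succ, pow_one, pow_zero, nsmul_eq_mul, mul_one]
  push_cast
  have : ((k.factorial : ℕ) : ℝ) ≠ 0 := by positivity
  field_simp

theorem cc_eq (γ : ℝ) (k : ℕ) : cc γ k = (-1) ^ k * Ring.choose γ (k + 1) := by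
  induction k with
  | zero => simp [cc]
  | succ k ih =>
    rw [cc, ih, choose_succ_eq γ (k + 1)]
    push_cast
    have : ((k : ℝ) + 2) ≠ 0 := by positivity
    have h2 : ((k : ℝ) + 1 + 1) = k + 2 := by ring
    rw [h2]; field_simp; ring

theorem cc_pos {γ : ℝ} (h0 : 0 < γ) (h1 : γ < 1) (k : ℕ) : 0 < cc γ k := by
  induction k with
  | zero => exact h0
  | succ k ih =>
    rw [cc]
    have : (0 : ℝ) ≤ k := Nat.cast_nonneg k
    exact mul_pos ih (div_pos (by linarith) (by linarith))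

theorem cc_succ_le {γ : ℝ} (h0 : 0 < γ) (h1 : γ < 1) (k : ℕ) : cc γ (k + 1) ≤ cc γ k := by
  rw [cc]
  have : (0 : ℝ) ≤ k := Nat.cast_nonneg k
  refine mul_le_of_le_one_right (cc_pos h0 h1 k).le ?_
  rw [div_le_one (by linarith)]; linarith

theorem cc_le_one {γ : ℝ} (h0 : 0 < γ) (h1 : γ < 1) (k : ℕ) : cc γ k ≤ 1 := by
  induction k with
  | zero => exact h1.le
  | succ k ih => exact (cc_succ_le h0 h1 k).trans ih

theorem cc_succ_le' {γ : ℝ} (h0 : 0 < γ) (h1 : γ < 1) (k : ℕ) :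
    cc γ (k + 1) ≤ γ * (1 - γ) := by
  induction k with
  | zero =>
    simp only [cc, Nat.cast_zero, zero_add]
    have : 0 < 1 - γ := by linarith
    nlinarith [mul_pos h0 this]
  | succ k ih => exact (cc_succ_le h0 h1 _).trans ih

theorem hasSum_psi (γ : ℝ) {x : ℝ} (hx : |x| < 1) :
    HasSum (fun k => cc γ k * x ^ (k + 1)) (psi γ x) := by
  have h := (Real.one_add_rpow_hasFPowerSeriesOnBall_zero (a := γ)).hasSum (y := -x)
    (by simpa [Metric.mem_eball, edist_dist, ← ENNReal.ofReal_one, enorm_eq_nnnorm] using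
      (by exact_mod_cast hx : ((‖x‖₊ : NNReal) : ENNReal) < 1))
  simp only [binomialSeries_apply, List.ofFn_const, List.prod_replicate, smul_eq_mul,
    zero_add] at h
  have h2 := (hasSum_nat_add_iff' 1).2 h
  simp only [range_one, sum_singleton, Ring.choose_zero_right, pow_zero, mul_one] at h2
  have h3 := h2.neg
  have e1 : (fun k => cc γ k * x ^ (k + 1)) =
      fun b => -(Ring.choose γ (b + 1) * (-x) ^ (b + 1)) := by
    funext k
    rw [cc_eq, neg_pow x, pow_succ (-1 : ℝ) k]; ring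
  have e2 : psi γ x = -((1 + -x) ^ γ - 1) := by
    simp only [psi, sub_eq_add_neg]; ring
  rw [e1, e2]; exact h3

theorem psi_nonneg {γ x : ℝ} (h0 : 0 < γ) (hx0 : 0 ≤ x) (hx1 : x ≤ 1) : 0 ≤ psi γ x := by
  have := Real.rpow_le_one (x := 1 - x) (z := γ) (by linarith) (by linarith) h0.le
  simp only [psi]; linarith

theorem psi_le {γ x : ℝ} (h1 : γ ≤ 1) (hx0 : 0 ≤ x) (hx1 : x < 1) : psi γ x ≤ x := by
  have := Real.rpow_le_rpow_of_exponent_ge (x := 1 - x) (y := 1) (z := γ) (by linarith)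
    (by linarith) h1
  rw [Real.rpow_one] at this
  simp only [psi]; linarith

theorem psi_mono {γ x y : ℝ} (h0 : 0 < γ) (hxy : x ≤ y) (hy : y ≤ 1) : psi γ x ≤ psi γ y := by
  have := Real.rpow_le_rpow (x := 1 - y) (y := 1 - x) (by linarith) (by linarith) h0.le
  simp only [psi]; linarith

theorem psi_sub_le {γ x y s : ℝ} (h0 : 0 < γ) (h1 : γ ≤ 1) (hy : 0 ≤ y) (hxy : y ≤ x)
    (hx : x ≤ s) (hs : s < 1) : psi γ x - psi γ y ≤ (x - y) / (1 - s) := by
  have hx1 : 0 < 1 - x := by linarith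
  set t := (x - y) / (1 - x) with ht
  have ht0 : 0 ≤ t := div_nonneg (by linarith) hx1.le
  have e1 : 1 - y = (1 - x) * (1 + t) := by rw [ht]; field_simp; ring
  have h2 : (1 + t) ^ γ ≤ 1 + t := by
    have := Real.rpow_le_rpow_of_exponent_le (x := 1 + t) (by linarith) h1
    rwa [Real.rpow_one] at this
  have h3 : (1 - x) ^ γ ≤ 1 := Real.rpow_le_one hx1.le (by linarith) h0.le
  have h4 : 0 ≤ (1 - x) ^ γ := Real.rpow_nonneg hx1.le _
  have h5 : t ≤ (x - y) / (1 - s) :=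
    div_le_div_of_nonneg_left (by linarith) (by linarith) (by linarith)
  simp only [psi]
  rw [e1, Real.mul_rpow hx1.le (by linarith)]
  nlinarith [mul_le_mul_of_nonneg_left h2 h4, mul_le_mul_of_nonneg_right h3 ht0]

/-- Truncated series. -/
noncomputable def psiT (γ : ℝ) (j : ℕ) (x : ℝ) : ℝ := ∑ k ∈ range j, cc γ k * x ^ (k + 1)

theorem psi_tail {γ x : ℝ} (h0 : 0 < γ) (h1 : γ < 1) (hx0 : 0 ≤ x) (hx1 : x < 1) (j : ℕ) :
    0 ≤ psi γ x - psiT γ j x ∧ psi γ x - psiT γ j x ≤ x ^ (j + 1) / (1 - x) := by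
  have h := hasSum_psi γ (x := x) (by rwa [abs_of_nonneg hx0])
  have h2 := (hasSum_nat_add_iff' j).2 h
  have hg : HasSum (fun k => x ^ (j + 1) * x ^ k) (x ^ (j + 1) * (1 - x)⁻¹) :=
    (hasSum_geometric_of_lt_one hx0 hx1).mul_left _
  constructor
  · exact h2.nonneg fun k => mul_nonneg (cc_pos h0 h1 _).le (pow_nonneg hx0 _)
  · rw [div_eq_mul_inv]
    refine hasSum_le (fun k => ?_) h2 hg
    rw [← pow_add, show j + 1 + k = k + j + 1 by ring]
    exact mul_le_of_le_one_left (pow_nonneg hx0 _) (cc_le_one h0 h1 _)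

theorem psiT_nonneg {γ x : ℝ} (h0 : 0 < γ) (h1 : γ < 1) (hx0 : 0 ≤ x) (j : ℕ) :
    0 ≤ psiT γ j x :=
  sum_nonneg fun k _ => mul_nonneg (cc_pos h0 h1 _).le (pow_nonneg hx0 _)

/-- `1 - (1 - s) ^ m ≤ m * (- log (1 - s))`. -/
theorem psi_le_log {m s : ℝ} (hs : s < 1) : psi m s ≤ m * (- Real.log (1 - s)) := by
  simp only [psi]
  rw [Real.rpow_def_of_pos (by linarith)]
  have := Real.add_one_le_exp (Real.log (1 - s) * m)
  linarith

end Crest.Agent.R141.C
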