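import Crest.Agent.R141.CPsi

/-! Labelled trees indexing the expansion of truncated nested power means. -/

set_option autoImplicit false

namespace Crest.Agent.R141.C

open Finset
open scoped BigOperators

/-- Trees of depth `≤ d` with leaves labelled by `Λ` and at most `k0 + 1` children per node. -/
def Idx (k0 : ℕ) (Λ : Type) : ℕ → Type
  | 0 => Λ
  | d + 1 => Idx k0 Λ d ⊕ (Σ k : Fin k0, Fin (k + 2) → Idx k0 Λ d)

noncomputable instance Idx.fintype (k0 : ℕ) (Λ : Type) [Fintype Λ] :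
    ∀ d, Fintype (Idx k0 Λ d)
  | 0 => inferInstanceAs (Fintype Λ)
  | d + 1 =>
    letI := Idx.fintype k0 Λ d
    inferInstanceAs (Fintype (Idx k0 Λ d ⊕ (Σ k : Fin k0, Fin (k + 2) → Idx k0 Λ d)))

theorem Idx.sum_succ {k0 : ℕ} {Λ : Type} [Fintype Λ] (d : ℕ) (F : Idx k0 Λ (d + 1) → ℝ) :
    ∑ i, F i = ∑ i : Idx k0 Λ d, F (Sum.inl i) +
      ∑ k : Fin k0, ∑ f : Fin (k + 2) → Idx k0 Λ d, F (Sum.inr ⟨k, f⟩) := by
  have h := Fintype.sum_sum_type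
    (α₁ := Idx k0 Λ d) (α₂ := Σ k : Fin k0, Fin (k + 2) → Idx k0 Λ d) F
  rw [Fintype.sum_sigma] at h
  exact h

theorem Idx.sum_zero {k0 : ℕ} {Λ : Type} [Fintype Λ] (F : Idx k0 Λ 0 → ℝ) :
    ∑ i, F i = ∑ s : Λ, F s := rfl

/-- Relabel the leaves. -/
def Idx.map {k0 : ℕ} {Λ Λ' : Type} (π : Λ → Λ') : ∀ d, Idx k0 Λ d → Idx k0 Λ' d
  | 0, s => π s
  | d + 1, Sum.inl i => Sum.inl (Idx.map π d i)
  | d + 1, Sum.inr ⟨k, f⟩ => Sum.inr ⟨k, fun j => Idx.map π d (f j)⟩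

/-- Number of leaves. -/
def Idx.size {k0 : ℕ} {Λ : Type} : ∀ d, Idx k0 Λ d → ℕ
  | 0, _ => 1
  | d + 1, Sum.inl i => Idx.size d i
  | d + 1, Sum.inr ⟨_, f⟩ => ∑ j, Idx.size d (f j)

/-- Weight of a tree. -/
noncomputable def wt {k0 : ℕ} {Λ : Type} (e : ℕ → ℕ → ℝ) (lw : Λ → ℝ) : ∀ d, Idx k0 Λ d → ℝ
  | 0, s => lw s
  | d + 1, Sum.inl i => wt e lw d i
  | d + 1, Sum.inr ⟨k, f⟩ => e d k * ∏ j, wt e lw d (f j)

/-- The value of a tree at the end of level `d`. -/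
noncomputable def ZZ {k0 : ℕ} {Λ : Type} {Ω : Type*} (E : ℕ → PO Ω) (φ : Λ → Ω → ℝ) :
    ∀ d, Idx k0 Λ d → Ω → ℝ
  | 0, s => φ s
  | d + 1, Sum.inl i => fun ω => E d ω (ZZ E φ d i)
  | d + 1, Sum.inr ⟨_, f⟩ => fun ω => ∏ j, E d ω (ZZ E φ d (f j))

/-- The value of a tree at its root branching time. -/
noncomputable def zeta {k0 : ℕ} {Λ : Type} {Ω : Type*} (E : ℕ → PO Ω) (φ : Λ → Ω → ℝ) :
    ∀ d, Idx k0 Λ d → Ω → ℝ
  | 0, s => φ s
  | d + 1, Sum.inl i => zeta E φ d i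
  | d + 1, Sum.inr ⟨_, f⟩ => fun ω => ∏ j, E d ω (zeta E φ d (f j))

/-- The truncated normalized recursion. -/
noncomputable def KT (k0 : ℕ) {Ω : Type*} (e : ℕ → ℕ → ℝ) (E : ℕ → PO Ω) (W : Ω → ℝ) :
    ℕ → Ω → ℝ
  | 0 => W
  | d + 1 => fun ω => E d ω (KT k0 e E W d) +
      ∑ k : Fin k0, e d k * (E d ω (KT k0 e E W d)) ^ ((k : ℕ) + 2)

section

variable {k0 : ℕ} {Λ : Type} {Ω : Type*}

theorem KT_expand [Fintype Λ] (e : ℕ → ℕ → ℝ) (E : ℕ → PO Ω) (φ : Λ → Ω → ℝ) (lw : Λ → ℝ) :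
    ∀ d ω, KT k0 e E (fun ω => ∑ s, lw s * φ s ω) d ω =
      ∑ i : Idx k0 Λ d, wt e lw d i * ZZ E φ d i ω := by
  intro d
  induction d with
  | zero => intro ω; rfl
  | succ d ih =>
    intro ω
    have h : E d ω (KT k0 e E (fun ω => ∑ s, lw s * φ s ω) d) =
        ∑ i : Idx k0 Λ d, wt e lw d i * E d ω (ZZ E φ d i) := by
      rw [show KT k0 e E (fun ω => ∑ s, lw s * φ s ω) d =
        fun ω => ∑ i : Idx k0 Λ d, wt e lw d i * ZZ E φ d i ω from funext ih, PF.sum]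
      exact sum_congr rfl fun i _ => PF.const_mul _ _ _
    rw [Idx.sum_succ]
    simp only [KT, h, wt, ZZ]
    congr 1
    refine sum_congr rfl fun k _ => ?_
    rw [Fintype.sum_pow, mul_sum]
    refine sum_congr rfl fun f _ => ?_
    rw [prod_mul_distrib]; ring

theorem wt_nonneg {e : ℕ → ℕ → ℝ} (he : ∀ d k, 0 ≤ e d k) {lw : Λ → ℝ} (hl : ∀ s, 0 ≤ lw s) :
    ∀ d (i : Idx k0 Λ d), 0 ≤ wt e lw d i
  | 0, s => hl s
  | d + 1, Sum.inl i => wt_nonneg he hl d i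
  | d + 1, Sum.inr ⟨k, f⟩ => mul_nonneg (he d k) (prod_nonneg fun j _ => wt_nonneg he hl d (f j))

theorem wt_mono {e : ℕ → ℕ → ℝ} (he : ∀ d k, 0 ≤ e d k) {lw lw' : Λ → ℝ} (hl : ∀ s, 0 ≤ lw s)
    (h : ∀ s, lw s ≤ lw' s) : ∀ d (i : Idx k0 Λ d), wt e lw d i ≤ wt e lw' d i
  | 0, s => h s
  | d + 1, Sum.inl i => wt_mono he hl h d i
  | d + 1, Sum.inr ⟨k, f⟩ => mul_le_mul_of_nonneg_left
      (prod_le_prod (fun j _ => wt_nonneg he hl d (f j)) fun j _ => wt_mono he hl h d (f j))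
      (he d k)

theorem wt_smul (e : ℕ → ℕ → ℝ) (c : ℝ) (lw : Λ → ℝ) :
    ∀ d (i : Idx k0 Λ d), wt e (fun s => c * lw s) d i = c ^ Idx.size d i * wt e lw d i
  | 0, s => by simp [wt, Idx.size]
  | d + 1, Sum.inl i => wt_smul e c lw d i
  | d + 1, Sum.inr ⟨k, f⟩ => by
    simp only [wt, Idx.size]
    rw [prod_congr rfl fun j _ => wt_smul e c lw d (f j), prod_mul_distrib, prod_pow_eq_pow_sum]
    ring

theorem ZZ_mem (E : ℕ → PO Ω) {φ : Λ → Ω → ℝ} (hφ : ∀ s ω, 0 ≤ φ s ω ∧ φ s ω ≤ 1) :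
    ∀ d (i : Idx k0 Λ d) ω, 0 ≤ ZZ E φ d i ω ∧ ZZ E φ d i ω ≤ 1
  | 0, s, ω => hφ s ω
  | d + 1, Sum.inl i, ω => ⟨(E d ω).nonneg fun x => (ZZ_mem E hφ d i x).1,
      (E d ω).le_of_le fun x => (ZZ_mem E hφ d i x).2⟩
  | d + 1, Sum.inr ⟨_, f⟩, ω =>
    ⟨prod_nonneg fun j _ => (E d ω).nonneg fun x => (ZZ_mem E hφ d (f j) x).1,
      prod_le_one (fun j _ => (E d ω).nonneg fun x => (ZZ_mem E hφ d (f j) x).1)
        fun j _ => (E d ω).le_of_le fun x => (ZZ_mem E hφ d (f j) x).2⟩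

theorem zeta_mem (E : ℕ → PO Ω) {φ : Λ → Ω → ℝ} (hφ : ∀ s ω, 0 ≤ φ s ω ∧ φ s ω ≤ 1) :
    ∀ d (i : Idx k0 Λ d) ω, 0 ≤ zeta E φ d i ω ∧ zeta E φ d i ω ≤ 1
  | 0, s, ω => hφ s ω
  | d + 1, Sum.inl i, ω => zeta_mem E hφ d i ω
  | d + 1, Sum.inr ⟨_, f⟩, ω =>
    ⟨prod_nonneg fun j _ => (E d ω).nonneg fun x => (zeta_mem E hφ d (f j) x).1,
      prod_le_one (fun j _ => (E d ω).nonneg fun x => (zeta_mem E hφ d (f j) x).1)
        fun j _ => (E d ω).le_of_le fun x => (zeta_mem E hφ d (f j) x).2⟩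

/-- Under the tower property `ZZ` and `zeta` have the same conditional expectations. -/
theorem ZZ_eq_zeta (E : ℕ → PO Ω) (φ : Λ → Ω → ℝ) (hT : ∀ d, Tow (E (d + 1)) (E d)) :
    ∀ d (i : Idx k0 Λ d) (L : PF Ω), (∀ d', d = d' + 1 → TowF L (E d')) →
      L (ZZ E φ d i) = L (zeta E φ d i) := by
  intro d
  induction d with
  | zero => intro i L _; rfl
  | succ d ih =>
    intro i L hL
    have hE : ∀ (i : Idx k0 Λ d) ω, E d ω (ZZ E φ d i) = E d ω (zeta E φ d i) := by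
      intro i ω
      refine ih i _ fun d' hd => ?_
      subst hd; exact hT d' ω
    rcases i with i | ⟨k, f⟩
    · simp only [ZZ, zeta, hE]
      exact hL d rfl _
    · simp only [ZZ, zeta, hE]

/-- In a product system the value of a tree factorizes over the labels. -/
theorem ZZ_prod {L : Type} [Fintype L] {S : Type*} (E : ℕ → PO S) (EP : ℕ → PO (L → S))
    (hP : ∀ d (s : L → S) (g : L → S → ℝ),
      EP d s (fun s' => ∏ l, g l (s' l)) = ∏ l, E d (s l) (g l))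
    (φ : Λ → S → ℝ) :
    ∀ d (i : Idx k0 (L → Λ) d) (s : L → S),
      ZZ EP (fun σ s' => ∏ l, φ (σ l) (s' l)) d i s =
        ∏ l, ZZ E φ d (Idx.map (fun σ => σ l) d i) (s l) := by
  intro d
  induction d with
  | zero => intro i s; rfl
  | succ d ih =>
    intro i s
    have hE : ∀ (i : Idx k0 (L → Λ) d),
        EP d s (ZZ EP (fun σ s' => ∏ l, φ (σ l) (s' l)) d i) =
          ∏ l, E d (s l) (ZZ E φ d (Idx.map (fun σ => σ l) d i)) := by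
      intro i
      rw [← hP]
      exact PF.congr _ (ih i)
    rcases i with i | ⟨k, f⟩
    · simp only [ZZ, Idx.map, hE]
    · simp only [ZZ, Idx.map, hE]
      exact prod_comm

end

end Crest.Agent.R141.C
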