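import Crest.Agent.R141.CPin5

/-! Linearization of the nested power mean at the root; kernels and product operators. -/

set_option autoImplicit false
set_option maxHeartbeats 400000

namespace Crest.Agent.R141.C

open Finset
open scoped BigOperators

/-- Equally spaced exponents, read from the inside out. -/
noncomputable def mmE (n d : ℕ) : ℝ := ((n : ℝ) - d) / n

noncomputable def gaE (n d : ℕ) : ℝ := mmE n (d + 1) / mmE n d

noncomputable def eE (n d k : ℕ) : ℝ :=
  if d + 1 < n then cc (gaE n d) (k + 1) * mmE n d ^ (k + 2) / mmE n (d + 1) else 0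

theorem mmE_mem {n d : ℕ} (h : d < n) : 0 < mmE n d ∧ mmE n d ≤ 1 := by
  have h1 : (d : ℝ) < n := by exact_mod_cast h
  have h2 : (0 : ℝ) ≤ d := Nat.cast_nonneg d
  have h3 : (0 : ℝ) < n := by linarith
  exact ⟨div_pos (by linarith) h3, (div_le_one h3).2 (by linarith)⟩

theorem mmE_zero {n : ℕ} (h : 0 < n) : mmE n 0 = 1 := by
  have : (n : ℝ) ≠ 0 := by positivity
  simp [mmE, this]

theorem gaE_mem {n d : ℕ} (h : d + 1 < n) : 1 / 2 ≤ gaE n d ∧ gaE n d < 1 := by
  have h1 : (d : ℝ) + 2 ≤ n := by exact_mod_cast h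
  have h2 : (0 : ℝ) ≤ d := Nat.cast_nonneg d
  have h3 : (0 : ℝ) < n := by linarith
  have e : gaE n d = ((n : ℝ) - d - 1) / (n - d) := by
    simp only [gaE, mmE]; push_cast
    rw [div_div_div_cancel_right₀ h3.ne']; ring_nf
  rw [e]
  exact ⟨by rw [le_div_iff₀ (by linarith)]; linarith, by rw [div_lt_one (by linarith)]; linarith⟩

theorem gaE_pos {n d : ℕ} (h : d + 1 < n) : 0 < gaE n d := by linarith [(gaE_mem h).1]

theorem eE_nonneg (n d k : ℕ) : 0 ≤ eE n d k := by
  simp only [eE]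
  split_ifs with h
  · exact div_nonneg (mul_nonneg (cc_pos (gaE_pos h) (gaE_mem h).2 _).le
      (pow_nonneg (mmE_mem (by omega)).1.le _)) (mmE_mem h).1.le
  · rfl

theorem eE_le (n d k : ℕ) : eE n d k ≤ 1 / n := by
  simp only [eE]
  split_ifs with h
  · have h0 := mmE_mem (show d < n by omega)
    have h1 := mmE_mem h
    have h2 := cc_succ_le' (gaE_pos h) (gaE_mem h).2 k
    have h3 : mmE n d ^ (k + 2) ≤ mmE n d ^ 2 := pow_le_pow_of_le_one h0.1.le h0.2 (by omega)
    have e : gaE n d * (1 - gaE n d) * mmE n d ^ 2 / mmE n (d + 1) = 1 / n := by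
      have : mmE n d - mmE n (d + 1) = 1 / n := by simp only [mmE]; push_cast; ring
      rw [← this, gaE]; field_simp [h0.1.ne', h1.1.ne']
    rw [← e]
    refine div_le_div_of_nonneg_right (mul_le_mul h2 h3 (pow_nonneg h0.1.le _) ?_) h1.1.le
    exact mul_nonneg (gaE_pos h).le (by linarith [(gaE_mem h).2])
  · positivity

/-- The exact recursion. -/
noncomputable def KK {Ω : Type*} (E : ℕ → PO Ω) (γ : ℕ → ℝ) (W : Ω → ℝ) : ℕ → Ω → ℝ
  | 0 => W
  | d + 1 => fun ω => psi (γ d) (E d ω (KK E γ W d))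

/-- Truncation error. -/
noncomputable def trE (s : ℝ) (k0 : ℕ) : ℕ → ℝ
  | 0 => 0
  | d + 1 => trE s k0 d / (1 - s) + s ^ (k0 + 2) / (1 - s)

theorem trE_tendsto {s : ℝ} (h0 : 0 ≤ s) (h1 : s < 1) (d : ℕ) :
    Filter.Tendsto (fun k0 => trE s k0 d) Filter.atTop (nhds 0) := by
  induction d with
  | zero => exact tendsto_const_nhds
  | succ d ih =>
    have h := ((tendsto_pow_atTop_nhds_zero_of_lt_one h0 h1).comp
      (Filter.tendsto_add_atTop_nat 2)).div_const (1 - s)
    simpa [trE] using (ih.div_const (1 - s)).add h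

section

variable {Ω : Type*} (E : ℕ → PO Ω) {n : ℕ} {W : Ω → ℝ} {s : ℝ}

theorem KK_facts (k0 : ℕ) (hs : s < 1) (hW : ∀ x, 0 ≤ W x ∧ W x ≤ s) :
    ∀ d < n, ∀ ω, 0 ≤ mmE n d * KT k0 (eE n) E W d ω ∧
      mmE n d * KT k0 (eE n) E W d ω ≤ KK E (gaE n) W d ω ∧
      KK E (gaE n) W d ω ≤ psi (mmE n d) s ∧
      KK E (gaE n) W d ω - mmE n d * KT k0 (eE n) E W d ω ≤ trE s k0 d ∧
      nm (fun d => ap (E d)) (mmE n) (fun x => 1 - W x) d ω ^ mmE n d =
        1 - KK E (gaE n) W d ω := by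
  intro d
  induction d with
  | zero =>
    intro hd ω
    simp [mmE_zero hd, KT, KK, psi, trE, nm_zero, hW ω]
  | succ d ih =>
    intro hd ω
    have ih' := ih (by omega)
    have hs0 : 0 ≤ s := (hW ω).1.trans (hW ω).2
    have h0 := mmE_mem (show d < n by omega)
    have h1 := mmE_mem hd
    have g0 := gaE_pos hd
    have g1 := (gaE_mem hd).2
    set g := E d ω (KT k0 (eE n) E W d) with hg
    set G := E d ω (KK E (gaE n) W d) with hG
    have a0 : 0 ≤ mmE n d * g := by
      rw [hg, ← PF.const_mul]; exact PF.nonneg _ fun x => (ih' x).1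
    have a1 : mmE n d * g ≤ G := by
      rw [hg, ← PF.const_mul]; exact PF.mono _ fun x => (ih' x).2.1
    have a2 : G ≤ psi (mmE n d) s := PF.le_of_le _ fun x => (ih' x).2.2.1
    have a3 : G - mmE n d * g ≤ trE s k0 d := by
      rw [hg, ← PF.const_mul, ← PF.sub]; exact PF.le_of_le _ fun x => (ih' x).2.2.2.1
    have a4 : psi (mmE n d) s ≤ s := psi_le h0.2 hs0 hs
    have eK : mmE n (d + 1) * KT k0 (eE n) E W (d + 1) ω =
        psiT (gaE n d) (k0 + 1) (mmE n d * g) := by
      simp only [KT, psiT, ← hg, eE, hd, if_true]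
      rw [sum_range_succ', mul_add, mul_sum, add_comm,
        Fin.sum_univ_eq_sum_range (fun k => mmE n (d + 1) *
          (cc (gaE n d) (k + 1) * mmE n d ^ (k + 2) / mmE n (d + 1) * g ^ (k + 2)))]
      congr 1
      · refine sum_congr rfl fun k _ => ?_
        rw [mul_pow]; field_simp [h1.1.ne']
      · simp only [cc, gaE]; field_simp [h0.1.ne']; ring
    have t := psi_tail g0 g1 a0 (by linarith) (k0 + 1)
    have t2 := psi_sub_le g0 g1.le a0 a1 (a2.trans a4) hs
    have t3 := psi_mono g0 a1 (by linarith)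
    rw [eK]
    refine ⟨psiT_nonneg g0 g1 a0 _, ?_, ?_, ?_, ?_⟩
    · change _ ≤ psi (gaE n d) G
      linarith [t.1]
    · change psi (gaE n d) G ≤ _
      refine (psi_mono g0 a2 (by linarith)).trans (le_of_eq ?_)
      simp only [psi, sub_sub_cancel]
      rw [← Real.rpow_mul (by linarith), gaE, mul_div_cancel₀ _ h0.1.ne']
    · change psi (gaE n d) G - _ ≤ trE s k0 d / (1 - s) + s ^ (k0 + 2) / (1 - s)
      have b1 : (G - mmE n d * g) / (1 - s) ≤ trE s k0 d / (1 - s) :=
        div_le_div_of_nonneg_right a3 (by linarith)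
      have b2 : (mmE n d * g) ^ (k0 + 1 + 1) / (1 - mmE n d * g) ≤ s ^ (k0 + 2) / (1 - s) :=
        div_le_div₀ (pow_nonneg hs0 _) (pow_le_pow_left₀ a0 (by linarith) _) (by linarith)
          (by linarith)
      linarith [t.2]
    · rw [nm_succ]
      simp only [ap_apply]
      rw [PF.congr _ fun x => (ih' x).2.2.2.2, PF.sub, PF.const, ← hG,
        ← Real.rpow_mul (by linarith)]
      change _ = 1 - psi (gaE n d) G
      rw [psi, sub_sub_cancel, gaE]
      congr 1; ring

theorem KT_le (k0 : ℕ) (hs : s < 1) (hW : ∀ x, 0 ≤ W x ∧ W x ≤ s) {d : ℕ} (hd : d < n) (ω : Ω) :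
    KT k0 (eE n) E W d ω ≤ - Real.log (1 - s) := by
  have h := KK_facts E k0 hs hW d hd ω
  exact le_of_mul_le_mul_left (h.2.1.trans (h.2.2.1.trans (psi_le_log hs))) (mmE_mem hd).1

theorem val_approx (k0 r : ℕ) (hs : s < 1) (hW : ∀ x, 0 ≤ W x ∧ W x ≤ s)
    (hr : 2 * (- Real.log (1 - s)) ≤ ((r + 1 : ℕ) : ℝ)) (ω : Ω) :
    |Real.log (nm (fun d => ap (E d)) (mmE (r + 1)) (fun x => 1 - W x) (r + 1) ω) +
      E r ω (KT k0 (eE (r + 1)) E W r)| ≤
      ((r + 1 : ℕ) : ℝ) * trE s k0 r + 2 * (- Real.log (1 - s)) ^ 2 / ((r + 1 : ℕ) : ℝ) := by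
  have h := KK_facts E (n := r + 1) k0 hs hW r (by omega)
  set N : ℝ := ((r + 1 : ℕ) : ℝ) with hN
  have hN0 : 0 < N := by positivity
  have em : mmE (r + 1) r = 1 / N := by simp only [mmE, hN]; push_cast; ring
  set Mh := - Real.log (1 - s)
  set g := E r ω (KT k0 (eE (r + 1)) E W r) with hg
  set G := E r ω (KK E (gaE (r + 1)) W r) with hG
  have a0 : 0 ≤ 1 / N * g := by
    rw [hg, ← PF.const_mul, ← em]; exact PF.nonneg _ fun x => (h x).1
  have a1 : 1 / N * g ≤ G := by
    rw [hg, ← PF.const_mul, ← em]; exact PF.mono _ fun x => (h x).2.1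
  have a2 : G ≤ 1 / N * Mh := by
    rw [← em]; exact PF.le_of_le _ fun x => (h x).2.2.1.trans (psi_le_log hs)
  have a3 : G - 1 / N * g ≤ trE s k0 r := by
    rw [hg, ← PF.const_mul, ← PF.sub, ← em]; exact PF.le_of_le _ fun x => (h x).2.2.2.1
  have a4 : 1 / N * Mh ≤ 1 / 2 := by rw [one_div_mul_eq_div, div_le_iff₀ hN0]; linarith
  have hG0 : 0 ≤ G := a0.trans a1
  rw [nm_succ]
  simp only [ap_apply]
  rw [PF.congr _ fun x => (h x).2.2.2.2, PF.sub, PF.const, ← hG, Real.log_rpow (by linarith), em,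
    one_div_one_div]
  have hl := Real.abs_log_sub_add_sum_range_le (x := G) (by rw [abs_of_nonneg hG0]; linarith) 1
  simp only [range_one, sum_singleton, zero_add, pow_one, Nat.cast_zero, div_one,
    abs_of_nonneg hG0] at hl
  have hl2 : G ^ (1 + 1) / (1 - G) ≤ 2 * (1 / N * Mh) ^ 2 := by
    rw [div_le_iff₀ (by linarith)]
    have : G ^ 2 ≤ (1 / N * Mh) ^ 2 := pow_le_pow_left₀ hG0 a2 2
    nlinarith [sq_nonneg (1 / N * Mh)]
  have e : N * Real.log (1 - G) + g = N * (G + Real.log (1 - G)) - N * (G - 1 / N * g) := by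
    field_simp; ring
  rw [e]
  refine (abs_sub _ _).trans ?_
  rw [abs_mul, abs_mul, abs_of_pos hN0, abs_of_nonneg (sub_nonneg.2 a1), add_comm]
  refine add_le_add (mul_le_mul_of_nonneg_left a3 hN0.le) ?_
  refine (mul_le_mul_of_nonneg_left (hl.trans hl2) hN0.le).trans (le_of_eq ?_)
  field_simp

end

section kernels

variable {S : Type*} [Fintype S] [DecidableEq S]

/-- The weights of a functional on a finite type. -/
noncomputable def ker (L : PF S) (x : S) : ℝ := L (Pi.single x 1)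

theorem ker_sum (L : PF S) (f : S → ℝ) : ∑ x, ker L x * f x = L f := by
  simp only [ker, ← PF.mul_const]
  rw [← PF.sum]
  refine PF.congr _ fun y => ?_
  simp [Pi.single_apply]

omit [Fintype S] in
theorem ker_nonneg (L : PF S) (x : S) : 0 ≤ ker L x :=
  L.nonneg fun y => by rw [Pi.single_apply]; split_ifs <;> simp

theorem ker_sum_one (L : PF S) : ∑ x, ker L x = 1 := by
  simpa using ker_sum L (fun _ => 1)

/-- Product operator. -/
noncomputable def pkPO (L : Type*) [Fintype L] [DecidableEq L] (E : PO S) : PO (L → S) :=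
  fun s =>
  { toLin :=
      { toFun := fun F => pk (fun a b => ker (E a) b) F s
        map_add' := fun F G => by simp [pk, mul_add, sum_add_distrib]
        map_smul' := fun c F => by simp [pk, mul_sum, mul_left_comm] }
    nonneg' := fun F hF => sum_nonneg fun s' _ =>
      mul_nonneg (prod_nonneg fun _ _ => ker_nonneg _ _) (hF s')
    one' := by
      have := Finset.prod_univ_sum (fun _ : L => (univ : Finset S)) (fun l b => ker (E (s l)) b)
      simp only [ker_sum_one, prod_const_one, Fintype.piFinset_univ] at this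
      simp [pk, ← this] }

theorem pkPO_prod {L : Type*} [Fintype L] [DecidableEq L] (E : PO S) (s : L → S)
    (g : L → S → ℝ) : pkPO L E s (fun s' => ∏ l, g l (s' l)) = ∏ l, E (s l) (g l) := by
  have := Finset.prod_univ_sum (fun _ : L => (univ : Finset S))
    (fun l b => ker (E (s l)) b * g l b)
  simp only [ker_sum, Fintype.piFinset_univ, prod_mul_distrib] at this
  exact this.symm

end kernels

theorem nm_shift {Ω : Type*} (E : ℕ → (Ω → ℝ) → Ω → ℝ) (mm : ℕ → ℝ) (Z : Ω → ℝ) :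
    ∀ d, nm E mm Z (d + 1) = nm (fun j => E (j + 1)) (fun j => mm (j + 1)) (nm E mm Z 1) d
  | 0 => rfl
  | d + 1 => by rw [nm_succ, nm_shift E mm Z d]; rfl

theorem nm_congr {Ω : Type*} {E E' : ℕ → (Ω → ℝ) → Ω → ℝ} {mm mm' : ℕ → ℝ} (Z : Ω → ℝ) :
    ∀ d, (∀ j < d, E j = E' j ∧ mm j = mm' j) → nm E mm Z d = nm E' mm' Z d
  | 0, _ => rfl
  | d + 1, h => by
    rw [nm_succ, nm_succ, nm_congr Z d fun j hj => h j (by omega), (h d (by omega)).1,
      (h d (by omega)).2]

end Crest.Agent.R141.C
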