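import Crest.Agent.R141.CAbs2

/-! The cavity lemma. -/

set_option autoImplicit false
set_option maxHeartbeats 400000

namespace Crest.Agent.R141.C

open Finset Crest.ProbabilityR.Diluted Filter
open scoped BigOperators

theorem exists_params {ε : ℝ} (hε : 0 < ε) {s : ℝ} (hs0 : 0 ≤ s) (hs1 : s < 1) (q : ℕ) :
    ∃ (r k0 R0 : ℕ) (η lam c : ℝ), 0 < r ∧ 0 < η ∧ 0 < lam ∧ 1 ≤ c ∧ c * s < 1 ∧
      2 * (- Real.log (1 - s)) ≤ ((r + 1 : ℕ) : ℝ) ∧
      2 * (((r + 1 : ℕ) : ℝ) * trE s k0 r + 2 * (- Real.log (1 - s)) ^ 2 / ((r + 1 : ℕ) : ℝ)) +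
      ((20 * 2 ^ q) ^ R0 * (q * (((r + 1 : ℕ) : ℝ) * η / 5 +
        3 * (lam / 10 + 1 / (20 * lam * ((r + 1 : ℕ) : ℝ))))) +
      (c ^ R0)⁻¹ * (2 * (- Real.log (1 - c * s)))) ≤ ε := by
  set c : ℝ := 2 / (1 + s) with hc
  have hc1 : 1 < c := by rw [hc, one_lt_div (by linarith)]; linarith
  have hcs : c * s < 1 := by rw [hc, div_mul_eq_mul_div, div_lt_one (by linarith)]; linarith
  have h5 : (0 : ℝ) < ε / 5 := by positivity
  obtain ⟨R0, hR0⟩ := (((tendsto_inv_atTop_zero.comp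
    (tendsto_pow_atTop_atTop_of_one_lt hc1)).mul_const
      (2 * (- Real.log (1 - c * s)))).eventually
      (gt_mem_nhds (a := ε / 5) (by simpa using h5))).exists
  set A : ℝ := (20 * 2 ^ q) ^ R0 * q with hA
  have hA0 : 0 ≤ A := by positivity
  set lam : ℝ := ε / (5 * (A + 1)) with hlam
  have hl : 0 < lam := by positivity
  set Mh := - Real.log (1 - s)
  have t1 : Tendsto (fun r : ℕ => ((r + 1 : ℕ) : ℝ)) atTop atTop :=
    tendsto_natCast_atTop_atTop.comp (tendsto_add_atTop_nat 1)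
  have t2 := (t1.const_div_atTop (4 * Mh ^ 2 + A * 3 / (20 * lam))).eventually (gt_mem_nhds h5)
  obtain ⟨r, hr1, hr2, hr3⟩ := (t2.and ((t1.eventually_ge_atTop (2 * Mh)).and
    (eventually_gt_atTop 0))).exists
  set N : ℝ := ((r + 1 : ℕ) : ℝ) with hN
  have hN0 : 0 < N := by positivity
  obtain ⟨k0, hk0⟩ := (((trE_tendsto hs0 hs1 r).const_mul (2 * N)).eventually
    (gt_mem_nhds (a := ε / 5) (by simpa using h5))).exists
  refine ⟨r, k0, R0, ε / ((A + 1) * N), lam, c, hr3, by positivity, hl, hc1.le, hcs, hr2, ?_⟩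
  have b1 : A * (N * (ε / ((A + 1) * N)) / 5) ≤ ε / 5 := by
    rw [show A * (N * (ε / ((A + 1) * N)) / 5) = ε / 5 * (A / (A + 1)) by field_simp]
    exact mul_le_of_le_one_right h5.le ((div_le_one (by positivity)).2 (by linarith))
  have b2 : A * lam ≤ ε / 5 := by
    rw [show A * lam = ε / 5 * (A / (A + 1)) by rw [hlam]; field_simp]
    exact mul_le_of_le_one_right h5.le ((div_le_one (by positivity)).2 (by linarith))
  have e : 2 * (N * trE s k0 r + 2 * Mh ^ 2 / N) + ((20 * 2 ^ q) ^ R0 * (q *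
      (N * (ε / ((A + 1) * N)) / 5 + 3 * (lam / 10 + 1 / (20 * lam * N)))) +
      (c ^ R0)⁻¹ * (2 * (- Real.log (1 - c * s)))) =
      2 * N * trE s k0 r + (4 * Mh ^ 2 + A * 3 / (20 * lam)) / N +
      A * (N * (ε / ((A + 1) * N)) / 5) + 3 / 10 * (A * lam) +
      (c ^ R0)⁻¹ * (2 * (- Real.log (1 - c * s))) := by
    rw [← mul_assoc _ (q : ℝ), ← hA]; field_simp; ring
  rw [e]
  have := mul_nonneg hA0 hl.le
  simp only [Function.comp] at hR0
  linarith

theorem exists_K {B η : ℝ} (hB : 0 ≤ B) (hη : 0 < η) :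
    ∃ (K : ℕ) (lam : ℝ), 0 < K ∧ 0 < lam ∧ B * (lam / 2 + 1 / (2 * lam * K)) ≤ η := by
  set lam := η / (B + 1) with hlam
  have hl : 0 < lam := by positivity
  obtain ⟨K, hK⟩ := exists_nat_gt (1 / lam ^ 2)
  have hK0 : (0 : ℝ) < K := lt_trans (by positivity) hK
  refine ⟨K, lam, by exact_mod_cast hK0, hl, ?_⟩
  have h1 : 1 / (2 * lam * K) ≤ lam / 2 := by
    rw [div_lt_iff₀ (by positivity)] at hK
    rw [div_le_div_iff₀ (by positivity) (by norm_num)]
    nlinarith
  have h2 : B * lam ≤ η := by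
    rw [show B * lam = η * (B / (B + 1)) by rw [hlam]; field_simp]
    exact mul_le_of_le_one_right hη.le ((div_le_one (by positivity)).2 (by linarith))
  nlinarith [mul_le_mul_of_nonneg_left h1 hB]

section

variable {Sp C V : Type} [DecidableEq C] [Fintype Sp] [Nonempty Sp] [Fintype C] [Fintype V]
  [Nonempty V]

theorem TT_marg (Sm : ℕ → Finset C) {mm : ℕ → ℝ} (hm0 : mm 0 = 1) (Z : Sp × (C → V) → ℝ) :
    ∀ d σ x, TT Sm mm Z (d + 1) (σ, x) =
      TT Sm mm (fun ω : Unit × (C → V) => 𝔼 σ, Z (σ, ω.2)) (d + 1) ((), x) := by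
  intro d
  induction d with
  | zero =>
    intro σ x
    simp only [TT, nm_succ, nm_zero, ap_apply, E0_apply, expect_prod, merge, hm0, Real.rpow_one,
      Fintype.expect_const]
    rw [expect_comm]
  | succ d ih =>
    intro σ x
    rw [TT_succ, TT_succ]
    simp only [E0_apply, expect_prod, merge, ih, Fintype.expect_const, univ_unique,
      expect_singleton]

theorem EP_empty {ρ : Sp × (C → V) → ℝ} (hρ : ∀ x, 0 < ρ x) (ω ω' : Sp × (C → V))
    (f : Sp × (C → V) → ℝ) : EP ρ ∅ ω f = EP ρ ∅ ω' f := by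
  simpa [merge] using (EP_dep hρ ∅ f ω ω').symm

end

theorem SM_last (r K : ℕ) : SM (r + 1) K r = ∅ := by
  refine filter_eq_empty_iff.2 fun c _ => not_lt.2 ?_
  rcases c with ⟨a, _ | d⟩
  · exact Nat.le_of_lt_succ a.1.2
  · exact Nat.le_of_lt_succ d.2

theorem sum_phiL_ind {N : ℕ} {X L : Type} [Fintype L] [DecidableEq L] (V : (L → Bool) → ℝ)
    (v : L → Fin N) (ω : (Fin N → Bool) × X) :
    ∑ σ, V σ * phiL (ind fun (u : Fin N) (σ : Fin N → Bool) => σ u) v σ ω =
      V (fun l => ω.1 (v l)) := by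
  rw [sum_eq_single (fun l => ω.1 (v l))]
  · simp [phiL, ind]
  · intro σ _ h
    obtain ⟨l, hl⟩ := Function.ne_iff.1 h
    rw [phiL, prod_eq_zero (mem_univ l) (by simp [ind, hl.symm]), mul_zero]
  · simp

theorem cavity : CavityLemma := by
  classical
  intro ε hε a q
  set s : ℝ := 1 - Real.exp (-(2 * |a|)) with hs
  have hs0 : 0 ≤ s := by
    have : Real.exp (-(2 * |a|)) ≤ 1 := Real.exp_le_one_iff.2 (by linarith [abs_nonneg a])
    linarith
  have hs1 : s < 1 := by linarith [Real.exp_pos (-(2 * |a|))]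
  obtain ⟨r, k0, R0, η, lam, c, hr0, hη, hlam, hc, hcs, hr, hErr⟩ := exists_params hε hs0 hs1 q
  obtain ⟨M, _, _, T, _, _, prog, C, hC, hdec⟩ := exists_pin_family (gaE (r + 1)) k0 (r + 1)
    (Nat.succ_pos r) (fun d hd => gaE_mem hd) (η0 := η / 2) (by positivity)
  obtain ⟨K, lam', hK, hl', hKb⟩ := exists_K (B := C * (((r + 1 : ℕ) : ℝ) *
    ((Fintype.card T : ℝ) ^ 2 * (4 ^ (r + 1) * 16)))) (η := η / 2) (by positivity) (by positivity)
  have : Nonempty (Fin K) := ⟨⟨0, hK⟩⟩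
  have hm : ∀ d < r + 1, 0 < mmE (r + 1) d := fun d hd => (mmE_mem hd).1
  have hm0 := mmE_zero (Nat.succ_pos r)
  set e := Fintype.equivFin (PA (r + 1) K)
  let X := PC (r + 1) K → Bool × M
  let x0 : X := Classical.arbitrary _
  refine ⟨r, mTr r, mTr_adm r, Fintype.card (PA (r + 1) K), X,
    (Fin (r + 1) → Fin K) × (PA (r + 1) K → T), inferInstance, inferInstance,
    fun _ F => Real.log (TT (SM (r + 1) K) (mmE (r + 1)) (fun ω : Unit × X => F ω.2) (r + 1)
      ((), x0)),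
    fun π x σ => ∏ a ∈ actB π.1, pinF (ind (fun k σ => σ k) (e a)) a a.1 (prog (π.2 a) a.1) (σ, x),
    (1 / 2) ^ Fintype.card (PA (r + 1) K), by positivity, fun π x σ => ⟨?_, ?_⟩, fun π => ?_,
    fun π F G t hF hFG => ?_, fun N hN Y hY => ?_⟩
  · refine (pow_le_pow_of_le_one (by norm_num) (by norm_num) (card_le_univ (actB π.1))).trans ?_
    rw [← prod_const]
    exact prod_le_prod (fun _ _ => by norm_num) fun a _ => (pinF_mem (ind_mem _ _) _ _ _ _).1
  · exact prod_le_one (fun a _ => le_trans (by norm_num) (pinF_mem (ind_mem _ _) _ _ _ _).1)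
      fun a _ => (pinF_mem (ind_mem _ _) _ _ _ _).2
  · have := nm_bounds (fun d => E0 (Sp := Unit) (V := Bool × M) (SM (r + 1) K d)) _ (r + 1) hm
      (Z := fun _ => 1) one_pos (fun _ => ⟨le_rfl, le_rfl⟩) (r + 1) le_rfl ((), x0)
    exact (congrArg Real.log (le_antisymm this.2 this.1)).trans Real.log_one
  · have hG : ∀ x, 0 < G x := fun x =>
      pos_of_mul_pos_right ((hF x).trans_le (hFG x)) (Real.exp_pos t).le
    have := nm_mono (fun d => E0 (Sp := Unit) (V := Bool × M) (SM (r + 1) K d)) _ (r + 1) hm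
      (F := fun ω => F ω.2) (G := fun ω => G ω.2) (Real.exp_pos t).le (fun _ => (hF _).le)
      (fun _ => (hG _).le) (fun _ => hFG _) (r + 1) le_rfl ((), x0)
    refine (Real.log_le_log (TT_pos (fun _ => hF _) _ _) this).trans (le_of_eq ?_)
    exact (Real.log_mul (Real.exp_pos t).ne' (TT_pos (fun ω : Unit × X => hG ω.2) _ _).ne').trans
      (by rw [Real.log_exp])
  have : Nonempty (Fin N) := ⟨⟨0, hN⟩⟩
  set sp : Fin N → (Fin N → Bool) → Bool := fun u σ => σ u with hsp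
  set Err : ℝ → ℝ := fun η => 2 * (((r + 1 : ℕ) : ℝ) * trE s k0 r +
      2 * (- Real.log (1 - s)) ^ 2 / ((r + 1 : ℕ) : ℝ)) +
      ((20 * 2 ^ q) ^ R0 * (q * (((r + 1 : ℕ) : ℝ) * η / 5 +
        3 * (lam / 10 + 1 / (20 * lam * ((r + 1 : ℕ) : ℝ))))) +
      (c ^ R0)⁻¹ * (2 * (- Real.log (1 - c * s)))) with hErrd
  set AE : (Fin (r + 1) → Fin K) → (PA (r + 1) K → Fin N × T) → ℝ := fun k ty =>
    ∑ d ∈ range (r + 1), ∑ t, AddErr (sysB (mmE (r + 1)) (ZA_pos sp prog hY (actB k) ty) k)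
      (gaE (r + 1)) (ind sp) d (prog t d) with hAE
  refine ⟨fun π u => Err (η / 2 + C * AE π.1 (fun a => (u (e a), π.2 a))), ?_, fun π u => ?_⟩
  · have h1 : 𝔼 π : (Fin (r + 1) → Fin K) × (PA (r + 1) K → T),
        𝔼 u : Fin (Fintype.card (PA (r + 1) K)) → Fin N, AE π.1 (fun a => (u (e a), π.2 a)) =
        𝔼 k, 𝔼 ty, AE k ty := by
      rw [expect_prod]
      refine expect_congr rfl fun k _ => ?_
      rw [← expect_prod (fun z : (PA (r + 1) K → T) × (Fin (Fintype.card (PA (r + 1) K)) → Fin N) =>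
        AE k (fun a => (z.2 (e a), z.1 a)))]
      exact Fintype.expect_equiv
        { toFun := fun z a => (z.2 (e a), z.1 a)
          invFun := fun ty => (fun a => (ty a).2, fun j => (ty (e.symm j)).1)
          left_inv := fun z => by simp
          right_inv := fun ty => by simp } _ _ fun _ => rfl
    have h2 := avg_addErr hK sp prog hY hm0 (fun d hd => mmE_mem hd)
      (γ := gaE (r + 1)) (fun d hd => ⟨rfl, gaE_pos hd, (gaE_mem hd).2⟩) hl'
    have h3 : C * 𝔼 k, 𝔼 ty, AE k ty ≤ η / 2 :=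
      (mul_le_mul_of_nonneg_left h2 hC).trans (le_of_eq_of_le (by simp only [mul_assoc]) hKb)
    refine le_trans ?_ hErr
    simp only [hErrd, expect_add_distrib, Fintype.expect_const, ← mul_expect, ← expect_div, h1]
    gcongr
    linarith
  set ty : PA (r + 1) K → Fin N × T := fun a => (u (e a), π.2 a) with hty
  have hZ := ZA_pos sp prog hY (actB π.1) ty
  have hρ := rho_pos (Sm := SM (r + 1) K) (mm := mmE (r + 1)) hZ (r + 1)
  set S := sysB (mmE (r + 1)) hZ π.1 with hS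
  refine ⟨(Fin N → Bool) × X, inferInstance, ker S.out, fun ω => trial S (ind sp) r ω,
    ker_nonneg _, ker_sum_one _, fun L _ _ hq V hV => ?_⟩
  have hV' : ∀ σ, Real.exp (-|a|) ≤ V σ ∧ V σ ≤ Real.exp |a| := fun σ =>
    ⟨(Real.exp_le_exp.2 (by linarith [le_abs_self a])).trans (hV σ).1,
      (hV σ).2.trans (Real.exp_le_exp.2 (le_abs_self a))⟩
  have eZ : ∀ σ x, Y σ * ∏ a ∈ actB π.1, pinF (ind (fun k σ => σ k) (e a)) a a.1
      (prog (π.2 a) a.1) (fun k => σ (u k), x) = ZA sp prog Y (actB π.1) ty (σ, x) := by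
    intro σ x
    simp only [ZA]
    congr 1
    refine prod_congr rfl fun a _ => ?_
    have hw : ∀ o, Wt (ind (fun k σ => σ k) (e a)) o (fun k => σ (u k), x) =
        Wt (ind sp (ty a).1) o (σ, x) := by rintro (_ | s) <;> rfl
    exact congrArg (1 - ·) (hw _)
  have hA := abs_cavity hr0 S (ind_mem sp) (fun u ω => by simp only [ind]; cases sp u ω.1 <;> simp)
    (fun u b ω => by
      change 0 < EP _ _ ω _
      rw [EP_apply hρ]
      refine div_pos (expect_pos' (fun x _ => mul_nonneg (hρ _).le (ind_mem _ _ _ _).1)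
        ⟨(fun _ => b, x0), mem_univ _, mul_pos (hρ _) (by simp [ind, hsp, merge])⟩)
        (E0_pos _ _ hρ))
    (add_nonneg (by positivity) (mul_nonneg hC (sum_nonneg fun _ _ => sum_nonneg fun _ _ =>
      AddErr_nonneg _ _ _ _ _))) hlam (hdec _ _ S (ind sp) (ind_mem sp))
    (fun _ => true, x0) (fun f => by
      change EP _ (SM (r + 1) K r) _ f = EP _ ∅ _ f
      rw [SM_last]; exact EP_empty hρ _ _ f) hq hV' hs hc hcs hr R0
  refine le_of_eq_of_le ?_ hA
  congr 2
  simp only [mul_right_comm (Y _) (V _), eZ]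
  rw [← TT_marg _ hm0 (ZA sp prog Y (actB π.1) ty) r (fun _ => true),
    ← Fintype.expect_const (ι := L → Fin N) (Real.log (TT _ _ (ZA _ _ _ _ _) _ _)),
    ← expect_sub_distrib]
  refine expect_congr rfl fun v _ => ?_
  rw [← TT_marg _ hm0 (fun ω => ZA sp prog Y (actB π.1) ty ω * V (fun l => ω.1 (v l))) r
    (fun _ => true), TT_mul SM_anti hZ hm (fun x => (Real.exp_pos _).le.trans (hV _).1) _ le_rfl,
    Real.log_mul (TT_pos hZ _ _).ne' ((Real.exp_pos _).trans_le (nm_bounds _ _ (r + 1) hm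
      (Real.exp_pos _) (fun x => hV _) _ le_rfl _).1).ne', add_sub_cancel_left]
  simp only [hsp, sum_phiL_ind]
  rfl

end Crest.Agent.R141.C
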