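import Mathlib
import Crest.Prelude.Def_DilutedSpinGlass

/-!
Shared definitions for row 141 (S0192, Mézard–Parisi formula for diluted models).

Plan: (R) reduce to a finite model, (B) bridge measurable trials and finite Markov trials,
(U) interpolation upper bound, (A) Aizenman–Sims–Starr cavity step from `CavityLemma`,
(C) proof of `CavityLemma` (cascade pinning).
-/

set_option autoImplicit false

namespace Crest.Agent.R141

open Crest.ProbabilityR.Diluted Finset
open scoped BigOperators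

/-- Nested power means along a chain of operators: `nm E mm Z 0 = Z`, and
`nm E mm Z (d+1) = (E d ((nm E mm Z d) ^ mm d)) ^ (1 / mm d)`. Level `0` is the innermost. -/
noncomputable def nm {Ω : Type*} (E : ℕ → (Ω → ℝ) → Ω → ℝ) (mm : ℕ → ℝ) (Z : Ω → ℝ) :
    ℕ → Ω → ℝ
  | 0 => Z
  | d + 1 => fun ω => (E d (fun ω' => nm E mm Z d ω' ^ mm d) ω) ^ (1 / mm d)

theorem nm_zero {Ω : Type*} (E : ℕ → (Ω → ℝ) → Ω → ℝ) (mm : ℕ → ℝ) (Z : Ω → ℝ) :
    nm E mm Z 0 = Z := rfl

theorem nm_succ {Ω : Type*} (E : ℕ → (Ω → ℝ) → Ω → ℝ) (mm : ℕ → ℝ) (Z : Ω → ℝ) (d : ℕ) :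
    nm E mm Z (d + 1) =
      fun ω => (E d (fun ω' => nm E mm Z d ω' ^ mm d) ω) ^ (1 / mm d) := rfl

/-- The product (over labels `L`) of a kernel `κ` on `S`, acting on functions of `L → S`. -/
noncomputable def pk {L S : Type*} [Fintype L] [DecidableEq L] [Fintype S] (κ : S → S → ℝ)
    (F : (L → S) → ℝ) (s : L → S) : ℝ :=
  ∑ s' : L → S, (∏ l, κ (s l) (s' l)) * F s'

/-- Exponents read from the inside out: `mrev m d = m (r-1-d)` for `d < r`. -/
noncomputable def mrev {r : ℕ} (m : Fin r → ℝ) (d : ℕ) : ℝ :=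
  if h : d < r then m ⟨r - 1 - d, by omega⟩ else 1

/-- A finite trial: an initial law, Markov kernels (`κ d` is used at level `r - d`, so `κ (r-1)`
is applied first) and a message. -/
structure FT where
  S : Type
  [fin : Fintype S]
  init : S → ℝ
  κ : ℕ → S → S → ℝ
  x : S → ℝ
  init_nonneg : ∀ s, 0 ≤ init s
  init_sum : ∑ s, init s = 1
  κ_nonneg : ∀ d s s', 0 ≤ κ d s s'
  κ_sum : ∀ d s, ∑ s', κ d s s' = 1

attribute [instance] FT.fin

/-- A valuation: to a finite label set and a function of the messages it assigns a number. -/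
abbrev Valuation : Type 1 := ∀ (L : Type) [Fintype L] [DecidableEq L], ((L → ℝ) → ℝ) → ℝ

/-- `E log T_0 W` for a finite trial. -/
noncomputable def FT.val (T : FT) {r : ℕ} (m : Fin r → ℝ) : Valuation :=
  fun L _ _ W => ∑ s : L → T.S, (∏ l, T.init (s l)) *
    Real.log (nm (fun d => pk (T.κ d)) (mrev m) (fun s' => W (fun l => T.x (s' l))) r s)

/-- `E log T_0 W` for a measurable trial, as in the frozen definitions. -/
noncomputable def valX {r : ℕ} (m : Fin r → ℝ) (X : (Fin (r + 1) → unitInterval) → ℝ) :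
    Valuation :=
  fun L _ _ W => ∫ u, Real.log (powerMeans m
    (fun u' : L → Fin (r + 1) → unitInterval => W (fun l => X (u' l))) u) ∂(uniformArrays L r)

/-- A finite model: clause `(b, g)` has weight `wb b * ∏ j, wf (g j)` and interaction
`log (1 - β b * ∏ j, f (g j) (σ j))`; field `h a` has weight `wh a`. -/
structure Model (p : ℕ) where
  B : Type
  F : Type
  H : Type
  [finB : Fintype B]
  [finF : Fintype F]
  [finH : Fintype H]
  wb : B → ℝ
  wf : F → ℝ
  wh : H → ℝ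
  β : B → ℝ
  f : F → Bool → ℝ
  h : H → ℝ
  s : ℝ
  wb_nonneg : ∀ b, 0 ≤ wb b
  wb_sum : ∑ b, wb b = 1
  wf_nonneg : ∀ g, 0 ≤ wf g
  wf_sum : ∑ g, wf g = 1
  wh_nonneg : ∀ a, 0 ≤ wh a
  wh_sum : ∑ a, wh a = 1
  s_lt : s < 1
  bound : ∀ (b : B) (g : Fin p → F) (σ : Fin p → Bool), |β b * ∏ j, f (g j) (σ j)| ≤ s
  mom : ∀ n : ℕ, 0 ≤ ∑ b, wb b * β b ^ n

attribute [instance] Model.finB Model.finF Model.finH

namespace Model

variable {p : ℕ} (M : Model p)

/-- Clause types. -/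
abbrev Θ : Type := M.B × (Fin p → M.F)

/-- Weight of a clause type. -/
noncomputable def w (c : M.Θ) : ℝ := M.wb c.1 * ∏ j, M.wf (c.2 j)

/-- Interaction of a clause type. -/
noncomputable def θ (c : M.Θ) : Inter p :=
  fun σ => Real.log (1 - M.β c.1 * ∏ j, M.f (c.2 j) (σ j))

/-- The pressure of the finite model. -/
noncomputable def press (α : ℝ) (N : ℕ) : ℝ :=
  (1 / (N : ℝ)) * ∑' n : ℕ, poissonWeight (α * N) n *
    ∑ c : Fin n → M.Θ, (∏ k, M.w (c k)) * ∑ hs : Fin N → M.H, (∏ i, M.wh (hs i)) *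
      ((Fintype.card (Fin n → Fin p → Fin N) : ℝ)⁻¹ *
        ∑ idx : Fin n → Fin p → Fin N,
          logPartition N (fun k => M.θ (c k)) idx (fun i => M.h (hs i)))

/-- The cavity functional of the finite model for a valuation. -/
noncomputable def gen (α : ℝ) (v : Valuation) : ℝ :=
  Real.log 2 +
    (∑' k : ℕ, poissonWeight (α * p) k *
      ∑ c : Fin k → M.Θ, (∏ j, M.w (c j)) * ∑ a : M.H, M.wh a *
        v (Fin k × Fin (p - 1))
          (fun x => siteTerm (M.h a) (fun j => M.θ (c j)) (fun j ℓ => x (j, ℓ)))) -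
    α * (p - 1 : ℝ) * ∑ c : M.Θ, M.w c * v (Fin p) (fun x => edgeTerm (M.θ c) x)

end Model

/-- Average of a function of spins under the product of the one-spin laws with messages `x`. -/
noncomputable def bar {L : Type} [Fintype L] [DecidableEq L] (V : (L → Bool) → ℝ)
    (x : L → ℝ) : ℝ :=
  ∑ σ : L → Bool, V σ * ∏ l, tilt (x l) (σ l)

/-- The cavity lemma: after a bounded number of cascade pins, the cavity functional of ANY
positive weight `Y` on `N` spins is, on average over the pins, close to an average of values of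
finite trials. -/
def CavityLemma : Prop :=
  ∀ (ε : ℝ), 0 < ε → ∀ (a : ℝ) (q : ℕ),
    ∃ (r : ℕ) (m : Fin r → ℝ), AdmissibleExponents m ∧
    ∃ (K : ℕ) (X P : Type) (_ : Fintype P) (_ : Nonempty P) (Ψ : P → (X → ℝ) → ℝ)
      (pin : P → X → (Fin K → Bool) → ℝ) (c : ℝ), 0 < c ∧
      (∀ π x σ, c ≤ pin π x σ ∧ pin π x σ ≤ 1) ∧
      (∀ π, Ψ π (fun _ => 1) = 0) ∧
      (∀ π (F G : X → ℝ) (t : ℝ), (∀ x, 0 < F x) → (∀ x, F x ≤ Real.exp t * G x) →
        Ψ π F ≤ t + Ψ π G) ∧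
      ∀ (N : ℕ), 0 < N → ∀ (Y : (Fin N → Bool) → ℝ), (∀ σ, 0 < Y σ) →
        ∃ e : P → (Fin K → Fin N) → ℝ, (𝔼 π, 𝔼 u, e π u) ≤ ε ∧ ∀ π u,
          ∃ (J : Type) (_ : Fintype J) (w : J → ℝ) (T : J → FT),
            (∀ j, 0 ≤ w j) ∧ ∑ j, w j = 1 ∧
            ∀ (L : Type) [Fintype L] [DecidableEq L], Fintype.card L ≤ q →
              ∀ V : (L → Bool) → ℝ, (∀ σ, Real.exp (-a) ≤ V σ ∧ V σ ≤ Real.exp a) →
                |(𝔼 v : L → Fin N, Ψ π (fun x => 𝔼 σ : Fin N → Bool,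
                      Y σ * V (fun l => σ (v l)) * pin π x (fun k => σ (u k))))
                  - Ψ π (fun x => 𝔼 σ : Fin N → Bool, Y σ * pin π x (fun k => σ (u k)))
                  - ∑ j, w j * (T j).val m L (bar V)| ≤ e π u

/-- (R) Reduction to a finite model. -/
def PartR : Prop :=
  ∀ (p : ℕ), 2 ≤ p → ∀ (α : ℝ), 0 < α → ∀ (μ : MeasureTheory.Measure (Inter p))
    [MeasureTheory.IsProbabilityMeasure μ] (ν : MeasureTheory.Measure ℝ)
    [MeasureTheory.IsProbabilityMeasure ν],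
    MeasureTheory.Integrable (fun θ => supNorm θ) μ →
    MeasureTheory.Integrable (fun x : ℝ => x) ν → HasFactorization p μ →
    ∀ η : ℝ, 0 < η → ∃ (M : Model p) (c : ℝ),
      (∀ N : ℕ, 0 < N → |pressure p α μ ν N - (M.press α N + c)| ≤ η) ∧
      ∀ (r : ℕ) (m : Fin r → ℝ) (X : (Fin (r + 1) → unitInterval) → ℝ),
        AdmissibleExponents m → Measurable X →
        |trialFunctional p α μ ν r m X - (M.gen α (valX m X) + c)| ≤ η

/-- (B1) Every finite trial is realized by a measurable trial. -/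
def PartB1 : Prop :=
  ∀ (r : ℕ) (m : Fin r → ℝ) (T : FT), ∃ X : (Fin (r + 1) → unitInterval) → ℝ,
    Measurable X ∧ valX m X = T.val m

/-- (B2) Every measurable trial is approximated by finite trials. -/
def PartB2 : Prop :=
  ∀ (p : ℕ) (M : Model p) (α : ℝ), 0 < α → ∀ (r : ℕ) (m : Fin r → ℝ)
    (X : (Fin (r + 1) → unitInterval) → ℝ), AdmissibleExponents m → Measurable X →
    ∀ η : ℝ, 0 < η → ∃ T : FT, |M.gen α (valX m X) - M.gen α (T.val m)| ≤ η

/-- (U) Interpolation upper bound for the finite model. -/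
def PartU : Prop :=
  ∀ (p : ℕ), Even p → 2 ≤ p → ∀ (M : Model p) (α : ℝ), 0 < α → ∀ (r : ℕ) (m : Fin r → ℝ)
    (T : FT), AdmissibleExponents m → ∀ N : ℕ, 0 < N → M.press α N ≤ M.gen α (T.val m)

/-- (L) Cavity lower bound for the finite model. -/
def PartL : Prop :=
  ∀ (p : ℕ), 2 ≤ p → ∀ (M : Model p) (α : ℝ), 0 < α → ∀ (b : ℝ),
    (∀ (r : ℕ) (m : Fin r → ℝ) (T : FT), AdmissibleExponents m → b ≤ M.gen α (T.val m)) →
    ∀ ε : ℝ, 0 < ε → ∀ᶠ N : ℕ in Filter.atTop, b - ε ≤ M.press α N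

end Crest.Agent.R141
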