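import Crest.Agent.R141.Defs

set_option autoImplicit false

namespace Crest.Agent.R141

open Crest.ProbabilityR.Diluted Filter

theorem final_of_parts (hR : PartR) (hB1 : PartB1) (hB2 : PartB2) (hU : PartU) (hL : PartL)
    (p : ℕ) (hp : Even p)
    (hp2 : 2 ≤ p) (α : ℝ) (hα : 0 < α) (μ : MeasureTheory.Measure (Inter p))
    [MeasureTheory.IsProbabilityMeasure μ] (ν : MeasureTheory.Measure ℝ)
    [MeasureTheory.IsProbabilityMeasure ν]
    (hμ : MeasureTheory.Integrable (fun θ => supNorm θ) μ)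
    (hν : MeasureTheory.Integrable (fun x : ℝ => x) ν) (hfac : HasFactorization p μ) :
    ∃ F : ℝ, Filter.Tendsto (pressure p α μ ν) Filter.atTop (nhds F) ∧
      IsGLB {B : ℝ | ∃ (r : ℕ) (m : Fin r → ℝ) (X : (Fin (r + 1) → unitInterval) → ℝ),
        AdmissibleExponents m ∧ Measurable X ∧
        B = trialFunctional p α μ ν r m X} F := by
  set S : Set ℝ := {B : ℝ | ∃ (r : ℕ) (m : Fin r → ℝ) (X : (Fin (r + 1) → unitInterval) → ℝ),
        AdmissibleExponents m ∧ Measurable X ∧ B = trialFunctional p α μ ν r m X} with hS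
  have hup : ∀ N : ℕ, 0 < N → ∀ B ∈ S, pressure p α μ ν N ≤ B := by
    rintro N hN B ⟨r, m, X, hm, hX, rfl⟩
    refine le_of_forall_pos_le_add fun δ hδ => ?_
    obtain ⟨M, c, h1, h2⟩ := hR p hp2 α hα μ ν hμ hν hfac (δ / 3) (by positivity)
    obtain ⟨T, hT⟩ := hB2 p M α hα r m X hm hX (δ / 3) (by positivity)
    have h3 := hU p hp hp2 M α hα r m T hm N hN
    have h4 := abs_le.1 (h1 N hN)
    have h5 := abs_le.1 (h2 r m X hm hX)
    have h6 := abs_le.1 hT
    linarith [h4.1, h4.2, h5.1, h5.2, h6.1, h6.2]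
  have hne : S.Nonempty := by
    refine ⟨_, 0, Fin.elim0, fun _ => 0, ⟨?_, fun d => d.elim0⟩, measurable_const, rfl⟩
    intro a; exact a.elim0
  have hbdd : BddBelow S := ⟨_, fun B hB => hup 1 one_pos B hB⟩
  refine ⟨sInf S, ?_, isGLB_csInf hne hbdd⟩
  rw [Metric.tendsto_atTop]
  intro δ hδ
  obtain ⟨M, c, h1, h2⟩ := hR p hp2 α hα μ ν hμ hν hfac (δ / 4) (by positivity)
  have hb : ∀ (r : ℕ) (m : Fin r → ℝ) (T : FT), AdmissibleExponents m →
      sInf S - c - δ / 4 ≤ M.gen α (T.val m) := by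
    intro r m T hm
    obtain ⟨X, hX, hXe⟩ := hB1 r m T
    have h5 := abs_le.1 (h2 r m X hm hX)
    have h6 : sInf S ≤ trialFunctional p α μ ν r m X := csInf_le hbdd ⟨r, m, X, hm, hX, rfl⟩
    rw [hXe] at h5
    linarith [h5.1, h5.2]
  have h7 := hL p hp2 M α hα _ hb (δ / 4) (by positivity)
  obtain ⟨N0, hN0⟩ := eventually_atTop.1 h7
  refine ⟨max N0 1, fun N hN => ?_⟩
  have hN1 : 0 < N := lt_of_lt_of_le one_pos (le_trans (le_max_right _ _) hN)
  have h8 := hN0 N (le_trans (le_max_left _ _) hN)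
  have h9 := abs_le.1 (h1 N hN1)
  have h10 : pressure p α μ ν N ≤ sInf S := le_csInf hne (hup N hN1)
  rw [Real.dist_eq, abs_lt]
  constructor <;> linarith [h9.1, h9.2]

end Crest.Agent.R141
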