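import Crest.Agent.R141.RedApprox

/-!
Part R: reduction of the general factorized disorder to a finite model.
-/

set_option autoImplicit false

namespace Crest.Agent.R141.Red

open Crest.ProbabilityR.Diluted Finset MeasureTheory Filter Topology
open scoped BigOperators

theorem exists_bounded {p : ℕ} (hp : 0 < p) {Ω : Type*} [MeasurableSpace Ω] {P : Measure Ω}
    [IsProbabilityMeasure P] {β : Ω → ℝ} {f : Fin p → Ω → Bool → ℝ}
    (hprod : ProdLaw P β f (f ⟨0, hp⟩))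
    (hb : ∀ᵐ ω ∂P, ∀ σ : Fin p → Bool, |β ω * ∏ ℓ, f ℓ ω (σ ℓ)| < 1)
    (hmom : ∀ n : ℕ, 1 ≤ n → 0 ≤ ∫ ω, β ω ^ n ∂P) :
    ∃ (φ : ℝ → ℝ) (K : ℝ), Measurable φ ∧ (∀ x, |φ x| ≤ K) ∧
      (∀ᵐ ω ∂P, ∀ σ : Fin p → Bool,
        φ (β ω) * ∏ ℓ, f ℓ ω (σ ℓ) = β ω * ∏ ℓ, f ℓ ω (σ ℓ)) ∧
      ∀ n : ℕ, 1 ≤ n → 0 ≤ ∫ ω, φ (β ω) ^ n ∂P := by
  by_cases h0 : ∀ᵐ ω ∂P, ∀ s, f ⟨0, hp⟩ ω s = 0
  · refine ⟨fun _ => 0, 0, measurable_const, fun _ => by simp, ?_, fun n _ => ?_⟩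
    · filter_upwards [h0] with ω hω σ
      rw [Finset.prod_eq_zero (Finset.mem_univ (⟨0, hp⟩ : Fin p)) (hω _)]
      simp
    · exact integral_nonneg fun ω => pow_nonneg le_rfl _
  have h1 : ∃ (s : Bool) (k : ℕ), P (f ⟨0, hp⟩ ⁻¹' {y | 1 / ((k : ℝ) + 1) < |y s|}) ≠ 0 := by
    by_contra hc
    push Not at hc
    apply h0
    have : ∀ (s : Bool) (k : ℕ), ∀ᵐ ω ∂P, |f ⟨0, hp⟩ ω s| ≤ 1 / ((k : ℝ) + 1) := by
      intro s k
      filter_upwards [measure_eq_zero_iff_ae_notMem.1 (hc s k)] with ω hω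
      exact not_lt.1 hω
    filter_upwards [ae_all_iff.2 fun s => ae_all_iff.2 (this s)] with ω hω s
    by_contra hne
    obtain ⟨k, hk⟩ := exists_nat_one_div_lt (abs_pos.2 hne)
    exact absurd (hω s k) (not_le.2 hk)
  obtain ⟨s, k, hk⟩ := h1
  set K : ℝ := ((k : ℝ) + 1) ^ p with hK
  have hK0 : 0 < K := by positivity
  have hA : MeasurableSet {y : Bool → ℝ | 1 / ((k : ℝ) + 1) < |y s|} :=
    measurableSet_lt measurable_const (by fun_prop)
  have hS : MeasurableSet {x : ℝ | K < |x|} := measurableSet_lt measurable_const (by fun_prop)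
  have h2 := hprod _ hS (fun _ => {y : Bool → ℝ | 1 / ((k : ℝ) + 1) < |y s|}) fun _ => hA
  have h3 : P (β ⁻¹' {x : ℝ | K < |x|} ∩
      ⋂ ℓ, f ℓ ⁻¹' {y : Bool → ℝ | 1 / ((k : ℝ) + 1) < |y s|}) = 0 := by
    rw [measure_eq_zero_iff_ae_notMem]
    filter_upwards [hb] with ω hω hmem
    have h4 : K < |β ω| := hmem.1
    have h5 : ∀ ℓ, 1 / ((k : ℝ) + 1) < |f ℓ ω s| := fun ℓ => Set.mem_iInter.1 hmem.2 ℓ
    have h6 := hω (fun _ => s)
    rw [abs_mul, Finset.abs_prod] at h6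
    have h7 : ∏ _ℓ : Fin p, 1 / ((k : ℝ) + 1) ≤ ∏ ℓ, |f ℓ ω s| :=
      Finset.prod_le_prod (fun _ _ => by positivity) fun ℓ _ => (h5 ℓ).le
    rw [Finset.prod_const, Finset.card_univ, Fintype.card_fin, one_div_pow, ← hK] at h7
    have h8 : K * (1 / K) ≤ |β ω| * ∏ ℓ, |f ℓ ω s| :=
      mul_le_mul h4.le h7 (by positivity) (abs_nonneg _)
    rw [mul_one_div_cancel hK0.ne'] at h8
    linarith
  rw [h3] at h2
  have h9 : P (β ⁻¹' {x : ℝ | K < |x|}) = 0 := by
    rcases mul_eq_zero.1 h2.symm with h | h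
    · exact h
    · exact absurd h (Finset.prod_ne_zero_iff.2 fun _ _ => hk)
  have h10 : ∀ᵐ ω ∂P, (if |β ω| ≤ K then β ω else 0) = β ω := by
    filter_upwards [measure_eq_zero_iff_ae_notMem.1 h9] with ω hω
    exact if_pos (not_lt.1 hω)
  refine ⟨fun x => if |x| ≤ K then x else 0, K, ?_, fun x => ?_, ?_, fun n hn => ?_⟩
  · exact Measurable.ite (measurableSet_le (by fun_prop) measurable_const) measurable_id
      measurable_const
  · dsimp only
    split_ifs with h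
    · exact h
    · simpa using hK0.le
  · filter_upwards [h10] with ω hω σ
    rw [hω]
  · refine le_of_le_of_eq (hmom n hn) (integral_congr_ae ?_)
    filter_upwards [h10] with ω hω
    rw [hω]

/-- The discrepancy between the centred interactions of `W` and `W'`. -/
noncomputable def disc {p : ℕ} (W W' : (Fin p → Bool) → ℝ) : ℝ :=
  ∑ σ, |(Real.log (1 - W σ) - Real.log (1 - W fun _ => true)) -
    (Real.log (1 - W' σ) - Real.log (1 - W' fun _ => true))|

theorem disc_nonneg {p : ℕ} (W W' : (Fin p → Bool) → ℝ) : 0 ≤ disc W W' :=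
  Finset.sum_nonneg fun _ _ => abs_nonneg _

theorem disc_triangle {p : ℕ} (W W' W'' : (Fin p → Bool) → ℝ) :
    disc W W'' ≤ disc W W' + disc W' W'' := by
  unfold disc
  rw [← Finset.sum_add_distrib]
  exact Finset.sum_le_sum fun σ _ => abs_sub_le _ _ _

theorem measurable_disc {p : ℕ} {Ω : Type*} [MeasurableSpace Ω] {W W' : Ω → (Fin p → Bool) → ℝ}
    (hW : ∀ σ, Measurable fun ω => W ω σ) (hW' : ∀ σ, Measurable fun ω => W' ω σ) :
    Measurable fun ω => disc (W ω) (W' ω) := by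
  unfold disc
  refine Finset.measurable_sum _ fun σ _ => Measurable.abs ?_
  exact ((((hW _).const_sub 1).log).sub (((hW _).const_sub 1).log)).sub
    ((((hW' _).const_sub 1).log).sub (((hW' _).const_sub 1).log))

theorem tendsto_disc {p : ℕ} {W : (Fin p → Bool) → ℝ} {Wn : ℕ → (Fin p → Bool) → ℝ}
    (hW : ∀ σ, W σ < 1) (h : ∀ σ, Tendsto (fun n => Wn n σ) atTop (𝓝 (W σ))) :
    Tendsto (fun n => disc W (Wn n)) atTop (𝓝 0) := by
  have h1 : ∀ σ, Tendsto (fun n => Real.log (1 - Wn n σ)) atTop (𝓝 (Real.log (1 - W σ))) :=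
    fun σ => (tendsto_const_nhds.sub (h σ)).log (by linarith [hW σ])
  have h2 : Tendsto (fun n => disc W (Wn n)) atTop (𝓝 (disc W W)) := by
    unfold disc
    exact tendsto_finsetSum _ fun σ _ => (tendsto_const_nhds.sub ((h1 _).sub (h1 _))).abs
  simpa [disc] using h2

theorem log_ratio_le {x y t : ℝ} (hy : y < 1) (hxy : x ≤ y) (ht0 : 0 ≤ t) (ht1 : t ≤ 1) :
    0 ≤ Real.log (1 - t * x) - Real.log (1 - t * y) ∧
      Real.log (1 - t * x) - Real.log (1 - t * y) ≤ Real.log (1 - x) - Real.log (1 - y) := by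
  have h1 : 0 < 1 - t * y := by
    rcases le_total 0 y with h | h <;> nlinarith
  have h2 : 1 - t * y ≤ 1 - t * x := by nlinarith
  have h3 : 0 < 1 - t * x := lt_of_lt_of_le h1 h2
  have h4 : 0 < 1 - y := by linarith
  have h5 : 0 < 1 - x := by linarith
  refine ⟨sub_nonneg.2 (Real.log_le_log h1 h2), ?_⟩
  have h6 : (1 - t * x) * (1 - y) ≤ (1 - x) * (1 - t * y) := by nlinarith
  have h7 := Real.log_le_log (mul_pos h3 h4) h6
  rw [Real.log_mul h3.ne' h4.ne', Real.log_mul h5.ne' h1.ne'] at h7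
  linarith

theorem abs_log_ratio_le {x y t : ℝ} (hx : x < 1) (hy : y < 1) (ht0 : 0 ≤ t) (ht1 : t ≤ 1) :
    |Real.log (1 - t * x) - Real.log (1 - t * y)| ≤ |Real.log (1 - x) - Real.log (1 - y)| := by
  rcases le_total x y with h | h
  · obtain ⟨h1, h2⟩ := log_ratio_le hy h ht0 ht1
    rw [abs_of_nonneg h1]; exact h2.trans (le_abs_self _)
  · obtain ⟨h1, h2⟩ := log_ratio_le hx h ht0 ht1
    rw [abs_sub_comm, abs_of_nonneg h1, abs_sub_comm]; exact h2.trans (le_abs_self _)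

theorem abs_log_one_sub_le {x s : ℝ} (hs : s < 1) (hx : |x| ≤ s) :
    |Real.log (1 - x)| ≤ Real.log 2 + |Real.log (1 - s)| := by
  have h := abs_le.1 hx
  have h1 : Real.log (1 - x) ≤ Real.log 2 := Real.log_le_log (by linarith) (by linarith)
  have h2 : Real.log (1 - s) ≤ Real.log (1 - x) := Real.log_le_log (by linarith) (by linarith)
  have h3 : 0 ≤ Real.log 2 := Real.log_nonneg (by norm_num)
  rw [abs_le]
  constructor <;> linarith [neg_abs_le (Real.log (1 - s)), abs_nonneg (Real.log (1 - s))]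

theorem disc_le_const {p : ℕ} {W W' : (Fin p → Bool) → ℝ} {s : ℝ} (hs : s < 1)
    (hW : ∀ σ, |W σ| ≤ s) (hW' : ∀ σ, |W' σ| ≤ s) :
    disc W W' ≤ ∑ _σ : Fin p → Bool, 4 * (Real.log 2 + |Real.log (1 - s)|) := by
  refine Finset.sum_le_sum fun σ _ => ?_
  have h1 := abs_le.1 (abs_log_one_sub_le hs (hW σ))
  have h2 := abs_le.1 (abs_log_one_sub_le hs (hW fun _ => true))
  have h3 := abs_le.1 (abs_log_one_sub_le hs (hW' σ))
  have h4 := abs_le.1 (abs_log_one_sub_le hs (hW' fun _ => true))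
  rw [abs_le]; constructor <;> linarith [h1.1, h1.2, h2.1, h2.2, h3.1, h3.2, h4.1, h4.2]

theorem eventually_integral_le {Ω : Type*} [MeasurableSpace Ω] {P : Measure Ω} {F : ℕ → Ω → ℝ}
    {bound : Ω → ℝ} (hF : ∀ n, Measurable (F n)) (hb : ∀ᶠ n in atTop, ∀ᵐ ω ∂P, |F n ω| ≤ bound ω)
    (hi : Integrable bound P) (hl : ∀ᵐ ω ∂P, Tendsto (fun n => F n ω) atTop (𝓝 0)) {ε : ℝ}
    (hε : 0 < ε) : ∀ᶠ n in atTop, Integrable (F n) P ∧ ∫ ω, F n ω ∂P ≤ ε := by
  have h := tendsto_integral_filter_of_dominated_convergence (f := fun _ => (0 : ℝ)) bound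
    (Eventually.of_forall fun n => (hF n).aestronglyMeasurable) hb hi hl
  rw [integral_zero] at h
  filter_upwards [hb, h.eventually_le_const hε] with n h1 h2
  exact ⟨hi.mono' (hF n).aestronglyMeasurable h1, h2⟩

theorem stage1 {p : ℕ} {Ω : Type*} [MeasurableSpace Ω] {P : Measure Ω}
    {W : Ω → (Fin p → Bool) → ℝ} (hW : ∀ σ, Measurable fun ω => W ω σ)
    (h1 : ∀ᵐ ω ∂P, ∀ σ, |W ω σ| < 1)
    (hi : ∀ σ, Integrable (fun ω => Real.log (1 - W ω σ) - Real.log (1 - W ω fun _ => true)) P)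
    {ε : ℝ} (hε : 0 < ε) :
    ∃ t : ℝ, 0 ≤ t ∧ t < 1 ∧ Integrable (fun ω => disc (W ω) (fun σ => t * W ω σ)) P ∧
      ∫ ω, disc (W ω) (fun σ => t * W ω σ) ∂P ≤ ε := by
  have ht0 : ∀ n : ℕ, 0 ≤ 1 - 1 / ((n : ℝ) + 1) := fun n => by
    rw [sub_nonneg, div_le_one (by positivity)]; linarith [Nat.cast_nonneg (α := ℝ) n]
  have ht1 : ∀ n : ℕ, 1 - 1 / ((n : ℝ) + 1) < 1 := fun n => by
    have : 0 < 1 / ((n : ℝ) + 1) := by positivity
    linarith
  have hlim : Tendsto (fun n : ℕ => 1 - 1 / ((n : ℝ) + 1)) atTop (𝓝 1) := by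
    simpa using (tendsto_const_nhds (x := (1 : ℝ))).sub tendsto_one_div_add_atTop_nhds_zero_nat
  obtain ⟨n, hn⟩ := (eventually_integral_le (P := P)
    (F := fun n ω => disc (W ω) (fun σ => (1 - 1 / ((n : ℝ) + 1)) * W ω σ))
    (bound := fun ω => ∑ σ, 2 * |Real.log (1 - W ω σ) - Real.log (1 - W ω fun _ => true)|)
    (fun n => measurable_disc hW fun σ => (hW σ).const_mul _)
    (Eventually.of_forall fun n => by
      filter_upwards [h1] with ω hω
      rw [abs_of_nonneg (disc_nonneg _ _)]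
      refine Finset.sum_le_sum fun σ _ => (abs_sub _ _).trans ?_
      have := abs_log_ratio_le (abs_lt.1 (hω σ)).2 (abs_lt.1 (hω fun _ => true)).2 (ht0 n)
        (ht1 n).le
      linarith)
    (integrable_finsetSum _ fun σ _ => (hi σ).abs.const_mul 2)
    (by
      filter_upwards [h1] with ω hω
      refine tendsto_disc (fun σ => (abs_lt.1 (hω σ)).2) fun σ => ?_
      simpa using hlim.mul_const (W ω σ)) hε).exists
  exact ⟨_, ht0 n, ht1 n, hn⟩

theorem stage2 {p : ℕ} {Ω : Type*} [MeasurableSpace Ω] {P : Measure Ω} [IsProbabilityMeasure P]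
    {β : Ω → ℝ} {f : Fin p → Ω → Bool → ℝ} (hβ : Measurable β) (hf : ∀ ℓ, Measurable (f ℓ))
    (h1 : ∀ᵐ ω ∂P, ∀ σ : Fin p → Bool, |β ω * ∏ ℓ, f ℓ ω (σ ℓ)| < 1) {t : ℝ} (ht0 : 0 ≤ t)
    (ht1 : t < 1) {ε : ℝ} (hε : 0 < ε) :
    ∃ (n : ℕ) (s : ℝ), 0 < n ∧ 0 ≤ s ∧ s < 1 ∧
      (∀ᵐ ω ∂P, ∀ σ : Fin p → Bool,
        |t * up (n ^ (p + 1)) (β ω) * ∏ ℓ, rho n (f ℓ ω (σ ℓ))| ≤ s) ∧
      Integrable (fun ω => disc (fun σ : Fin p → Bool => t * (β ω * ∏ ℓ, f ℓ ω (σ ℓ)))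
        (fun σ => t * up (n ^ (p + 1)) (β ω) * ∏ ℓ, rho n (f ℓ ω (σ ℓ)))) P ∧
      ∫ ω, disc (fun σ : Fin p → Bool => t * (β ω * ∏ ℓ, f ℓ ω (σ ℓ)))
        (fun σ => t * up (n ^ (p + 1)) (β ω) * ∏ ℓ, rho n (f ℓ ω (σ ℓ))) ∂P ≤ ε := by
  set s : ℝ := (1 + t) / 2 with hs
  have hs1 : s < 1 := by rw [hs]; linarith
  have hts : t < s := by rw [hs]; linarith
  have hev : ∀ᶠ n : ℕ in atTop, t * (1 + 1 / (n : ℝ)) ≤ s := by
    have : Tendsto (fun n : ℕ => t * (1 + 1 / (n : ℝ))) atTop (𝓝 (t * (1 + 0))) :=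
      (tendsto_const_nhds.add tendsto_one_div_atTop_nhds_zero_nat).const_mul t
    rw [add_zero, mul_one] at this
    exact this.eventually_le_const hts
  have hbd : ∀ᶠ n : ℕ in atTop, ∀ᵐ ω ∂P, ∀ σ : Fin p → Bool,
      |t * up (n ^ (p + 1)) (β ω) * ∏ ℓ, rho n (f ℓ ω (σ ℓ))| ≤ s := by
    filter_upwards [hev, eventually_gt_atTop 0] with n hn hn0
    filter_upwards [h1] with ω hω σ
    have hnr : (0 : ℝ) < n := by exact_mod_cast hn0
    have e1 := abs_up_le (pow_pos hn0 (p + 1)) (β ω)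
    have e2 : ∏ ℓ, |rho n (f ℓ ω (σ ℓ))| ≤ ∏ ℓ, |f ℓ ω (σ ℓ)| :=
      Finset.prod_le_prod (fun _ _ => abs_nonneg _) fun ℓ _ => abs_rho_le _ _
    have e3 : ∏ ℓ, |rho n (f ℓ ω (σ ℓ))| ≤ ∏ _ℓ : Fin p, (n : ℝ) :=
      Finset.prod_le_prod (fun _ _ => abs_nonneg _) fun ℓ _ => abs_rho_le_nat _ _
    rw [Finset.prod_const, Finset.card_univ, Fintype.card_fin] at e3
    have e4 := hω σ
    rw [abs_mul, Finset.abs_prod] at e4
    have e0 : 0 ≤ ∏ ℓ, |rho n (f ℓ ω (σ ℓ))| := Finset.prod_nonneg fun _ _ => abs_nonneg _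
    have e5 : 1 / (((n ^ (p + 1) : ℕ) : ℝ)) * ∏ ℓ, |rho n (f ℓ ω (σ ℓ))| ≤ 1 / (n : ℝ) := by
      refine le_trans (mul_le_mul_of_nonneg_left e3 (by positivity)) (le_of_eq ?_)
      push_cast
      field_simp
      ring
    have e6 : |β ω| * ∏ ℓ, |rho n (f ℓ ω (σ ℓ))| ≤ 1 :=
      le_trans (mul_le_mul_of_nonneg_left e2 (abs_nonneg _)) e4.le
    rw [abs_mul, abs_mul, Finset.abs_prod, abs_of_nonneg ht0, mul_assoc]
    refine le_trans (mul_le_mul_of_nonneg_left ?_ ht0) hn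
    refine le_trans (mul_le_mul_of_nonneg_right e1 e0) ?_
    rw [add_mul]
    linarith
  have hm1 : ∀ σ : Fin p → Bool, Measurable fun ω => t * (β ω * ∏ ℓ, f ℓ ω (σ ℓ)) := fun σ =>
    (hβ.mul (Finset.measurable_prod _ fun ℓ _ => (measurable_pi_apply _).comp (hf ℓ))).const_mul t
  have hm2 : ∀ (n : ℕ) (σ : Fin p → Bool),
      Measurable fun ω => t * up (n ^ (p + 1)) (β ω) * ∏ ℓ, rho n (f ℓ ω (σ ℓ)) := fun n σ =>
    (((measurable_up _).comp hβ).const_mul t).mul (Finset.measurable_prod _ fun ℓ _ =>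
      (measurable_rho n).comp ((measurable_pi_apply _).comp (hf ℓ)))
  have key := eventually_integral_le (P := P)
    (F := fun n ω => disc (fun σ : Fin p → Bool => t * (β ω * ∏ ℓ, f ℓ ω (σ ℓ)))
        (fun σ => t * up (n ^ (p + 1)) (β ω) * ∏ ℓ, rho n (f ℓ ω (σ ℓ))))
    (bound := fun _ => ∑ _σ : Fin p → Bool, 4 * (Real.log 2 + |Real.log (1 - s)|))
    (fun n => measurable_disc hm1 (hm2 n))
    (by
      filter_upwards [hbd] with n hn
      filter_upwards [hn, h1] with ω hω hω1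
      rw [abs_of_nonneg (disc_nonneg _ _)]
      refine disc_le_const hs1 (fun σ => ?_) hω
      rw [abs_mul, abs_of_nonneg ht0]
      nlinarith [hω1 σ])
    (integrable_const _)
    (by
      filter_upwards [h1] with ω hω
      refine tendsto_disc (fun σ => ?_) fun σ => ?_
      · have := (abs_lt.1 (hω σ)).2
        rcases le_total 0 (β ω * ∏ ℓ, f ℓ ω (σ ℓ)) with h | h <;> nlinarith
      · rw [← mul_assoc]
        refine (((tendsto_up (β ω)).comp (tendsto_pow_atTop (Nat.succ_ne_zero p))).const_mul t).mul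
          (tendsto_finsetProd _ fun ℓ _ => tendsto_rho _)) hε
  obtain ⟨n, hn0, hn1, hn2⟩ := ((eventually_gt_atTop 0).and (hbd.and key)).exists
  exact ⟨n, s, hn0, by linarith, hs1, hn1, hn2⟩

theorem exists_field {ν : Measure ℝ} [IsProbabilityMeasure ν] (hν : Integrable (fun x : ℝ => x) ν)
    {ε : ℝ} (hε : 0 < ε) : ∃ n : ℕ, ∫ x, |x - rho n x| ∂ν ≤ ε := by
  obtain ⟨n, hn⟩ := (eventually_integral_le (P := ν) (F := fun n x => |x - rho n x|)
    (bound := fun x => 2 * |x|) (fun n => (measurable_id.sub (measurable_rho n)).abs)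
    (Eventually.of_forall fun n => Eventually.of_forall fun x => by
      rw [abs_abs]
      linarith [abs_sub x (rho n x), abs_rho_le n x])
    (hν.abs.const_mul 2)
    (Eventually.of_forall fun x => by
      simpa using ((tendsto_const_nhds (x := x)).sub (tendsto_rho x)).abs) hε).exists
  exact ⟨n, hn.2⟩

theorem exists_cpl {p : ℕ} (hp : 0 < p) {μ : Measure (Inter p)} {ν : Measure ℝ}
    [IsProbabilityMeasure ν] (hμ : Integrable (fun θ => supNorm θ) μ)
    (hν : Integrable (fun x : ℝ => x) ν) (hfac : HasFactorization p μ) {ε : ℝ} (hε : 0 < ε) :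
    ∃ (M : Model p) (cbar : ℝ), ClauseCpl μ M cbar ε ∧ FieldCpl ν M ε := by
  obtain ⟨Ω, _, P, _, a, b, f, ha, hb, hf, hind, hid, hbf, hae, hmom, hlaw⟩ := hfac
  set Y : Ω → Inter p :=
    fun ω s => Real.log (a ω * (1 + b ω * ∏ ℓ, f ℓ ω (s ℓ))) with hY
  have hmf : ∀ σ : Fin p → Bool, Measurable fun ω => ∏ ℓ, f ℓ ω (σ ℓ) := fun σ =>
    Finset.measurable_prod _ fun ℓ _ => (measurable_pi_apply _).comp (hf ℓ)
  have hYm : Measurable Y :=
    measurable_pi_lambda _ fun s => (ha.mul ((hb.mul (hmf s)).const_add 1)).log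
  have hYi : ∀ σ, Integrable (fun ω => Y ω σ) P := by
    intro σ
    rw [← hlaw] at hμ
    have h1 : Integrable (fun ω => supNorm (Y ω)) P := hμ.comp_measurable hYm
    refine h1.mono' ((measurable_pi_apply σ).comp hYm).aestronglyMeasurable
      (Eventually.of_forall fun ω => ?_)
    exact le_ciSup (f := fun s => |Y ω s|) (Set.finite_range _).bddAbove σ
  have hprod0 : ProdLaw P b f (f ⟨0, hp⟩) := prodLaw_of_indep hind hid hbf
  have hprod1 : ProdLaw P (fun ω => -b ω) f (f ⟨0, hp⟩) :=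
    hprod0.comp measurable_neg measurable_id
  have hlt : ∀ᵐ ω ∂P, ∀ σ : Fin p → Bool, |-b ω * ∏ ℓ, f ℓ ω (σ ℓ)| < 1 := by
    filter_upwards [hae] with ω hω σ
    rw [neg_mul, abs_neg]; exact hω.2 σ
  obtain ⟨φ, K, hφ, hφK, hφae, hφmom⟩ := exists_bounded hp hprod1 hlt fun n hn => (hmom n hn).2
  set β : Ω → ℝ := fun ω => φ (-b ω) with hβ
  have hβm : Measurable β := hφ.comp hb.neg
  have hlt' : ∀ᵐ ω ∂P, ∀ σ : Fin p → Bool, |β ω * ∏ ℓ, f ℓ ω (σ ℓ)| < 1 := by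
    filter_upwards [hlt, hφae] with ω h1 h2 σ
    rw [h2 σ]; exact h1 σ
  have hYae : ∀ᵐ ω ∂P, ∀ σ : Fin p → Bool,
      Y ω σ = Real.log (a ω) + Real.log (1 - β ω * ∏ ℓ, f ℓ ω (σ ℓ)) := by
    filter_upwards [hae, hφae] with ω h1 h2 σ
    have h3 := (abs_lt.1 (h1.2 σ)).1
    rw [h2 σ, ← Real.log_mul h1.1.ne' (by linarith), neg_mul, sub_neg_eq_add]
  obtain ⟨t, ht0, ht1, hi1, he1⟩ := stage1 (P := P)
    (W := fun ω σ => β ω * ∏ ℓ, f ℓ ω (σ ℓ)) (fun σ => hβm.mul (hmf σ)) hlt'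
    (fun σ => ((hYi σ).sub (hYi fun _ => true)).congr (by
      filter_upwards [hYae] with ω hω
      simp only [Pi.sub_apply, hω]
      ring)) (half_pos hε)
  obtain ⟨n, s, hn, hs0, hs1, hbd, hi2, he2⟩ := stage2 hβm hf hlt' ht0 ht1 (half_pos hε)
  obtain ⟨k, hk⟩ := exists_field hν hε
  have hN : 0 < n ^ (p + 1) := pow_pos hn _
  have hψ : Measurable fun (y : Bool → ℝ) (s : Bool) => rho n (y s) :=
    measurable_pi_lambda _ fun s => (measurable_rho n).comp (measurable_pi_apply s)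
  have hprod2 := hprod0.comp
    (φ := fun x => t * up (n ^ (p + 1)) (φ (-x)))
    (((measurable_up _).comp (hφ.comp measurable_neg)).const_mul t) hψ
  have hfinB := (finite_up (n ^ (p + 1)) K).image (fun x => t * x)
  have hfinF : (Set.univ.pi fun _ : Bool => Set.range (rho n)).Finite :=
    Set.Finite.pi fun _ => finite_range_rho n
  have hβ'm : Measurable fun ω => t * up (n ^ (p + 1)) (β ω) :=
    ((measurable_up _).comp hβm).const_mul t
  obtain ⟨M, g, hg, hθ, hfield⟩ := exists_model (P := P)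
    (β := fun ω => t * up (n ^ (p + 1)) (β ω)) (f := fun ℓ ω s => rho n (f ℓ ω s))
    (f0 := fun ω s => rho n (f ⟨0, hp⟩ ω s))
    hβ'm (fun ℓ => hψ.comp (hf ℓ)) (hψ.comp (hf _))
    hfinB.toFinset hfinF.toFinset
    (fun ω => hfinB.mem_toFinset.2 ⟨_, ⟨β ω, hφK _, rfl⟩, rfl⟩)
    (fun ℓ ω => hfinF.mem_toFinset.2 fun s _ => ⟨_, rfl⟩)
    (fun ω => hfinF.mem_toFinset.2 fun s _ => ⟨_, rfl⟩) hprod2 hs0 hs1 hbd
    (fun j => by
      rcases Nat.even_or_odd j with hj | hj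
      · exact integral_nonneg fun ω => hj.pow_nonneg _
      · simp_rw [mul_pow]
        rw [integral_const_mul]
        refine mul_nonneg (pow_nonneg ht0 _) ((hφmom j hj.pos).trans (integral_mono ?_ ?_ ?_))
        · refine Integrable.of_bound (hβm.pow_const j).aestronglyMeasurable (K ^ j)
            (Eventually.of_forall fun ω => ?_)
          rw [Real.norm_eq_abs, abs_pow]
          exact pow_le_pow_left₀ (abs_nonneg _) (hφK _) _
        · refine Integrable.of_bound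
            (((measurable_up _).comp hβm).pow_const j).aestronglyMeasurable
            ((K + 1 / ((n ^ (p + 1) : ℕ) : ℝ)) ^ j) (Eventually.of_forall fun ω => ?_)
          rw [Real.norm_eq_abs, abs_pow]
          refine pow_le_pow_left₀ (abs_nonneg _) ((abs_up_le hN _).trans ?_) _
          linarith [hφK (-b ω)]
        · exact fun ω => hj.strictMono_pow.monotone (le_up hN _))
    hν (measurable_rho k) (finite_range_rho k).toFinset
    (fun x => (finite_range_rho k).mem_toFinset.2 ⟨x, rfl⟩) hk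
  have hC : Integrable (fun ω => Y ω (fun _ => true) - M.θ (g ω) (fun _ => true)) P :=
    (hYi _).sub (hg.integrable fun c => M.θ c (fun _ => true))
  have hD : Integrable (fun ω => ∑ σ, |Y ω σ - M.θ (g ω) σ -
      (Y ω (fun _ => true) - M.θ (g ω) (fun _ => true))|) P :=
    integrable_finsetSum _ fun σ _ =>
      (((hYi σ).sub (hg.integrable fun c => M.θ c σ)).sub hC).abs
  refine ⟨M, _, hlaw ▸ clauseCpl_of M hYm hg hC hD (fun ω σ => ?_) ?_, hfield⟩
  · exact Finset.single_le_sum (f := fun σ => |Y ω σ - M.θ (g ω) σ -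
      (Y ω (fun _ => true) - M.θ (g ω) (fun _ => true))|) (fun _ _ => abs_nonneg _)
      (Finset.mem_univ σ)
  · refine le_trans (integral_mono_ae hD (hi1.add hi2) ?_) ?_
    · filter_upwards [hYae, hθ] with ω h1 h2
      refine le_trans (le_of_eq ?_) (disc_triangle _ _ _)
      refine Finset.sum_congr rfl fun σ _ => ?_
      rw [h1, h1, h2, h2]
      congr 1
      ring
    · rw [integral_add' hi1 hi2]
      linarith

end Crest.Agent.R141.Red

namespace Crest.Agent.R141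

theorem partR : PartR := by
  intro p hp α hα μ _ ν _ hμ hν hfac η hη
  have hpr : (2 : ℝ) ≤ p := by exact_mod_cast hp
  have hc : 0 < α * p + 1 + α * (p - 1) := by
    have : 0 < α * (p - 1) := mul_pos hα (by linarith)
    positivity
  obtain ⟨M, cbar, h1, h2⟩ := Red.exists_cpl (by omega) hμ hν hfac (div_pos hη hc)
  refine ⟨M, α * cbar, fun N hN => (Red.pressure_est hα hν h1 h2 hN).trans ?_,
    fun r m X hm hX => (Red.trial_est (by omega) hα hν h1 h2 hm hX).trans (le_of_eq ?_)⟩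
  · rw [← mul_div_assoc, div_le_iff₀ hc, mul_comm η]
    refine mul_le_mul_of_nonneg_right ?_ hη.le
    nlinarith
  · field_simp

end Crest.Agent.R141
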