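import Crest.Agent.R141.RedEst

/-!
Finite-valued approximations of reals, the product law of the factorized disorder, and the
construction of a finite model from finite-valued disorder.
-/

set_option autoImplicit false

namespace Crest.Agent.R141.Red

open Crest.ProbabilityR.Diluted Finset MeasureTheory Filter Topology
open scoped BigOperators

/-- Rounding down a nonnegative real, truncated at `n`, to the grid `ℕ / n`. -/
noncomputable def dn (n : ℕ) (y : ℝ) : ℝ := (⌊min y n * (n : ℝ)⌋₊ : ℝ) / n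

/-- Rounding toward zero with truncation. -/
noncomputable def rho (n : ℕ) (x : ℝ) : ℝ := dn n x - dn n (-x)

/-- Rounding up to the grid `ℤ / n`. -/
noncomputable def up (n : ℕ) (x : ℝ) : ℝ := (⌈x * (n : ℝ)⌉ : ℝ) / n

theorem measurable_dn (n : ℕ) : Measurable (dn n) := by
  unfold dn
  refine Measurable.div_const ?_ _
  exact (measurable_from_top (f := fun k : ℕ => (k : ℝ))).comp
    (Measurable.nat_floor (by fun_prop))

theorem measurable_rho (n : ℕ) : Measurable (rho n) :=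
  (measurable_dn n).sub ((measurable_dn n).comp measurable_neg)

theorem measurable_up (n : ℕ) : Measurable (up n) := by
  unfold up
  refine Measurable.div_const ?_ _
  exact (measurable_from_top (f := fun k : ℤ => (k : ℝ))).comp (Measurable.ceil (by fun_prop))

theorem dn_nonneg (n : ℕ) (y : ℝ) : 0 ≤ dn n y := by unfold dn; positivity

theorem dn_of_nonpos (n : ℕ) {y : ℝ} (hy : y ≤ 0) : dn n y = 0 := by
  unfold dn
  rw [Nat.floor_eq_zero.2, Nat.cast_zero, zero_div]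
  have : min y n ≤ 0 := le_trans (min_le_left _ _) hy
  nlinarith [Nat.cast_nonneg (α := ℝ) n]

theorem dn_le_min (n : ℕ) {y : ℝ} (hy : 0 ≤ y) : dn n y ≤ min y n := by
  unfold dn
  have h0 : 0 ≤ min y n := le_min hy (Nat.cast_nonneg _)
  rcases Nat.eq_zero_or_pos n with rfl | hn
  · simpa using hy
  · have hn' : (0 : ℝ) < n := by exact_mod_cast hn
    rw [div_le_iff₀ hn']
    exact Nat.floor_le (by positivity)

theorem abs_rho_le_min (n : ℕ) (x : ℝ) : |rho n x| ≤ min |x| n := by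
  unfold rho
  rcases le_total 0 x with hx | hx
  · rw [dn_of_nonpos n (neg_nonpos.2 hx), sub_zero, abs_of_nonneg (dn_nonneg _ _), abs_of_nonneg hx]
    exact dn_le_min n hx
  · rw [dn_of_nonpos n hx, zero_sub, abs_neg, abs_of_nonneg (dn_nonneg _ _), abs_of_nonpos hx]
    exact dn_le_min n (neg_nonneg.2 hx)

theorem abs_rho_le (n : ℕ) (x : ℝ) : |rho n x| ≤ |x| := (abs_rho_le_min n x).trans (min_le_left _ _)

theorem abs_rho_le_nat (n : ℕ) (x : ℝ) : |rho n x| ≤ n :=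
  (abs_rho_le_min n x).trans (min_le_right _ _)

theorem tendsto_dn {y : ℝ} (hy : 0 ≤ y) : Tendsto (fun n : ℕ => dn n y) atTop (𝓝 y) := by
  have h := (tendsto_nat_floor_mul_div_atTop hy).comp tendsto_natCast_atTop_atTop
  refine h.congr' ?_
  filter_upwards [tendsto_natCast_atTop_atTop.eventually_ge_atTop y] with n hn
  simp [dn, min_eq_left hn]

theorem tendsto_rho (x : ℝ) : Tendsto (fun n : ℕ => rho n x) atTop (𝓝 x) := by
  unfold rho
  rcases le_total 0 x with hx | hx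
  · simpa [dn_of_nonpos _ (neg_nonpos.2 hx)] using tendsto_dn hx
  · simpa [dn_of_nonpos _ hx] using (tendsto_dn (neg_nonneg.2 hx)).neg

theorem finite_range_dn (n : ℕ) : (Set.range (dn n)).Finite := by
  refine ((Set.finite_Iic (n * n)).image (fun k : ℕ => (k : ℝ) / n)).subset ?_
  rintro _ ⟨y, rfl⟩
  refine ⟨_, ?_, rfl⟩
  rw [Set.mem_Iic]
  refine Nat.floor_le_of_le ?_
  push_cast
  exact mul_le_mul_of_nonneg_right (min_le_right _ _) (Nat.cast_nonneg _)

theorem finite_range_rho (n : ℕ) : (Set.range (rho n)).Finite := by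
  refine (Set.Finite.image2 (fun a b : ℝ => a - b) (finite_range_dn n) (finite_range_dn n)).subset ?_
  rintro _ ⟨x, rfl⟩
  exact ⟨_, ⟨x, rfl⟩, _, ⟨-x, rfl⟩, rfl⟩

theorem le_up {n : ℕ} (hn : 0 < n) (x : ℝ) : x ≤ up n x := by
  have hn' : (0 : ℝ) < n := by exact_mod_cast hn
  unfold up
  rw [le_div_iff₀ hn']
  exact Int.le_ceil _

theorem up_le {n : ℕ} (hn : 0 < n) (x : ℝ) : up n x ≤ x + 1 / n := by
  have hn' : (0 : ℝ) < n := by exact_mod_cast hn
  unfold up
  rw [div_le_iff₀ hn', add_mul, one_div, inv_mul_cancel₀ hn'.ne']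
  exact (Int.ceil_lt_add_one _).le

theorem abs_up_le {n : ℕ} (hn : 0 < n) (x : ℝ) : |up n x| ≤ |x| + 1 / n := by
  have h1 := le_up hn x
  have h2 := up_le hn x
  have h3 : (0 : ℝ) ≤ 1 / n := by positivity
  rw [abs_le]
  constructor <;> linarith [neg_abs_le x, le_abs_self x]

theorem tendsto_up (x : ℝ) : Tendsto (fun n : ℕ => up n x) atTop (𝓝 x) := by
  have h1 : Tendsto (fun n : ℕ => x + 1 / (n : ℝ)) atTop (𝓝 (x + 0)) :=
    tendsto_const_nhds.add tendsto_one_div_atTop_nhds_zero_nat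
  rw [add_zero] at h1
  refine tendsto_of_tendsto_of_tendsto_of_le_of_le' tendsto_const_nhds h1 ?_ ?_
  · filter_upwards [eventually_gt_atTop 0] with n hn using le_up hn x
  · filter_upwards [eventually_gt_atTop 0] with n hn using up_le hn x

theorem finite_up (n : ℕ) (K : ℝ) : (up n '' {x | |x| ≤ K}).Finite := by
  refine ((Set.finite_Icc ⌈-K * n⌉ ⌈K * n⌉).image (fun k : ℤ => (k : ℝ) / n)).subset ?_
  rintro _ ⟨y, hy, rfl⟩
  have hy' := abs_le.1 (show |y| ≤ K from hy)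
  refine ⟨_, ⟨Int.ceil_mono ?_, Int.ceil_mono ?_⟩, rfl⟩
  · exact mul_le_mul_of_nonneg_right hy'.1 (Nat.cast_nonneg _)
  · exact mul_le_mul_of_nonneg_right hy'.2 (Nat.cast_nonneg _)

/-- The joint law of `(β, f_0, …, f_{p-1})` is the product of the law of `β` and `p` copies of
the law of `f0`. -/
def ProdLaw {Ω : Type*} [MeasurableSpace Ω] (P : Measure Ω) {p : ℕ} (β : Ω → ℝ)
    (f : Fin p → Ω → Bool → ℝ) (f0 : Ω → Bool → ℝ) : Prop :=
  ∀ S : Set ℝ, MeasurableSet S → ∀ A : Fin p → Set (Bool → ℝ), (∀ ℓ, MeasurableSet (A ℓ)) →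
    P (β ⁻¹' S ∩ ⋂ ℓ, f ℓ ⁻¹' A ℓ) = P (β ⁻¹' S) * ∏ ℓ, P (f0 ⁻¹' A ℓ)

theorem ProdLaw.comp {Ω : Type*} [MeasurableSpace Ω] {P : Measure Ω} {p : ℕ} {β : Ω → ℝ}
    {f : Fin p → Ω → Bool → ℝ} {f0 : Ω → Bool → ℝ} (h : ProdLaw P β f f0) {φ : ℝ → ℝ}
    (hφ : Measurable φ) {ψ : (Bool → ℝ) → Bool → ℝ} (hψ : Measurable ψ) :
    ProdLaw P (fun ω => φ (β ω)) (fun ℓ ω => ψ (f ℓ ω)) (fun ω => ψ (f0 ω)) :=
  fun S hS A hA => h (φ ⁻¹' S) (hφ hS) (fun ℓ => ψ ⁻¹' A ℓ) fun ℓ => hψ (hA ℓ)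

theorem prodLaw_of_indep {Ω : Type*} [MeasurableSpace Ω] {P : Measure Ω} {p : ℕ} {b : Ω → ℝ}
    {f : Fin p → Ω → Bool → ℝ} {f0 : Ω → Bool → ℝ} (h1 : ProbabilityTheory.iIndepFun f P)
    (h2 : ∀ ℓ, ProbabilityTheory.IdentDistrib (f ℓ) f0 P P)
    (h3 : ProbabilityTheory.IndepFun b (fun ω => fun ℓ => f ℓ ω) P) : ProdLaw P b f f0 := by
  intro S hS A hA
  have e : (⋂ ℓ, f ℓ ⁻¹' A ℓ) = (fun ω => fun ℓ => f ℓ ω) ⁻¹' Set.univ.pi A := by
    ext ω; simp
  rw [e, h3.measure_inter_preimage_eq_mul S _ hS (MeasurableSet.univ_pi hA), ← e,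
    h1.meas_iInter fun ℓ => ⟨A ℓ, hA ℓ, rfl⟩]
  congr 1
  exact Finset.prod_congr rfl fun ℓ _ => (h2 ℓ).measure_mem_eq (hA ℓ)

theorem FinVar.ae_ne_zero {Ω : Type*} [MeasurableSpace Ω] {P : Measure Ω} [IsFiniteMeasure P]
    {A : Type*} [Fintype A] {g : Ω → A} {w : A → ℝ} (h : FinVar P g w) :
    ∀ᵐ ω ∂P, w (g ω) ≠ 0 := by
  have : ∀ a, ∀ᵐ ω ∂P, w a = 0 → g ω ≠ a := by
    intro a
    by_cases ha : w a = 0
    · have h1 : P (g ⁻¹' {a}) = 0 := by
        have := h.law a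
        rw [ha] at this
        exact (measureReal_eq_zero_iff (measure_ne_top _ _)).1 this
      filter_upwards [measure_eq_zero_iff_ae_notMem.1 h1] with ω hω _ using hω
    · exact Eventually.of_forall fun ω h => absurd h ha
  filter_upwards [ae_all_iff.2 this] with ω hω h0 using hω _ h0 rfl

theorem FinVar.exists_of_ae {Ω : Type*} [MeasurableSpace Ω] {P : Measure Ω}
    {A : Type*} {g : Ω → A} {w : A → ℝ} (h : FinVar P g w) {a : A} (ha : w a ≠ 0)
    {q : Ω → Prop} (hq : ∀ᵐ ω ∂P, q ω) : ∃ ω, g ω = a ∧ q ω := by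
  have h1 : P (g ⁻¹' {a}) ≠ 0 := by
    intro h0
    apply ha
    rw [← h.law a, measureReal_def, h0]; rfl
  exact Measure.exists_mem_of_measure_ne_zero_of_ae h1 (ae_restrict_of_ae hq)

theorem FinVar.sum_eq_one {Ω : Type*} [MeasurableSpace Ω] {P : Measure Ω} [IsProbabilityMeasure P]
    {A : Type*} [Fintype A] {g : Ω → A} {w : A → ℝ} (h : FinVar P g w) : ∑ a, w a = 1 := by
  have := h.integral (fun _ => 1)
  simpa using this.symm

theorem finVar_subtype {Ω E : Type*} [MeasurableSpace Ω] [MeasurableSpace E]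
    [MeasurableSingletonClass E] (P : Measure Ω) {φ : Ω → E} (hφ : Measurable φ) (S : Finset E)
    (hS : ∀ ω, φ ω ∈ S) :
    FinVar P (fun ω => (⟨φ ω, hS ω⟩ : {x // x ∈ S})) (fun a => P.real (φ ⁻¹' {a.1})) := by
  have key : ∀ a : {x // x ∈ S},
      (fun ω => (⟨φ ω, hS ω⟩ : {x // x ∈ S})) ⁻¹' {a} = φ ⁻¹' {a.1} := by
    intro a; ext ω; simp [Subtype.ext_iff]
  exact ⟨fun a => by rw [key]; exact hφ (measurableSet_singleton _), fun a => by rw [key]⟩

theorem exists_model {p : ℕ} {Ω : Type*} [MeasurableSpace Ω] {P : Measure Ω}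
    [IsProbabilityMeasure P] {β : Ω → ℝ} {f : Fin p → Ω → Bool → ℝ} {f0 : Ω → Bool → ℝ}
    (hβ : Measurable β) (hf : ∀ ℓ, Measurable (f ℓ)) (hf0 : Measurable f0)
    (SB : Finset ℝ) (SF : Finset (Bool → ℝ)) (hSB : ∀ ω, β ω ∈ SB) (hSF : ∀ ℓ ω, f ℓ ω ∈ SF)
    (hSF0 : ∀ ω, f0 ω ∈ SF) (hprod : ProdLaw P β f f0) {s : ℝ} (hs0 : 0 ≤ s) (hs : s < 1)
    (hb : ∀ᵐ ω ∂P, ∀ σ : Fin p → Bool, |β ω * ∏ ℓ, f ℓ ω (σ ℓ)| ≤ s)
    (hmom : ∀ n : ℕ, 0 ≤ ∫ ω, β ω ^ n ∂P)
    {ν : Measure ℝ} [IsProbabilityMeasure ν] (hν : Integrable (fun x : ℝ => x) ν)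
    {φ : ℝ → ℝ} (hφ : Measurable φ) (SH : Finset ℝ) (hSH : ∀ x, φ x ∈ SH) {ε : ℝ}
    (hε : ∫ x, |x - φ x| ∂ν ≤ ε) :
    ∃ (M : Model p) (g : Ω → M.Θ), FinVar P g M.w ∧
      (∀ᵐ ω ∂P, ∀ σ, M.θ (g ω) σ = Real.log (1 - β ω * ∏ ℓ, f ℓ ω (σ ℓ))) ∧ FieldCpl ν M ε := by
  classical
  have hB := finVar_subtype P hβ SB hSB
  have hF := finVar_subtype P hf0 SF hSF0
  have hH := finVar_subtype ν hφ SH hSH
  set wb : {x // x ∈ SB} → ℝ := fun a => P.real (β ⁻¹' {a.1}) with hwb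
  set wf : {x // x ∈ SF} → ℝ := fun a => P.real (f0 ⁻¹' {a.1}) with hwf
  set g : Ω → {x // x ∈ SB} × (Fin p → {x // x ∈ SF}) :=
    fun ω => (⟨β ω, hSB ω⟩, fun ℓ => ⟨f ℓ ω, hSF ℓ ω⟩) with hg
  have hG : FinVar P g (fun c => wb c.1 * ∏ j, wf (c.2 j)) := by
    have key : ∀ c : {x // x ∈ SB} × (Fin p → {x // x ∈ SF}),
        g ⁻¹' {c} = β ⁻¹' {c.1.1} ∩ ⋂ ℓ, f ℓ ⁻¹' {(c.2 ℓ).1} := by
      intro c; ext ω
      simp [hg, Prod.ext_iff, Subtype.ext_iff, funext_iff]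
    refine ⟨fun c => ?_, fun c => ?_⟩
    · rw [key]
      exact (hβ (measurableSet_singleton _)).inter
        (MeasurableSet.iInter fun ℓ => hf ℓ (measurableSet_singleton _))
    · rw [key, measureReal_def, hprod _ (measurableSet_singleton _) _
        (fun ℓ => measurableSet_singleton _), ENNReal.toReal_mul, ENNReal.toReal_prod]
      rfl
  let M : Model p :=
    { B := {x // x ∈ SB}
      F := {x // x ∈ SF}
      H := {x // x ∈ SH}
      wb := wb
      wf := wf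
      wh := fun a => ν.real (φ ⁻¹' {a.1})
      β := fun b => if wb b = 0 then 0 else b.1
      f := fun a => if wf a = 0 then 0 else a.1
      h := fun a => a.1
      s := s
      wb_nonneg := fun _ => measureReal_nonneg
      wb_sum := hB.sum_eq_one
      wf_nonneg := fun _ => measureReal_nonneg
      wf_sum := hF.sum_eq_one
      wh_nonneg := fun _ => measureReal_nonneg
      wh_sum := hH.sum_eq_one
      s_lt := hs
      bound := by
        intro b c σ
        by_cases h1 : wb b = 0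
        · simpa [h1] using hs0
        by_cases h2 : ∃ j, wf (c j) = 0
        · obtain ⟨j, hj⟩ := h2
          rw [Finset.prod_eq_zero (Finset.mem_univ j) (by simp [hj])]
          simpa using hs0
        push Not at h2
        obtain ⟨ω, hω, hq⟩ := hG.exists_of_ae (a := (b, c))
          (mul_ne_zero h1 (Finset.prod_ne_zero_iff.2 fun j _ => h2 j)) hb
        have e1 : β ω = b.1 := congrArg (fun z => z.1.1) hω
        have e2 : ∀ ℓ, f ℓ ω = (c ℓ).1 := fun ℓ => congrArg (fun z => (z.2 ℓ).1) hω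
        have := hq σ
        simp only [h1, h2, if_false]
        rw [e1] at this
        simpa only [e2] using this
      mom := by
        intro n
        have h1 := hB.integral (fun b => b.1 ^ n)
        refine le_of_le_of_eq (hmom n) (h1.trans (Finset.sum_congr rfl fun b _ => ?_))
        by_cases h : wb b = 0
        · simp [h]
        · simp [h] }
  refine ⟨M, g, hG, ?_, fieldCpl_of M hν hH hε⟩
  filter_upwards [hG.ae_ne_zero] with ω hω σ
  have h1 : wb (g ω).1 ≠ 0 := left_ne_zero_of_mul hω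
  have h2 : ∀ j, wf ((g ω).2 j) ≠ 0 := fun j =>
    Finset.prod_ne_zero_iff.1 (right_ne_zero_of_mul hω) j (Finset.mem_univ _)
  show Real.log (1 - (if wb (g ω).1 = 0 then 0 else (g ω).1.1) *
    ∏ j, (if wf ((g ω).2 j) = 0 then 0 else ((g ω).2 j).1) (σ j)) = _
  simp only [h1, h2, if_false]
  rfl

end Crest.Agent.R141.Red
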