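import Crest.Agent.R141.RedPM

/-!
Coupling estimates: comparing an expectation under a general law with a finite weighted sum.
-/

set_option autoImplicit false

namespace Crest.Agent.R141.Red

open Crest.ProbabilityR.Diluted Finset MeasureTheory
open scoped BigOperators

theorem abs_integral_sub_le {Ω : Type*} [MeasurableSpace Ω] {P : Measure Ω} {U V C D : Ω → ℝ}
    (hU : AEStronglyMeasurable U P) (hV : Integrable V P) (hC : Integrable C P)
    (hD : Integrable D P) (h : ∀ ω, |U ω - V ω - C ω| ≤ D ω) :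
    |∫ ω, U ω ∂P - ∫ ω, V ω ∂P - ∫ ω, C ω ∂P| ≤ ∫ ω, D ω ∂P := by
  have h1 : Integrable (fun ω => U ω - V ω - C ω) P :=
    hD.mono' ((hU.sub hV.1).sub hC.1) (Filter.Eventually.of_forall fun ω => by simpa using h ω)
  have h2 : Integrable U P := by
    have := (h1.add hC).add hV
    refine this.congr (Filter.Eventually.of_forall fun ω => ?_)
    simp
  have h3 : Integrable (fun ω => U ω - V ω) P := h2.sub hV
  rw [← integral_sub h2 hV, ← integral_sub h3 hC]
  refine le_trans (abs_integral_le_integral_abs) (integral_mono h1.abs hD h)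

/-- A finite-valued random variable with its law. -/
structure FinVar {Ω : Type*} [MeasurableSpace Ω] (P : Measure Ω) {A : Type*} (g : Ω → A)
    (w : A → ℝ) : Prop where
  meas : ∀ a, MeasurableSet (g ⁻¹' {a})
  law : ∀ a, P.real (g ⁻¹' {a}) = w a

theorem FinVar.measurable_comp {Ω : Type*} [MeasurableSpace Ω] {P : Measure Ω} {A : Type*}
    [Fintype A] {g : Ω → A} {w : A → ℝ} (h : FinVar P g w) {E : Type*} [MeasurableSpace E]
    (Ψ : A → E) : Measurable fun ω => Ψ (g ω) := by
  let _ : MeasurableSpace A := ⊤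
  have hg : Measurable g := measurable_to_countable' h.meas
  exact (measurable_from_top (f := Ψ)).comp hg

theorem FinVar.integrable {Ω : Type*} [MeasurableSpace Ω] {P : Measure Ω} [IsFiniteMeasure P]
    {A : Type*} [Fintype A] {g : Ω → A} {w : A → ℝ} (h : FinVar P g w) (Ψ : A → ℝ) :
    Integrable (fun ω => Ψ (g ω)) P := by
  refine Integrable.of_bound (h.measurable_comp Ψ).aestronglyMeasurable (∑ a, |Ψ a|)
    (Filter.Eventually.of_forall fun ω => ?_)
  exact Finset.single_le_sum (f := fun a => |Ψ a|) (fun a _ => abs_nonneg _) (Finset.mem_univ _)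

theorem FinVar.integral {Ω : Type*} [MeasurableSpace Ω] {P : Measure Ω} [IsFiniteMeasure P]
    {A : Type*} [Fintype A] {g : Ω → A} {w : A → ℝ} (h : FinVar P g w) (Ψ : A → ℝ) :
    ∫ ω, Ψ (g ω) ∂P = ∑ a, w a * Ψ a := by
  let _ : MeasurableSpace A := ⊤
  have hg : Measurable g := measurable_to_countable' h.meas
  have hΨ : Measurable Ψ := measurable_from_top
  rw [← integral_map hg.aemeasurable hΨ.aestronglyMeasurable, integral_fintype Integrable.of_finite]
  refine Finset.sum_congr rfl fun a _ => ?_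
  rw [map_measureReal_apply hg (measurableSet_singleton a), h.law, smul_eq_mul]

theorem FinVar.pi {Ω : Type*} [MeasurableSpace Ω] {P : Measure Ω} [IsFiniteMeasure P]
    {A : Type*} {g : Ω → A} {w : A → ℝ} (h : FinVar P g w) (ι : Type*) [Fintype ι] :
    FinVar (Measure.pi fun _ : ι => P) (fun ωs k => g (ωs k)) (fun as => ∏ k, w (as k)) := by
  have key : ∀ as : ι → A, (fun (ωs : ι → Ω) k => g (ωs k)) ⁻¹' {as} =
      Set.univ.pi fun k => g ⁻¹' {as k} := by
    intro as; ext ωs; simp [funext_iff]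
  refine ⟨fun as => ?_, fun as => ?_⟩
  · rw [key]; exact MeasurableSet.univ_pi fun k => h.meas _
  · rw [key, measureReal_def, Measure.pi_pi, ENNReal.toReal_prod]
    exact Finset.prod_congr rfl fun k _ => h.law _

theorem couple {Ω E A : Type*} [MeasurableSpace Ω] [MeasurableSpace E] [Fintype A]
    {P : Measure Ω} [IsFiniteMeasure P] {Y : Ω → E} (hY : Measurable Y) {g : Ω → A} {w : A → ℝ}
    (hg : FinVar P g w) (y : A → E) {C D : Ω → ℝ} (hC : Integrable C P) (hD : Integrable D P)
    {Φ : E → ℝ} (hΦ : Measurable Φ) (h : ∀ ω, |Φ (Y ω) - Φ (y (g ω)) - C ω| ≤ D ω) :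
    |∫ e, Φ e ∂(P.map Y) - ∑ a, w a * Φ (y a) - ∫ ω, C ω ∂P| ≤ ∫ ω, D ω ∂P := by
  rw [integral_map hY.aemeasurable hΦ.aestronglyMeasurable, ← hg.integral (fun a => Φ (y a))]
  exact abs_integral_sub_le (hΦ.comp hY).aestronglyMeasurable (hg.integrable (fun a => Φ (y a)))
    hC hD h

theorem integral_sum_eval {Ω ι : Type*} [MeasurableSpace Ω] [Fintype ι] {P : Measure Ω}
    [IsProbabilityMeasure P] {C : Ω → ℝ} (hC : Integrable C P) :
    Integrable (fun ωs : ι → Ω => ∑ k, C (ωs k)) (Measure.pi fun _ : ι => P) ∧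
    ∫ ωs : ι → Ω, ∑ k, C (ωs k) ∂(Measure.pi fun _ : ι => P) =
      Fintype.card ι * ∫ ω, C ω ∂P := by
  have h1 : ∀ k : ι, Integrable (fun ωs : ι → Ω => C (ωs k)) (Measure.pi fun _ : ι => P) :=
    fun k => integrable_comp_eval (μ := fun _ : ι => P) (i := k) hC
  refine ⟨integrable_finsetSum _ fun k _ => h1 k, ?_⟩
  rw [integral_finsetSum _ fun k _ => h1 k]
  have h2 : ∀ k : ι, ∫ ωs : ι → Ω, C (ωs k) ∂(Measure.pi fun _ : ι => P) = ∫ ω, C ω ∂P :=
    fun k => integral_comp_eval (μ := fun _ : ι => P) (i := k) hC.1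
  simp [h2]

theorem couple_pi {Ω E A ι : Type*} [MeasurableSpace Ω] [MeasurableSpace E] [Fintype A]
    [Fintype ι] [DecidableEq ι]
    {P : Measure Ω} [IsProbabilityMeasure P] {Y : Ω → E} (hY : Measurable Y) {g : Ω → A}
    {w : A → ℝ}
    (hg : FinVar P g w) (y : A → E) {C D : Ω → ℝ} (hC : Integrable C P) (hD : Integrable D P)
    {Φ : (ι → E) → ℝ} (hΦ : Measurable Φ)
    (h : ∀ ωs : ι → Ω, |Φ (fun k => Y (ωs k)) - Φ (fun k => y (g (ωs k))) - ∑ k, C (ωs k)| ≤
      ∑ k, D (ωs k)) :
    |∫ e, Φ e ∂(Measure.pi fun _ : ι => P.map Y) -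
      ∑ as : ι → A, (∏ k, w (as k)) * Φ (fun k => y (as k)) - Fintype.card ι * ∫ ω, C ω ∂P| ≤
      Fintype.card ι * ∫ ω, D ω ∂P := by
  have hYs : Measurable (fun (ωs : ι → Ω) k => Y (ωs k)) :=
    measurable_pi_lambda _ fun k => hY.comp (measurable_pi_apply k)
  have := couple hYs (hg.pi ι) (fun as k => y (as k)) (integral_sum_eval (ι := ι) hC).1
    (integral_sum_eval (ι := ι) hD).1 hΦ h
  rw [(integral_sum_eval hC).2, (integral_sum_eval hD).2] at this
  rw [← Measure.pi_map_pi (fun _ => hY.aemeasurable)]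
  exact this

/-! ### Poisson sums -/

theorem hasSum_congr_fun {f g : ℕ → ℝ} {a : ℝ} (h : HasSum f a) (e : ∀ n, g n = f n) :
    HasSum g a := by
  rw [show g = f from funext e]; exact h

theorem poissonWeight_nonneg {l : ℝ} (hl : 0 ≤ l) (n : ℕ) : 0 ≤ poissonWeight l n := by
  unfold poissonWeight; positivity

theorem hasSum_poissonWeight (l : ℝ) : HasSum (fun n => poissonWeight l n) 1 := by
  unfold poissonWeight
  convert! (NormedSpace.expSeries_div_hasSum_exp l).mul_left (Real.exp (-l)) using 1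
  · simp_rw [mul_div_assoc]
  · simp [← Real.exp_eq_exp_ℝ, ← Real.exp_add]

theorem hasSum_poissonWeight_mul (l : ℝ) : HasSum (fun n : ℕ => poissonWeight l n * n) l := by
  rw [← hasSum_nat_add_iff' 1]
  simp only [Finset.range_one, Finset.sum_singleton, Nat.cast_zero, mul_zero, sub_zero]
  have := (hasSum_poissonWeight l).mul_left l
  rw [mul_one] at this
  refine hasSum_congr_fun this fun n => ?_
  unfold poissonWeight
  rw [Nat.factorial_succ]
  push_cast
  have : (n.factorial : ℝ) ≠ 0 := by positivity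
  field_simp
  ring

theorem poisson_est {l : ℝ} (hl : 0 ≤ l) {G G' : ℕ → ℝ} {c ε δ A B : ℝ}
    (h : ∀ n : ℕ, |G n - G' n - n * c| ≤ n * ε + δ) (hb : ∀ n : ℕ, |G' n| ≤ A + n * B) :
    |∑' n, poissonWeight l n * G n - ∑' n, poissonWeight l n * G' n - l * c| ≤ l * ε + δ := by
  have h0 := hasSum_poissonWeight l
  have h1 := hasSum_poissonWeight_mul l
  have lin : ∀ a b : ℝ, HasSum (fun n : ℕ => poissonWeight l n * (a + n * b)) (a + l * b) := by
    intro a b
    have := (h0.mul_right a).add (h1.mul_right b)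
    rw [one_mul] at this
    exact hasSum_congr_fun this fun n => by ring
  have hw := poissonWeight_nonneg hl
  have s1 : Summable fun n => poissonWeight l n * G' n := by
    refine Summable.of_norm_bounded (lin A B).summable fun n => ?_
    rw [Real.norm_eq_abs, abs_mul, abs_of_nonneg (hw n)]
    exact mul_le_mul_of_nonneg_left (hb n) (hw n)
  have hb2 : ∀ n : ℕ, ‖poissonWeight l n * (G n - G' n - n * c)‖ ≤
      poissonWeight l n * (δ + n * ε) := by
    intro n
    rw [Real.norm_eq_abs, abs_mul, abs_of_nonneg (hw n)]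
    exact mul_le_mul_of_nonneg_left (by linarith [h n]) (hw n)
  have s2 : Summable fun n => poissonWeight l n * (G n - G' n - n * c) :=
    Summable.of_norm_bounded (lin δ ε).summable hb2
  have s3 : HasSum (fun n => poissonWeight l n * G n)
      (∑' n, poissonWeight l n * (G n - G' n - n * c) + ∑' n, poissonWeight l n * G' n +
        (0 + l * c)) := by
    exact hasSum_congr_fun ((s2.hasSum.add s1.hasSum).add (lin 0 c)) fun n => by ring
  rw [s3.tsum_eq]
  have := tsum_of_norm_bounded (lin δ ε) hb2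
  rw [Real.norm_eq_abs] at this
  refine le_of_eq_of_le ?_ (le_of_le_of_eq this (by ring))
  congr 1; ring

end Crest.Agent.R141.Red
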