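import Crest.Agent.R141.RedCouple

/-!
From a coupling of the disorder with a finite model to the estimates of `PartR`.
-/

set_option autoImplicit false

namespace Crest.Agent.R141.Red

open Crest.ProbabilityR.Diluted Finset MeasureTheory
open scoped BigOperators

/-- Monotone and shift-covariant functions of several interactions. -/
def ShiftMono {p : ℕ} {ι : Type*} [Fintype ι] (Φ : (ι → Inter p) → ℝ) : Prop :=
  ∀ (θs θs' : ι → Inter p) (t : ι → ℝ), (∀ k s, θs k s ≤ θs' k s + t k) →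
    Φ θs ≤ Φ θs' + ∑ k, t k

/-- Monotone and shift-covariant functions of one interaction. -/
def ShiftMono1 {p : ℕ} (Φ : Inter p → ℝ) : Prop :=
  ∀ (θ θ' : Inter p) (t : ℝ), (∀ s, θ s ≤ θ' s + t) → Φ θ ≤ Φ θ' + t

/-- `1`-Lipschitz functions of several fields. -/
def FieldLip {ι : Type*} [Fintype ι] (Ψ : (ι → ℝ) → ℝ) : Prop :=
  ∀ hs hs' : ι → ℝ, Ψ hs ≤ Ψ hs' + ∑ i, |hs i - hs' i|

/-- `1`-Lipschitz functions of one field. -/
def FieldLip1 (Ψ : ℝ → ℝ) : Prop := ∀ h h' : ℝ, Ψ h ≤ Ψ h' + |h - h'|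

theorem ShiftMono.measurable {p : ℕ} {ι : Type*} [Fintype ι] {Φ : (ι → Inter p) → ℝ}
    (h : ShiftMono Φ) : Measurable Φ := by
  refine (LipschitzWith.of_le_add_mul' (Fintype.card ι) fun x y => ?_).continuous.measurable
  have := h x y (fun _ => dist x y) fun k s => by
    have h1 : dist (x k s) (y k s) ≤ dist x y := (dist_le_pi_dist _ _ s).trans (dist_le_pi_dist x y k)
    rw [Real.dist_eq] at h1
    linarith [(abs_le.1 h1).2]
  simpa using this

theorem ShiftMono1.measurable {p : ℕ} {Φ : Inter p → ℝ} (h : ShiftMono1 Φ) : Measurable Φ := by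
  refine (LipschitzWith.of_le_add fun x y => ?_).continuous.measurable
  exact h x y (dist x y) fun s => by
    have h1 : dist (x s) (y s) ≤ dist x y := dist_le_pi_dist _ _ s
    rw [Real.dist_eq] at h1
    linarith [(abs_le.1 h1).2]

theorem FieldLip.measurable {ι : Type*} [Fintype ι] {Ψ : (ι → ℝ) → ℝ} (h : FieldLip Ψ) :
    Measurable Ψ := by
  refine (LipschitzWith.of_le_add_mul' (Fintype.card ι) fun x y => ?_).continuous.measurable
  refine le_trans (h x y) (add_le_add_right ?_ _)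
  have : ∑ i, |x i - y i| ≤ ∑ _i : ι, dist x y :=
    Finset.sum_le_sum fun i _ => by rw [← Real.dist_eq]; exact dist_le_pi_dist x y i
  simpa using this

theorem FieldLip1.measurable {Ψ : ℝ → ℝ} (h : FieldLip1 Ψ) : Measurable Ψ :=
  (LipschitzWith.of_le_add fun x y => by rw [Real.dist_eq]; exact h x y).continuous.measurable

theorem FieldLip.abs_sub_le {ι : Type*} [Fintype ι] {Ψ : (ι → ℝ) → ℝ} (h : FieldLip Ψ)
    (x y : ι → ℝ) : |Ψ x - Ψ y| ≤ ∑ i, |x i - y i| := by
  have h1 := h x y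
  have h2 := h y x
  simp_rw [abs_sub_comm (y _)] at h2
  rw [abs_le]; constructor <;> linarith

theorem FieldLip1.abs_sub_le {Ψ : ℝ → ℝ} (h : FieldLip1 Ψ) (x y : ℝ) : |Ψ x - Ψ y| ≤ |x - y| := by
  have h1 := h x y
  have h2 := h y x
  rw [abs_sub_comm y] at h2
  rw [abs_le]; constructor <;> linarith

theorem FieldLip.integrable {ι : Type*} [Fintype ι] {Ψ : (ι → ℝ) → ℝ} (h : FieldLip Ψ)
    {ν : Measure ℝ} [IsProbabilityMeasure ν] (hν : Integrable (fun x : ℝ => x) ν) :
    Integrable Ψ (Measure.pi fun _ : ι => ν) := by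
  refine Integrable.mono' ((integrable_const |Ψ 0|).add (integral_sum_eval (ι := ι) hν.abs).1)
    h.measurable.aestronglyMeasurable (Filter.Eventually.of_forall fun x => ?_)
  have := h.abs_sub_le x 0
  simp only [Pi.zero_apply, sub_zero] at this
  have h2 := abs_sub_abs_le_abs_sub (Ψ x) (Ψ 0)
  simp only [Real.norm_eq_abs, Pi.add_apply]
  linarith

theorem FieldLip1.integrable {Ψ : ℝ → ℝ} (h : FieldLip1 Ψ)
    {ν : Measure ℝ} [IsProbabilityMeasure ν] (hν : Integrable (fun x : ℝ => x) ν) :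
    Integrable Ψ ν := by
  refine Integrable.mono' ((integrable_const |Ψ 0|).add hν.abs)
    h.measurable.aestronglyMeasurable (Filter.Eventually.of_forall fun x => ?_)
  have := h.abs_sub_le x 0
  simp only [sub_zero] at this
  have h2 := abs_sub_abs_le_abs_sub (Ψ x) (Ψ 0)
  simp only [Real.norm_eq_abs, Pi.add_apply]
  linarith

/-- The clause law `μ` is `ε`-close to that of the model, up to the mean shift `cbar`. -/
structure ClauseCpl {p : ℕ} (μ : Measure (Inter p)) (M : Model p) (cbar ε : ℝ) : Prop where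
  many : ∀ (n : ℕ) (Φ : (Fin n → Inter p) → ℝ), ShiftMono Φ →
    |∫ θs, Φ θs ∂(Measure.pi fun _ : Fin n => μ) -
      ∑ c : Fin n → M.Θ, (∏ k, M.w (c k)) * Φ (fun k => M.θ (c k)) - n * cbar| ≤ n * ε
  one : ∀ Φ : Inter p → ℝ, ShiftMono1 Φ →
    |∫ θ, Φ θ ∂μ - ∑ c : M.Θ, M.w c * Φ (M.θ c) - cbar| ≤ ε

/-- The field law `ν` is `ε`-close to that of the model. -/
structure FieldCpl {p : ℕ} (ν : Measure ℝ) (M : Model p) (ε : ℝ) : Prop where
  many : ∀ (n : ℕ) (Ψ : (Fin n → ℝ) → ℝ), FieldLip Ψ →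
    |∫ hs, Ψ hs ∂(Measure.pi fun _ : Fin n => ν) -
      ∑ a : Fin n → M.H, (∏ k, M.wh (a k)) * Ψ (fun k => M.h (a k))| ≤ n * ε
  one : ∀ Ψ : ℝ → ℝ, FieldLip1 Ψ → |∫ h, Ψ h ∂ν - ∑ a : M.H, M.wh a * Ψ (M.h a)| ≤ ε

theorem clauseCpl_of {p : ℕ} (M : Model p) {Ω : Type*} [MeasurableSpace Ω] {P : Measure Ω}
    [IsProbabilityMeasure P] {Y : Ω → Inter p} (hY : Measurable Y) {g : Ω → M.Θ}
    (hg : FinVar P g M.w) {C D : Ω → ℝ} (hC : Integrable C P) (hD : Integrable D P)
    (h : ∀ ω s, |Y ω s - M.θ (g ω) s - C ω| ≤ D ω) {ε : ℝ} (hε : ∫ ω, D ω ∂P ≤ ε) :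
    ClauseCpl (P.map Y) M (∫ ω, C ω ∂P) ε := by
  refine ⟨fun n Φ hΦ => ?_, fun Φ hΦ => ?_⟩
  · have := couple_pi (ι := Fin n) hY hg M.θ hC hD hΦ.measurable fun ωs => by
      have h1 := hΦ (fun k => Y (ωs k)) (fun k => M.θ (g (ωs k))) (fun k => C (ωs k) + D (ωs k))
        fun k s => by linarith [(abs_le.1 (h (ωs k) s)).2]
      have h2 := hΦ (fun k => M.θ (g (ωs k))) (fun k => Y (ωs k)) (fun k => D (ωs k) - C (ωs k))
        fun k s => by linarith [(abs_le.1 (h (ωs k) s)).1]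
      rw [Finset.sum_add_distrib] at h1
      rw [Finset.sum_sub_distrib] at h2
      rw [abs_le]; constructor <;> linarith
    rw [Fintype.card_fin] at this
    exact this.trans (mul_le_mul_of_nonneg_left hε (Nat.cast_nonneg _))
  · have := couple hY hg M.θ hC hD hΦ.measurable fun ω => by
      have h1 := hΦ (Y ω) (M.θ (g ω)) (C ω + D ω) fun s => by linarith [(abs_le.1 (h ω s)).2]
      have h2 := hΦ (M.θ (g ω)) (Y ω) (D ω - C ω) fun s => by linarith [(abs_le.1 (h ω s)).1]
      rw [abs_le]; constructor <;> linarith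
    exact this.trans hε

theorem fieldCpl_of {p : ℕ} (M : Model p) {ν : Measure ℝ} [IsProbabilityMeasure ν]
    (hν : Integrable (fun x : ℝ => x) ν) {g : ℝ → M.H} (hg : FinVar ν g M.wh) {ε : ℝ}
    (hε : ∫ x, |x - M.h (g x)| ∂ν ≤ ε) : FieldCpl ν M ε := by
  have hD : Integrable (fun x => |x - M.h (g x)|) ν := (hν.sub (hg.integrable M.h)).abs
  refine ⟨fun n Ψ hΨ => ?_, fun Ψ hΨ => ?_⟩
  · have := couple_pi (ι := Fin n) (Y := id) measurable_id hg M.h (C := fun _ => 0)
      (integrable_const _) hD hΨ.measurable fun ωs => by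
      simpa using hΨ.abs_sub_le ωs (fun k => M.h (g (ωs k)))
    rw [Fintype.card_fin, Measure.map_id] at this
    simp only [integral_zero, mul_zero, sub_zero] at this
    exact this.trans (mul_le_mul_of_nonneg_left hε (Nat.cast_nonneg _))
  · have := couple (Y := id) measurable_id hg M.h (C := fun _ => 0)
      (integrable_const _) hD hΨ.measurable fun ω => by
      simpa using hΨ.abs_sub_le ω (M.h (g ω))
    rw [Measure.map_id] at this
    simp only [integral_zero, sub_zero] at this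
    exact this.trans hε

theorem sum_prod_weights {ι A : Type*} [Fintype ι] [DecidableEq ι] [Fintype A] {w : A → ℝ}
    (hw : ∑ a, w a = 1) : ∑ c : ι → A, ∏ k, w (c k) = 1 := by
  rw [← Fintype.piFinset_univ, ← Finset.prod_univ_sum (fun _ => (Finset.univ : Finset A))
    (fun _ b => w b)]
  simp only [hw, Finset.prod_const_one]

theorem w_nonneg {p : ℕ} (M : Model p) (c : M.Θ) : 0 ≤ M.w c :=
  mul_nonneg (M.wb_nonneg _) (Finset.prod_nonneg fun _ _ => M.wf_nonneg _)

theorem w_sum {p : ℕ} (M : Model p) : ∑ c, M.w c = 1 := by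
  unfold Model.w
  rw [Fintype.sum_prod_type]
  simp_rw [← Finset.mul_sum, sum_prod_weights M.wf_sum, mul_one]
  exact M.wb_sum

theorem abs_wsum_le {A : Type*} [Fintype A] {w : A → ℝ} (h0 : ∀ a, 0 ≤ w a) (h1 : ∑ a, w a = 1)
    {F : A → ℝ} {δ : ℝ} (h : ∀ a, |F a| ≤ δ) : |∑ a, w a * F a| ≤ δ := by
  refine le_trans (Finset.abs_sum_le_sum_abs _ _) ?_
  calc ∑ a, |w a * F a| ≤ ∑ a, w a * δ := Finset.sum_le_sum fun a _ => by
        rw [abs_mul, abs_of_nonneg (h0 a)]; exact mul_le_mul_of_nonneg_left (h a) (h0 a)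
    _ = δ := by rw [← Finset.sum_mul, h1, one_mul]

theorem ClauseCpl.two_level {p : ℕ} {μ : Measure (Inter p)} {M : Model p} {cbar ε : ℝ}
    (hc : ClauseCpl μ M cbar ε) {n : ℕ} {G G' : (Fin n → Inter p) → ℝ} (hG : ShiftMono G) {δ : ℝ}
    (h : ∀ θs, |G θs - G' θs| ≤ δ) :
    |∫ θs, G θs ∂(Measure.pi fun _ : Fin n => μ) -
      ∑ c : Fin n → M.Θ, (∏ k, M.w (c k)) * G' (fun k => M.θ (c k)) - n * cbar| ≤ n * ε + δ := by
  have h1 := hc.many n G hG
  have h2 := abs_wsum_le (w := fun c : Fin n → M.Θ => ∏ k, M.w (c k))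
    (fun c => Finset.prod_nonneg fun k _ => w_nonneg M _) (sum_prod_weights (w_sum M))
    (fun c => h (fun k => M.θ (c k)))
  simp only [mul_sub, Finset.sum_sub_distrib] at h2
  rw [abs_le] at h1 h2 ⊢
  constructor <;> linarith [h1.1, h1.2, h2.1, h2.2]

/-- A uniform bound on the interactions of a finite model. -/
theorem exists_theta_bound {p : ℕ} (M : Model p) : ∃ T : ℝ, ∀ c s, |M.θ c s| ≤ T :=
  ⟨∑ q : M.Θ × (Fin p → Bool), |M.θ q.1 q.2|, fun c s =>
    Finset.single_le_sum (f := fun q : M.Θ × (Fin p → Bool) => |M.θ q.1 q.2|)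
      (fun _ _ => abs_nonneg _) (Finset.mem_univ (c, s))⟩

theorem exists_h_bound {p : ℕ} (M : Model p) : ∃ T : ℝ, ∀ a, |M.h a| ≤ T :=
  ⟨∑ a, |M.h a|, fun a =>
    Finset.single_le_sum (f := fun a => |M.h a|) (fun _ _ => abs_nonneg _) (Finset.mem_univ a)⟩

/-- The index-averaged log partition function. -/
noncomputable def avgLP (N : ℕ) {p n : ℕ} (θs : Fin n → Inter p) (hs : Fin N → ℝ) : ℝ :=
  (Fintype.card (Fin n → Fin p → Fin N) : ℝ)⁻¹ *
    ∑ idx : Fin n → Fin p → Fin N, logPartition N θs idx hs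

theorem avgLP_le {N p n : ℕ} (hN : 0 < N) {θs θs' : Fin n → Inter p} (hs hs' : Fin N → ℝ)
    {t : Fin n → ℝ} (h : ∀ k s, θs k s ≤ θs' k s + t k) :
    avgLP N θs hs ≤ avgLP N θs' hs' + (∑ k, t k + ∑ i, |hs i - hs' i|) := by
  have : Nonempty (Fin N) := ⟨⟨0, hN⟩⟩
  have hc : (0 : ℝ) < Fintype.card (Fin n → Fin p → Fin N) := by
    exact_mod_cast Fintype.card_pos
  unfold avgLP
  have h1 : ∑ idx : Fin n → Fin p → Fin N, logPartition N θs idx hs ≤
      ∑ idx : Fin n → Fin p → Fin N,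
        (logPartition N θs' idx hs' + (∑ k, t k + ∑ i, |hs i - hs' i|)) :=
    Finset.sum_le_sum fun idx _ => logPartition_le idx hs hs' h
  rw [Finset.sum_add_distrib, Finset.sum_const, Finset.card_univ, nsmul_eq_mul] at h1
  refine le_trans (mul_le_mul_of_nonneg_left h1 (inv_nonneg.2 hc.le)) (le_of_eq ?_)
  field_simp

theorem avgLP_zero {N p n : ℕ} (hN : 0 < N) :
    avgLP N (p := p) (n := n) (fun _ _ => 0) (fun _ => 0) = Real.log (2 ^ N) := by
  have : Nonempty (Fin N) := ⟨⟨0, hN⟩⟩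
  have hc : (0 : ℝ) < Fintype.card (Fin n → Fin p → Fin N) := by
    exact_mod_cast Fintype.card_pos
  unfold avgLP logPartition
  simp only [Finset.sum_const_zero, zero_mul, add_zero, Real.exp_zero, Finset.sum_const,
    Finset.card_univ, nsmul_eq_mul, mul_one]
  rw [← mul_assoc, inv_mul_cancel₀ hc.ne', one_mul]
  simp

theorem pressure_est {p : ℕ} {α : ℝ} (hα : 0 < α) {μ : Measure (Inter p)} {ν : Measure ℝ}
    [IsProbabilityMeasure ν] (hν : Integrable (fun x : ℝ => x) ν) {M : Model p} {cbar ε : ℝ}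
    (hc : ClauseCpl μ M cbar ε) (hf : FieldCpl ν M ε) {N : ℕ} (hN : 0 < N) :
    |pressure p α μ ν N - (M.press α N + α * cbar)| ≤ (α + 1) * ε := by
  have hNr : (0 : ℝ) < N := by exact_mod_cast hN
  have hlip : ∀ {n : ℕ} (θs : Fin n → Inter p), FieldLip (fun hs : Fin N → ℝ => avgLP N θs hs) :=
    fun θs hs hs' => by simpa using avgLP_le hN hs hs' (θs := θs) (t := fun _ => 0) (by simp)
  obtain ⟨T, hT⟩ := exists_theta_bound M
  obtain ⟨H, hH⟩ := exists_h_bound M
  have key := poisson_est (l := α * N) (by positivity)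
    (G := fun n => ∫ θs, ∫ hs, avgLP N θs hs ∂(Measure.pi fun _ : Fin N => ν)
      ∂(Measure.pi fun _ : Fin n => μ))
    (G' := fun n => ∑ c : Fin n → M.Θ, (∏ k, M.w (c k)) * ∑ a : Fin N → M.H,
      (∏ i, M.wh (a i)) * avgLP N (fun k => M.θ (c k)) (fun i => M.h (a i)))
    (c := cbar) (ε := ε) (δ := N * ε) (A := |Real.log (2 ^ N)| + N * H) (B := T)
    (fun n => by
      refine hc.two_level (G' := fun θs => ∑ a : Fin N → M.H,
        (∏ i, M.wh (a i)) * avgLP N θs (fun i => M.h (a i))) ?_ fun θs => hf.many N _ (hlip θs)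
      intro θs θs' t ht
      have : ∑ k, t k = ∫ _hs, ∑ k, t k ∂(Measure.pi fun _ : Fin N => ν) := by simp
      rw [this, ← integral_add ((hlip θs').integrable hν) (integrable_const _)]
      refine integral_mono ((hlip θs).integrable hν)
        (((hlip θs').integrable hν).add (integrable_const _)) fun hs => ?_
      simpa using avgLP_le hN hs hs ht)
    (fun n => by
      refine abs_wsum_le (fun c => Finset.prod_nonneg fun k _ => w_nonneg M _)
        (sum_prod_weights (w_sum M)) fun c => ?_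
      refine abs_wsum_le (fun a => Finset.prod_nonneg fun k _ => M.wh_nonneg _)
        (sum_prod_weights M.wh_sum) fun a => ?_
      have h1 := avgLP_le hN (fun i => M.h (a i)) (fun _ => 0) (θs := fun k => M.θ (c k))
        (θs' := fun _ _ => 0) (t := fun _ => T) fun k s => by linarith [(abs_le.1 (hT (c k) s)).2]
      have h2 := avgLP_le hN (fun _ => 0) (fun i => M.h (a i)) (θs' := fun k => M.θ (c k))
        (θs := fun _ _ => 0) (t := fun _ => T) fun k s => by linarith [(abs_le.1 (hT (c k) s)).1]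
      rw [avgLP_zero hN] at h1 h2
      have h3 : ∑ i, |M.h (a i)| ≤ N * H := by
        have := Finset.sum_le_sum (s := Finset.univ) fun i _ => hH (a i)
        simpa using this
      simp only [sub_zero, zero_sub, abs_neg, Finset.sum_const, Finset.card_univ, Fintype.card_fin,
        nsmul_eq_mul] at h1 h2
      have h4 := le_abs_self (Real.log (2 ^ N))
      have h5 := neg_abs_le (Real.log (2 ^ N))
      rw [abs_le]; constructor <;> linarith)
  unfold pressure Model.press
  unfold avgLP at key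
  set S1 := ∑' n : ℕ, poissonWeight (α * N) n * ∫ θs, ∫ hs,
    ((Fintype.card (Fin n → Fin p → Fin N) : ℝ)⁻¹ *
        ∑ idx : Fin n → Fin p → Fin N, logPartition N θs idx hs)
      ∂(Measure.pi fun _ : Fin N => ν) ∂(Measure.pi fun _ : Fin n => μ)
  set S2 := ∑' n : ℕ, poissonWeight (α * N) n *
    ∑ c : Fin n → M.Θ, (∏ k, M.w (c k)) * ∑ hs : Fin N → M.H, (∏ i, M.wh (hs i)) *
      ((Fintype.card (Fin n → Fin p → Fin N) : ℝ)⁻¹ *
        ∑ idx : Fin n → Fin p → Fin N,
          logPartition N (fun k => M.θ (c k)) idx (fun i => M.h (hs i)))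
  have e : 1 / (N : ℝ) * S1 - (1 / (N : ℝ) * S2 + α * cbar) =
      1 / (N : ℝ) * (S1 - S2 - α * N * cbar) := by field_simp; ring
  rw [e, abs_mul, abs_of_pos (by positivity : 0 < 1 / (N : ℝ))]
  refine le_trans (mul_le_mul_of_nonneg_left key (by positivity)) (le_of_eq ?_)
  field_simp

theorem abs_le_sum_abs_inter {p : ℕ} (θ : Inter p) (s : Fin p → Bool) : |θ s| ≤ ∑ s', |θ s'| :=
  Finset.single_le_sum (f := fun s' => |θ s'|) (fun _ _ => abs_nonneg _) (Finset.mem_univ s)

theorem trial_est {p : ℕ} (hp : 1 ≤ p) {α : ℝ} (hα : 0 < α) {μ : Measure (Inter p)}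
    {ν : Measure ℝ}
    [IsProbabilityMeasure ν] (hν : Integrable (fun x : ℝ => x) ν) {M : Model p} {cbar ε : ℝ}
    (hc : ClauseCpl μ M cbar ε) (hf : FieldCpl ν M ε) {r : ℕ} {m : Fin r → ℝ}
    {X : (Fin (r + 1) → unitInterval) → ℝ} (hm : AdmissibleExponents m) (hX : Measurable X) :
    |trialFunctional p α μ ν r m X - (M.gen α (valX m X) + α * cbar)| ≤
      (α * p + 1 + α * (p - 1)) * ε := by
  have hm0 : ∀ d, 0 < m d := fun d => (hm.2 d).1
  have hpr : (1 : ℝ) ≤ p := by exact_mod_cast hp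
  obtain ⟨T, hT⟩ := exists_theta_bound M
  obtain ⟨H, hH⟩ := exists_h_bound M
  -- site value
  set SV : ∀ k : ℕ, (Fin k → Inter p) → ℝ → ℝ := fun k θs h =>
    valX m X (Fin k × Fin (p - 1)) (fun x => siteTerm h θs (fun j ℓ => x (j, ℓ))) with hSV
  have hSVle : ∀ (k : ℕ) (θs θs' : Fin k → Inter p) (h h' : ℝ) (t : Fin k → ℝ),
      (∀ j s, θs j s ≤ θs' j s + t j) → SV k θs h ≤ SV k θs' h' + (∑ j, t j + |h - h'|) := by
    intro k θs θs' h h' t ht
    rw [add_comm]
    exact valX_le hm0 hX (good_siteTerm h fun j s => abs_le_sum_abs_inter (θs j) s)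
      (good_siteTerm h' fun j s => abs_le_sum_abs_inter (θs' j) s) fun x => siteTerm_le h h' ht _
  have hlip : ∀ (k : ℕ) (θs : Fin k → Inter p), FieldLip1 (SV k θs) := fun k θs h h' => by
    simpa using hSVle k θs θs h h' (fun _ => 0) (by simp)
  have key := poisson_est (l := α * p) (by positivity)
    (G := fun k => ∫ θs, ∫ h, SV k θs h ∂ν ∂(Measure.pi fun _ : Fin k => μ))
    (G' := fun k => ∑ c : Fin k → M.Θ, (∏ j, M.w (c j)) * ∑ a : M.H,
      M.wh a * SV k (fun j => M.θ (c j)) (M.h a))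
    (c := cbar) (ε := ε) (δ := ε) (A := H) (B := T)
    (fun k => by
      refine hc.two_level (G' := fun θs => ∑ a : M.H, M.wh a * SV k θs (M.h a)) ?_
        fun θs => hf.one _ (hlip k θs)
      intro θs θs' t ht
      have : ∑ k, t k = ∫ _h, ∑ k, t k ∂ν := by simp
      rw [this, ← integral_add ((hlip k θs').integrable hν) (integrable_const _)]
      refine integral_mono ((hlip k θs).integrable hν)
        (((hlip k θs').integrable hν).add (integrable_const _)) fun h => ?_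
      simpa using hSVle k θs θs' h h t ht)
    (fun k => by
      refine abs_wsum_le (fun c => Finset.prod_nonneg fun k _ => w_nonneg M _)
        (sum_prod_weights (w_sum M)) fun c => ?_
      refine abs_wsum_le M.wh_nonneg M.wh_sum fun a => ?_
      have h1 := abs_valX_le hm0 hX
        (good_siteTerm (M.h a) (θs := fun j => M.θ (c j)) (A := fun _ => T) fun j s => hT _ s)
      simp only [Finset.sum_const, Finset.card_univ, Fintype.card_fin, nsmul_eq_mul] at h1
      linarith [hH a])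
  have key2 := hc.one (fun θ => valX m X (Fin p) (fun x => edgeTerm θ x)) fun θ θ' t ht => by
    rw [add_comm]
    exact valX_le hm0 hX (good_edgeTerm fun s => abs_le_sum_abs_inter θ s)
      (good_edgeTerm fun s => abs_le_sum_abs_inter θ' s) fun x => edgeTerm_le ht x
  have e1 : trialFunctional p α μ ν r m X = Real.log 2 +
      (∑' k : ℕ, poissonWeight (α * p) k *
        ∫ θs, ∫ h, SV k θs h ∂ν ∂(Measure.pi fun _ : Fin k => μ)) -
      α * (p - 1 : ℝ) * ∫ θ, valX m X (Fin p) (fun x => edgeTerm θ x) ∂μ := rfl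
  have e2 : M.gen α (valX m X) = Real.log 2 +
      (∑' k : ℕ, poissonWeight (α * p) k * ∑ c : Fin k → M.Θ, (∏ j, M.w (c j)) * ∑ a : M.H,
        M.wh a * SV k (fun j => M.θ (c j)) (M.h a)) -
      α * (p - 1 : ℝ) * ∑ c : M.Θ, M.w c * valX m X (Fin p) (fun x => edgeTerm (M.θ c) x) := rfl
  rw [e1, e2]
  have hq : 0 ≤ α * (p - 1 : ℝ) := mul_nonneg hα.le (by linarith)
  have key3 := mul_le_mul_of_nonneg_left key2 hq
  rw [← abs_of_nonneg hq, ← abs_mul, abs_of_nonneg hq] at key3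
  rw [abs_le] at key key3 ⊢
  constructor <;> nlinarith [key.1, key.2, key3.1, key3.2]

end Crest.Agent.R141.Red
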