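import Crest.Agent.R141.Defs

/-!
Power means: monotonicity, homogeneity, measurability; comparison lemmas for the partition
function, the site term and the edge term.
-/

set_option autoImplicit false

namespace Crest.Agent.R141.Red

open Crest.ProbabilityR.Diluted Finset MeasureTheory
open scoped BigOperators

/-- Measurable and between `exp (-A)` and `exp A`. -/
structure Good {Ω : Type*} [MeasurableSpace Ω] (A : ℝ) (W : Ω → ℝ) : Prop where
  meas : Measurable W
  lo : ∀ u, Real.exp (-A) ≤ W u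
  hi : ∀ u, W u ≤ Real.exp A

theorem Good.pos {Ω : Type*} [MeasurableSpace Ω] {A : ℝ} {W : Ω → ℝ} (h : Good A W) (u : Ω) :
    0 < W u := lt_of_lt_of_le (Real.exp_pos _) (h.lo u)

theorem good_one {Ω : Type*} [MeasurableSpace Ω] : Good (0 : ℝ) (fun _ : Ω => (1 : ℝ)) :=
  ⟨measurable_const, fun _ => by simp, fun _ => by simp⟩

theorem Good.comp {Ω Ω' : Type*} [MeasurableSpace Ω] [MeasurableSpace Ω'] {A : ℝ} {W : Ω → ℝ}
    (h : Good A W) {φ : Ω' → Ω} (hφ : Measurable φ) : Good A (fun u => W (φ u)) :=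
  ⟨h.meas.comp hφ, fun _ => h.lo _, fun _ => h.hi _⟩

theorem Good.abs_log_le {Ω : Type*} [MeasurableSpace Ω] {A : ℝ} {W : Ω → ℝ} (h : Good A W)
    (u : Ω) : |Real.log (W u)| ≤ A := by
  rw [abs_le]
  constructor
  · have := Real.log_le_log (Real.exp_pos _) (h.lo u)
    rwa [Real.log_exp] at this
  · have := Real.log_le_log (h.pos u) (h.hi u)
    rwa [Real.log_exp] at this

theorem Good.integrable_log {Ω : Type*} [MeasurableSpace Ω] {A : ℝ} {W : Ω → ℝ} (h : Good A W)
    (P : Measure Ω) [IsFiniteMeasure P] : Integrable (fun u => Real.log (W u)) P :=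
  Integrable.of_bound (h.meas.log).aestronglyMeasurable A
    (Filter.Eventually.of_forall fun u => by simpa using h.abs_log_le u)

theorem Good.integrable_rpow {Ω : Type*} [MeasurableSpace Ω] {A : ℝ} {W : Ω → ℝ} (h : Good A W)
    (P : Measure Ω) [IsFiniteMeasure P] {m : ℝ} (hm : 0 < m) :
    Integrable (fun u => W u ^ m) P :=
  Integrable.of_bound (h.meas.pow_const m).aestronglyMeasurable (Real.exp A ^ m)
    (Filter.Eventually.of_forall fun u => by
      rw [Real.norm_eq_abs, abs_of_nonneg (Real.rpow_nonneg (h.pos u).le _)]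
      exact Real.rpow_le_rpow (h.pos u).le (h.hi u) hm.le)

section PM

variable {L : Type*} [Fintype L] {r : ℕ}

omit [Fintype L] in
theorem measurable_resample (lvl : Fin (r + 1)) :
    Measurable (fun q : (L → Fin (r + 1) → unitInterval) × (L → unitInterval) =>
      (fun ω j => if j = lvl then q.2 ω else q.1 ω j : L → Fin (r + 1) → unitInterval)) := by
  refine measurable_pi_lambda _ fun ω => measurable_pi_lambda _ fun j => ?_
  by_cases h : j = lvl
  · simp only [h, if_true]; fun_prop
  · simp only [h, if_false]; fun_prop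

theorem pmStep_le {A A' : ℝ} {W W' : (L → Fin (r + 1) → unitInterval) → ℝ} (hW : Good A W)
    (hW' : Good A' W') {m t : ℝ} (hm : 0 < m) (h : ∀ u, W u ≤ Real.exp t * W' u)
    (lvl : Fin (r + 1)) (u : L → Fin (r + 1) → unitInterval) :
    pmStep m lvl W u ≤ Real.exp t * pmStep m lvl W' u := by
  unfold pmStep
  have hφ : Measurable (fun v : L → unitInterval =>
      (fun ω j => if j = lvl then v ω else u ω j : L → Fin (r + 1) → unitInterval)) :=
    (measurable_resample lvl).comp (measurable_const.prodMk measurable_id)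
  have h1 := hW.comp hφ
  have h2 := hW'.comp hφ
  set P : Measure (L → unitInterval) := Measure.pi fun _ : L => (volume : Measure unitInterval)
  have hI : ∫ v, W (fun ω j => if j = lvl then v ω else u ω j) ^ m ∂P ≤
      Real.exp t ^ m * ∫ v, W' (fun ω j => if j = lvl then v ω else u ω j) ^ m ∂P := by
    rw [← integral_const_mul]
    refine integral_mono (h1.integrable_rpow P hm) ((h2.integrable_rpow P hm).const_mul _) ?_
    intro v
    dsimp only
    rw [← Real.mul_rpow (Real.exp_pos _).le (hW'.pos _).le]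
    exact Real.rpow_le_rpow (hW.pos _).le (h _) hm.le
  have h0 : 0 ≤ ∫ v, W (fun ω j => if j = lvl then v ω else u ω j) ^ m ∂P :=
    integral_nonneg fun v => Real.rpow_nonneg (hW.pos _).le _
  have h0' : 0 ≤ ∫ v, W' (fun ω j => if j = lvl then v ω else u ω j) ^ m ∂P :=
    integral_nonneg fun v => Real.rpow_nonneg (hW'.pos _).le _
  refine le_trans (Real.rpow_le_rpow h0 hI (by positivity)) (le_of_eq ?_)
  rw [Real.mul_rpow (Real.rpow_nonneg (Real.exp_pos _).le _) h0', ← Real.rpow_mul (Real.exp_pos _).le,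
    mul_one_div_cancel hm.ne', Real.rpow_one]

theorem pmStep_one (m : ℝ) (lvl : Fin (r + 1)) (u : L → Fin (r + 1) → unitInterval) :
    pmStep m lvl (fun _ : L → Fin (r + 1) → unitInterval => (1 : ℝ)) u = 1 := by
  simp [pmStep]

theorem Good.pmStep {A : ℝ} {W : (L → Fin (r + 1) → unitInterval) → ℝ} (hW : Good A W) {m : ℝ}
    (hm : 0 < m) (lvl : Fin (r + 1)) : Good A (pmStep m lvl W) := by
  refine ⟨?_, fun u => ?_, fun u => ?_⟩
  · unfold Crest.ProbabilityR.Diluted.pmStep
    refine Measurable.pow_const ?_ _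
    have h1 : Measurable (fun q : (L → Fin (r + 1) → unitInterval) × (L → unitInterval) =>
        W (fun ω j => if j = lvl then q.2 ω else q.1 ω j) ^ m) :=
      (hW.meas.comp (measurable_resample lvl)).pow_const m
    exact (h1.stronglyMeasurable.integral_prod_right').measurable
  · have := pmStep_le (t := A) good_one hW hm (fun u => by
      have h1 := hW.lo u
      have h2 : Real.exp A * Real.exp (-A) = 1 := by rw [← Real.exp_add]; simp
      nlinarith [Real.exp_pos A]) lvl u
    rw [pmStep_one] at this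
    have h2 : Real.exp (-A) * Real.exp A = 1 := by rw [← Real.exp_add]; simp
    calc Real.exp (-A) = Real.exp (-A) * 1 := by ring
      _ ≤ Real.exp (-A) * (Real.exp A * Crest.ProbabilityR.Diluted.pmStep m lvl W u) :=
        mul_le_mul_of_nonneg_left this (Real.exp_pos _).le
      _ = _ := by rw [← mul_assoc, h2, one_mul]
  · have := pmStep_le (t := A) hW good_one hm (fun u => by simpa using hW.hi u) lvl u
    rwa [pmStep_one, mul_one] at this

theorem Good.foldr {A : ℝ} {W : (L → Fin (r + 1) → unitInterval) → ℝ} (hW : Good A W)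
    {m : Fin r → ℝ} (hm : ∀ d, 0 < m d) (l : List (Fin r)) :
    Good A (l.foldr (fun d acc => Crest.ProbabilityR.Diluted.pmStep (m d) d.succ acc) W) := by
  induction l with
  | nil => exact hW
  | cons d l ih => exact ih.pmStep (hm d) _

theorem foldr_le {A A' : ℝ} {W W' : (L → Fin (r + 1) → unitInterval) → ℝ} (hW : Good A W)
    (hW' : Good A' W') {m : Fin r → ℝ} (hm : ∀ d, 0 < m d) {t : ℝ}
    (h : ∀ u, W u ≤ Real.exp t * W' u) (l : List (Fin r)) (u : L → Fin (r + 1) → unitInterval) :
    l.foldr (fun d acc => pmStep (m d) d.succ acc) W u ≤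
      Real.exp t * l.foldr (fun d acc => pmStep (m d) d.succ acc) W' u := by
  induction l generalizing u with
  | nil => exact h u
  | cons d l ih => exact pmStep_le (hW.foldr hm l) (hW'.foldr hm l) (hm d) ih _ u

theorem Good.powerMeans {A : ℝ} {W : (L → Fin (r + 1) → unitInterval) → ℝ} (hW : Good A W)
    {m : Fin r → ℝ} (hm : ∀ d, 0 < m d) : Good A (powerMeans m W) :=
  hW.foldr hm _

theorem powerMeans_le {A A' : ℝ} {W W' : (L → Fin (r + 1) → unitInterval) → ℝ} (hW : Good A W)
    (hW' : Good A' W') {m : Fin r → ℝ} (hm : ∀ d, 0 < m d) {t : ℝ}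
    (h : ∀ u, W u ≤ Real.exp t * W' u) (u : L → Fin (r + 1) → unitInterval) :
    powerMeans m W u ≤ Real.exp t * powerMeans m W' u :=
  foldr_le hW hW' hm h _ u

instance uniformArrays_prob (L : Type*) [Fintype L] (r : ℕ) :
    IsProbabilityMeasure (uniformArrays L r) := by
  unfold uniformArrays; infer_instance

end PM

theorem valX_le {r : ℕ} {m : Fin r → ℝ} (hm : ∀ d, 0 < m d)
    {X : (Fin (r + 1) → unitInterval) → ℝ} (hX : Measurable X) {L : Type} [Fintype L]
    [DecidableEq L] {A A' t : ℝ} {W W' : (L → ℝ) → ℝ} (hW : Good A W) (hW' : Good A' W')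
    (h : ∀ x, W x ≤ Real.exp t * W' x) : valX m X L W ≤ t + valX m X L W' := by
  have hφ : Measurable (fun u' : L → Fin (r + 1) → unitInterval => fun l => X (u' l)) :=
    measurable_pi_lambda _ fun l => hX.comp (measurable_pi_apply l)
  have h1 := hW.comp hφ
  have h2 := hW'.comp hφ
  have h3 := h1.powerMeans hm
  have h4 := h2.powerMeans hm
  unfold valX
  have : t = ∫ _u, t ∂(uniformArrays L r) := by simp
  rw [this, ← integral_add (integrable_const _) (h4.integrable_log _)]
  refine integral_mono (h3.integrable_log _) ((integrable_const _).add (h4.integrable_log _)) ?_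
  intro u
  have h5 := powerMeans_le h1 h2 hm (fun u => h _) u
  have h6 := Real.log_le_log (h3.pos u) h5
  rwa [Real.log_mul (Real.exp_pos _).ne' (h4.pos u).ne', Real.log_exp] at h6

theorem abs_valX_le {r : ℕ} {m : Fin r → ℝ} (hm : ∀ d, 0 < m d)
    {X : (Fin (r + 1) → unitInterval) → ℝ} (hX : Measurable X) {L : Type} [Fintype L]
    [DecidableEq L] {A : ℝ} {W : (L → ℝ) → ℝ} (hW : Good A W) : |valX m X L W| ≤ A := by
  have hφ : Measurable (fun u' : L → Fin (r + 1) → unitInterval => fun l => X (u' l)) :=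
    measurable_pi_lambda _ fun l => hX.comp (measurable_pi_apply l)
  have h3 := (hW.comp hφ).powerMeans hm
  unfold valX
  have := norm_integral_le_of_norm_le_const (μ := uniformArrays L r) (C := A)
    (f := fun u => Real.log (powerMeans m
      (fun u' : L → Fin (r + 1) → unitInterval => W (fun l => X (u' l))) u))
    (Filter.Eventually.of_forall fun u => by simpa using h3.abs_log_le u)
  simpa using this

/-! ### Comparison lemmas -/

theorem log_sum_le {ι : Type*} [Fintype ι] [Nonempty ι] {F G : ι → ℝ} {t : ℝ}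
    (hF : ∀ i, 0 < F i) (h : ∀ i, F i ≤ Real.exp t * G i) :
    Real.log (∑ i, F i) ≤ t + Real.log (∑ i, G i) := by
  have hG : ∀ i, 0 < G i := fun i => pos_of_mul_pos_left' (hF i) (h i)
  have h1 : 0 < ∑ i, F i := Finset.sum_pos (fun i _ => hF i) Finset.univ_nonempty
  have h2 : 0 < ∑ i, G i := Finset.sum_pos (fun i _ => hG i) Finset.univ_nonempty
  have h3 : ∑ i, F i ≤ Real.exp t * ∑ i, G i := by
    rw [Finset.mul_sum]; exact Finset.sum_le_sum fun i _ => h i
  have h4 := Real.log_le_log h1 h3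
  rwa [Real.log_mul (Real.exp_pos _).ne' h2.ne', Real.log_exp] at h4
where
  pos_of_mul_pos_left' {a b c : ℝ} (ha : 0 < a) (h : a ≤ Real.exp c * b) : 0 < b := by
    by_contra hb
    push Not at hb
    nlinarith [Real.exp_pos c]

theorem abs_spinVal (b : Bool) : |spinVal b| = 1 := by cases b <;> simp [spinVal]

theorem mul_spin_le (h h' : ℝ) (b : Bool) : h * spinVal b ≤ h' * spinVal b + |h - h'| := by
  have h1 : (h - h') * spinVal b ≤ |h - h'| := by
    refine le_trans (le_abs_self _) ?_
    rw [abs_mul, abs_spinVal, mul_one]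
  linarith

theorem logPartition_le {N p n : ℕ} {θs θs' : Fin n → Inter p} (idx : Fin n → Fin p → Fin N)
    (hs hs' : Fin N → ℝ) {t : Fin n → ℝ} (h : ∀ k s, θs k s ≤ θs' k s + t k) :
    logPartition N θs idx hs ≤
      logPartition N θs' idx hs' + (∑ k, t k + ∑ i, |hs i - hs' i|) := by
  unfold logPartition
  rw [add_comm]
  refine log_sum_le (fun _ => Real.exp_pos _) fun σ => ?_
  rw [← Real.exp_add]
  refine Real.exp_le_exp.2 ?_
  have h1 : ∑ k, θs k (fun ℓ => σ (idx k ℓ)) ≤ ∑ k, θs' k (fun ℓ => σ (idx k ℓ)) + ∑ k, t k := by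
    rw [← Finset.sum_add_distrib]; exact Finset.sum_le_sum fun k _ => h k _
  have h2 : ∑ i, hs i * spinVal (σ i) ≤ ∑ i, hs' i * spinVal (σ i) + ∑ i, |hs i - hs' i| := by
    rw [← Finset.sum_add_distrib]; exact Finset.sum_le_sum fun i _ => mul_spin_le _ _ _
  linarith

theorem tilt_pos (x : ℝ) (s : Bool) : 0 < tilt x s := by
  unfold tilt
  have := Real.cosh_pos x
  positivity

theorem tilt_sum (x : ℝ) : ∑ s : Bool, tilt x s = 1 := by
  have h := Real.cosh_pos x
  simp only [Fintype.sum_bool, tilt, spinVal]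
  rw [← add_div, div_eq_one_iff_eq (by positivity), Real.cosh_eq]
  simp only [if_true, mul_one, Bool.false_eq_true, if_false, mul_neg]
  ring

theorem prod_tilt_sum {ι : Type*} [Fintype ι] [DecidableEq ι] (x : ι → ℝ) :
    ∑ s : ι → Bool, ∏ ℓ, tilt (x ℓ) (s ℓ) = 1 := by
  rw [← Fintype.piFinset_univ, ← Finset.prod_univ_sum (fun _ => (Finset.univ : Finset Bool))
    (fun ℓ b => tilt (x ℓ) b)]
  simp only [tilt_sum, Finset.prod_const_one]

theorem continuous_tilt (s : Bool) : Continuous fun x => tilt x s := by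
  unfold tilt
  refine Continuous.div (by fun_prop) (by fun_prop) fun x => ?_
  have := Real.cosh_pos x
  positivity

theorem edgeTerm_le {p : ℕ} {θ θ' : Inter p} {t : ℝ} (h : ∀ s, θ s ≤ θ' s + t) (x : Fin p → ℝ) :
    edgeTerm θ x ≤ Real.exp t * edgeTerm θ' x := by
  unfold edgeTerm
  rw [Finset.mul_sum]
  refine Finset.sum_le_sum fun s _ => ?_
  rw [← mul_assoc, ← Real.exp_add]
  refine mul_le_mul_of_nonneg_right (Real.exp_le_exp.2 (by linarith [h s])) ?_
  exact Finset.prod_nonneg fun ℓ _ => (tilt_pos _ _).le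

theorem edgeTerm_zero {p : ℕ} (x : Fin p → ℝ) : edgeTerm (fun _ => 0) x = 1 := by
  simp [edgeTerm, prod_tilt_sum]

theorem measurable_edgeTerm {p : ℕ} (θ : Inter p) : Measurable fun x => edgeTerm θ x := by
  unfold edgeTerm
  refine Finset.measurable_sum _ fun s _ => Measurable.const_mul ?_ _
  exact Finset.measurable_prod _ fun ℓ _ =>
    (continuous_tilt _).measurable.comp (measurable_pi_apply ℓ)

theorem good_of_le {Ω : Type*} [MeasurableSpace Ω] {A : ℝ} {W : Ω → ℝ} (hm : Measurable W)
    (h1 : ∀ u, W u ≤ Real.exp A * 1) (h2 : ∀ u, 1 ≤ Real.exp A * W u) : Good A W := by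
  refine ⟨hm, fun u => ?_, fun u => by simpa using h1 u⟩
  have h3 : Real.exp (-A) * Real.exp A = 1 := by rw [← Real.exp_add]; simp
  calc Real.exp (-A) = Real.exp (-A) * 1 := by ring
    _ ≤ Real.exp (-A) * (Real.exp A * W u) := mul_le_mul_of_nonneg_left (h2 u) (Real.exp_pos _).le
    _ = _ := by rw [← mul_assoc, h3, one_mul]

theorem good_edgeTerm {p : ℕ} {θ : Inter p} {A : ℝ} (h : ∀ s, |θ s| ≤ A) :
    Good A (fun x => edgeTerm θ x) := by
  refine good_of_le (measurable_edgeTerm θ) (fun x => ?_) (fun x => ?_)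
  · rw [← edgeTerm_zero x]
    exact edgeTerm_le (fun s => by linarith [(abs_le.1 (h s)).2]) x
  · rw [← edgeTerm_zero x]
    exact edgeTerm_le (fun s => by linarith [(abs_le.1 (h s)).1]) x

theorem siteMessage_le {p : ℕ} {θ θ' : Inter p} {t : ℝ} (h : ∀ s, θ s ≤ θ' s + t)
    (x : Fin (p - 1) → ℝ) (ε : Bool) : siteMessage θ x ε ≤ t + siteMessage θ' x ε := by
  unfold siteMessage
  refine log_sum_le (fun s' => ?_) fun s' => ?_
  · exact mul_pos (Real.exp_pos _) (Finset.prod_pos fun ℓ _ => tilt_pos _ _)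
  · rw [← mul_assoc, ← Real.exp_add]
    refine mul_le_mul_of_nonneg_right (Real.exp_le_exp.2 ?_) ?_
    · rw [add_comm]; exact h _
    · exact Finset.prod_nonneg fun ℓ _ => (tilt_pos _ _).le

theorem siteMessage_zero {p : ℕ} (x : Fin (p - 1) → ℝ) (ε : Bool) :
    siteMessage (p := p) (fun _ => 0) x ε = 0 := by
  simp [siteMessage, prod_tilt_sum]

theorem siteTerm_le {p k : ℕ} (h h' : ℝ) {θs θs' : Fin k → Inter p} {t : Fin k → ℝ}
    (ht : ∀ j s, θs j s ≤ θs' j s + t j) (x : Fin k → Fin (p - 1) → ℝ) :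
    siteTerm h θs x ≤ Real.exp (∑ j, t j + |h - h'|) * siteTerm h' θs' x := by
  unfold siteTerm
  rw [mul_left_comm]
  refine mul_le_mul_of_nonneg_left ?_ (by norm_num)
  rw [Finset.mul_sum]
  refine Finset.sum_le_sum fun ε _ => ?_
  rw [← Real.exp_add]
  refine Real.exp_le_exp.2 ?_
  have h1 : ∑ j, siteMessage (θs j) (x j) ε ≤ ∑ j, t j + ∑ j, siteMessage (θs' j) (x j) ε := by
    rw [← Finset.sum_add_distrib]
    exact Finset.sum_le_sum fun j _ => siteMessage_le (ht j) _ _
  linarith [mul_spin_le h h' ε]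

theorem siteTerm_zero {p k : ℕ} (x : Fin k → Fin (p - 1) → ℝ) :
    siteTerm (p := p) 0 (fun _ _ => 0) x = 1 := by
  simp [siteTerm, siteMessage_zero]

theorem measurable_siteTerm {p k : ℕ} (h : ℝ) (θs : Fin k → Inter p) :
    Measurable fun x : Fin k × Fin (p - 1) → ℝ => siteTerm h θs (fun j ℓ => x (j, ℓ)) := by
  unfold siteTerm siteMessage
  refine Measurable.const_mul (Finset.measurable_sum _ fun ε _ => ?_) _
  refine Measurable.exp (Measurable.const_add (Finset.measurable_sum _ fun j _ => ?_) _)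
  refine Measurable.log (Finset.measurable_sum _ fun s _ => Measurable.const_mul ?_ _)
  exact Finset.measurable_prod _ fun ℓ _ =>
    (continuous_tilt _).measurable.comp (measurable_pi_apply (j, ℓ))

theorem good_siteTerm {p k : ℕ} (h : ℝ) {θs : Fin k → Inter p} {A : Fin k → ℝ}
    (hA : ∀ j s, |θs j s| ≤ A j) :
    Good (∑ j, A j + |h|)
      (fun x : Fin k × Fin (p - 1) → ℝ => siteTerm h θs (fun j ℓ => x (j, ℓ))) := by
  refine good_of_le (measurable_siteTerm h θs) (fun x => ?_) (fun x => ?_)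
  · have := siteTerm_le h 0 (θs := θs) (θs' := fun _ _ => 0) (t := A)
      (fun j s => by linarith [(abs_le.1 (hA j s)).2]) (fun j ℓ => x (j, ℓ))
    rwa [siteTerm_zero, sub_zero] at this
  · have := siteTerm_le 0 h (θs := fun _ _ => 0) (θs' := θs) (t := A)
      (fun j s => by linarith [(abs_le.1 (hA j s)).1]) (fun j ℓ => x (j, ℓ))
    rwa [siteTerm_zero, zero_sub, abs_neg] at this

end Crest.Agent.R141.Red
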