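import Crest.Agent.R141.Up5

/-! Part U: the interpolation upper bound for the finite model. -/

set_option autoImplicit false

namespace Crest.Agent.R141.Up

open Crest.ProbabilityR.Diluted Finset
open scoped BigOperators

variable {q : ℕ} (M : Model (q + 1)) (T : FT) {r : ℕ} (m : Fin r → ℝ) {N : ℕ}

/-- Field weight. -/
noncomputable def yN (hs : Fin N → ℝ) (σ : Fin N → Bool) : ℝ :=
  Real.exp (∑ i, hs i * spinVal (σ i))

/-- The interpolating functional. -/
noncomputable def Φ (hs : Fin N → ℝ) : ∀ n : ℕ, (Fin n → Tm M N) → ℝ :=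
  PF T m (yN hs) (fun δ σ x => 1 - Wf M δ σ x)

/-- Law of clause/edge terms. -/
noncomputable def w1 (a : Bool × D0 M N) : ℝ :=
  (if a.1 then ((q + 1 : ℕ) : ℝ)⁻¹ else 1 - ((q + 1 : ℕ) : ℝ)⁻¹) * w0 M N a.2

/-- Clause/edge terms. -/
def π1 (a : Bool × D0 M N) : Tm M N := (fun _ => a.1, a.2)

/-- Site terms. -/
def π2 (a : D0 M N) : Tm M N := (fun j => decide (j = Fin.last q), a)

/-- The clause part. -/
noncomputable def Ψc (hs : Fin N → ℝ) : ∀ n : ℕ, (Fin n → Bool × D0 M N) → ℝ :=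
  PF T m (yN hs) (fun a σ x => if a.1 then 1 - Wf M (fun _ => true, a.2) σ x else 1)

/-- The edge part. -/
noncomputable def φe (a : Bool × D0 M N) : ℝ :=
  if a.1 then 0 else T.val m (Fin (q + 1)) (edgeTerm (M.θ a.2.1))

/-- The part at site `i`. -/
noncomputable def Ψs (h : ℝ) (i : Fin N) : ∀ n : ℕ, (Fin n → M.Θ × Fin N) → ℝ :=
  PF T m (fun ε : Bool => Real.exp (h * spinVal ε)) (fun a ε x =>
    if a.2 = i then 1 - Wf M (π2 M (a.1, fun _ => i)) (fun _ => ε) x else 1)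

/-- Clause sequence of the pressure. -/
noncomputable def ac (hs : Fin N → ℝ) (n : ℕ) : ℝ :=
  ∑ c : Fin n → M.Θ, (∏ k, M.w (c k)) *
    ((Fintype.card (Fin n → Fin (q + 1) → Fin N) : ℝ)⁻¹ *
      ∑ idx : Fin n → Fin (q + 1) → Fin N, logPartition N (fun k => M.θ (c k)) idx hs)

/-- Site sequence of the functional. -/
noncomputable def sv (h : ℝ) (k : ℕ) : ℝ :=
  ∑ c : Fin k → M.Θ, (∏ j, M.w (c j)) * T.val m (Fin k × Fin (q + 1 - 1))
    (fun x => siteTerm h (fun j => M.θ (c j)) (fun j ℓ => x (j, ℓ)))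

/-- Edge term of the functional. -/
noncomputable def ev : ℝ :=
  ∑ c : M.Θ, M.w c * T.val m (Fin (q + 1)) (fun x => edgeTerm (M.θ c) x)

variable {m}

theorem yN_pos (hs : Fin N → ℝ) (σ : Fin N → Bool) : 0 < yN hs σ := Real.exp_pos _

theorem sum_w1 (φ : Bool × D0 M N → ℝ) : ∑ a, w1 M a * φ a =
    ((q + 1 : ℕ) : ℝ)⁻¹ * ∑ a, w0 M N a * φ (true, a) +
      (1 - ((q + 1 : ℕ) : ℝ)⁻¹) * ∑ a, w0 M N a * φ (false, a) := by
  rw [Fintype.sum_prod_type, Fintype.sum_bool]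
  simp only [w1, if_true, Bool.false_eq_true, if_false, mul_assoc, ← mul_sum]

theorem w1_nonneg (a : Bool × D0 M N) : 0 ≤ w1 M a := by
  refine mul_nonneg ?_ (w0_nonneg M _)
  split_ifs
  · positivity
  · exact sub_nonneg.mpr (inv_le_one_of_one_le₀ (by exact_mod_cast Nat.succ_pos q))

theorem w1_sum (hN : 0 < N) : ∑ a : Bool × D0 M N, w1 M a = 1 := by
  have := sum_w1 M (N := N) fun _ => 1
  simp only [mul_one, w0_sum M hN] at this
  rw [this]; ring

theorem interp (hp : Even (q + 1) ∨ ∀ g σ, 0 ≤ M.f g σ) (hN : 0 < N) (hm : AdmissibleExponents m) (hs : Fin N → ℝ)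
    (n : ℕ) : Ex (w1 M) (π1 M) (Φ M T m hs) n ≤ Ex (w0 M N) (π2 M) (Φ M T m hs) n := by
  obtain ⟨a₀, -, -⟩ : ∃ a ∈ (univ : Finset (D0 M N)), w0 M N a ≠ 0 :=
    exists_ne_zero_of_sum_ne_zero (by rw [w0_sum M hN]; exact one_ne_zero)
  refine hybrid (π2 M a₀) _ _ _ _ (w1_nonneg M) (w0_nonneg M) n _ fun n j t => ?_
  obtain ⟨n, rfl⟩ : ∃ n', n = n' + 1 := ⟨n - 1, by have := j.pos; omega⟩
  have h := step M T hp hN (Fin.last q) hm
    (fun σ (x : Fin n × Fin (q + 1) → ℝ) =>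
      yN hs σ * ∏ k, (1 - Wf M (t (j.succAbove k)) σ (fun l => x (k, l))))
    (fun σ x => mul_pos (Real.exp_pos _) (prod_pos fun k _ => Bf_pos M _ _ _))
    (fun δ => Φ M T m hs (n + 1) (Function.update t j δ)) (fun δ => PF_update T m _ _ n j t δ)
  rw [sum_w1 M fun a => Φ M T m hs (n + 1) (Function.update t j (π1 M a))]
  have hq : (0 : ℝ) < ((q + 1 : ℕ) : ℝ) := by exact_mod_cast Nat.succ_pos q
  refine le_of_mul_le_mul_left ?_ hq
  rw [mul_add, mul_inv_cancel_left₀ hq.ne', ← mul_assoc, mul_sub, mul_inv_cancel₀ hq.ne', mul_one]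
  exact h

theorem edge_pos (c : M.Θ) (x : Fin (q + 1) → ℝ) : 0 < edgeTerm (M.θ c) x := by
  rw [← Wf_edge M (N := 1) (c, fun _ => 0) (fun _ => true)]
  exact Bf_pos M _ _ _

theorem left_split (hm : AdmissibleExponents m) (hs : Fin N → ℝ) (n : ℕ)
    (c : Fin n → Bool × D0 M N) :
    Φ M T m hs n (fun k => π1 M (c k)) = Ψc M T m hs n c + ∑ k, φe M T m (c k) := by
  set Z : ℝ := ∑ σ, yN hs σ * ∏ k, (if (c k).1 then
    Real.exp (M.θ (c k).2.1 fun l => σ ((c k).2.2 l)) else 1) with hZ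
  have hZpos : 0 < Z := sum_pos (fun σ _ => mul_pos (Real.exp_pos _)
    (prod_pos fun k _ => by split_ifs <;> positivity)) univ_nonempty
  have h1 : Ψc M T m hs n c = Real.log Z := by
    simp only [Ψc, PF, Wf_clause]
    exact val_const T hm hZpos
  let W : Fin n → (Fin (q + 1) → ℝ) → ℝ := fun k x =>
    if (c k).1 then 1 else edgeTerm (M.θ (c k).2.1) x
  have hW : ∀ k x, 0 < W k x := fun k x => by
    simp only [W]
    split_ifs
    · exact one_pos
    · exact edge_pos M _ _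
  have h2 : ∑ k, φe M T m (c k) = ∑ k, T.val m (Fin (q + 1)) (W k) := by
    refine sum_congr rfl fun k _ => ?_
    simp only [φe, W]
    split_ifs
    · exact (val_one T).symm
    · rfl
  rw [h1, h2, ← val_prod T W hW, ← val_const_mul T hm (fun x => prod_pos fun k _ => hW _ _) hZpos]
  unfold Φ PF
  congr 1
  funext x
  rw [hZ, sum_mul]
  refine sum_congr rfl fun σ _ => ?_
  rw [mul_assoc, ← prod_mul_distrib]
  congr 1
  refine prod_congr rfl fun k _ => ?_
  simp only [W, π1]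
  cases (c k).1
  · simp [Wf_edge]
  · simp [Wf_clause]

theorem Ex_clause (hm : AdmissibleExponents m) (hs : Fin N → ℝ) (n : ℕ) :
    Ex (w0 M N) (fun a => (true, a)) (Ψc M T m hs) n = ac M hs n := by
  unfold Ex ac
  rw [← (Equiv.arrowProdEquivProdArrow _ _ _).symm.sum_comp, Fintype.sum_prod_type]
  refine sum_congr rfl fun c _ => ?_
  rw [mul_sum, mul_sum]
  refine sum_congr rfl fun idx _ => ?_
  simp only [Ψc, PF, Wf_clause, if_true, w0, prod_mul_distrib]
  rw [val_const T hm (sum_pos (fun σ _ => mul_pos (yN_pos hs σ)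
    (prod_pos fun k _ => Real.exp_pos _)) univ_nonempty), mul_assoc]
  congr 2
  · simp [← pow_mul]
  · unfold logPartition
    congr 1
    refine sum_congr rfl fun σ _ => ?_
    rw [Real.exp_add, Real.exp_sum, mul_comm]
    rfl

theorem left_eval (hN : 0 < N) (hm : AdmissibleExponents m) (hs : Fin N → ℝ) (n : ℕ) :
    Ex (w1 M) (π1 M) (Φ M T m hs) n =
      ∑ kl ∈ antidiagonal n, (n.choose kl.1 : ℝ) *
        (((q + 1 : ℕ) : ℝ)⁻¹ ^ kl.1 * (1 - ((q + 1 : ℕ) : ℝ)⁻¹) ^ kl.2 * ac M hs kl.1) +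
      n * ((1 - ((q + 1 : ℕ) : ℝ)⁻¹) * ev M T m) := by
  have h1 : Ex (w1 M) (π1 M) (Φ M T m hs) n = Ex (w1 M) id (Ψc M T m hs) n +
      Ex (w1 M (N := N)) id (fun _ t => ∑ k, φe M T m (t k)) n := by
    simp only [Ex, left_split M T hm, mul_add, sum_add_distrib, id]
  rw [h1, Ex_sum _ (w1_sum M hN), thin (fun a => a.1 = false) (w1 M) id (w0 M N)
    (fun a => (true, a)) ((q + 1 : ℕ) : ℝ)⁻¹ (1 - ((q + 1 : ℕ) : ℝ)⁻¹) ?_ n _ ?_]
  · simp only [Ex_clause M T hm]
    congr 2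
    rw [sum_w1 M fun a => φe M T m (id a)]
    simp only [φe, id, if_true, mul_zero, sum_const_zero, zero_add, Bool.false_eq_true, if_false]
    congr 1
    rw [Fintype.sum_prod_type]
    refine sum_congr rfl fun c _ => ?_
    simp only [w0]
    rw [← sum_mul, ← mul_sum,
      sum_prod_one (fun (_ : Fin (q + 1)) (_ : Fin N) => (N : ℝ)⁻¹) fun _ => unif_sum hN, mul_one]
  · intro φ z hz
    rw [sum_w1 M fun a => φ (id a)]
    simp only [id, fun a : D0 M N => hz (false, a) rfl, ← sum_mul, w0_sum M hN, one_mul]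
  · intro n j t ht
    exact PF_del T m _ _ n j t fun σ x => by simp [ht]

theorem right_split (hs : Fin N → ℝ) (n : ℕ) (c : Fin n → D0 M N) :
    Φ M T m hs n (fun k => π2 M (c k)) =
      ∑ i, Ψs M T m (hs i) i n (fun k => ((c k).1, (c k).2 (Fin.last q))) := by
  let W : Fin N → (Fin n × Fin (q + 1) → ℝ) → ℝ := fun i x =>
    ∑ ε : Bool, Real.exp (hs i * spinVal ε) * ∏ k, (if (c k).2 (Fin.last q) = i then
      1 - Wf M (π2 M ((c k).1, fun _ => i)) (fun _ => ε) (fun j => x (k, j)) else 1)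
  have hW : ∀ i x, 0 < W i x := fun i x => sum_pos (fun ε _ => mul_pos (Real.exp_pos _)
    (prod_pos fun k _ => by
      split_ifs
      · exact Bf_pos M _ _ _
      · exact one_pos)) univ_nonempty
  change _ = ∑ i, T.val m _ (W i)
  rw [← val_prod T W hW]
  unfold Φ PF
  rw [← val_inj T (fun l : Fin n × Fin (q + 1) => ((c l.1).2 (Fin.last q), l))
    (fun _ _ h => (Prod.ext_iff.mp h).2)]
  congr 1
  funext x
  simp only [W]
  rw [← sum_prod_eq]
  refine sum_congr rfl fun σ _ => ?_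
  rw [prod_mul_distrib, yN, Real.exp_sum, prod_comm]
  congr 1
  refine prod_congr rfl fun k _ => ?_
  rw [prod_ite_eq, if_pos (mem_univ _)]
  simp only [π2, Wf_site]

theorem Ex_site (hm : AdmissibleExponents m) (h : ℝ) (i : Fin N) (n : ℕ) :
    Ex M.w (fun c => (c, i)) (Ψs M T m h i) n = Real.log 2 + sv M T m h n := by
  unfold Ex sv
  conv_rhs => rw [← one_mul (Real.log 2),
    ← sum_prod_one (fun _ : Fin n => M.w) (fun _ => w_sum M), sum_mul, ← sum_add_distrib]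
  refine sum_congr rfl fun c _ => ?_
  have hpos : ∀ x : Fin n × Fin (q + 1 - 1) → ℝ,
      0 < siteTerm h (fun j => M.θ (c j)) (fun j ℓ => x (j, ℓ)) := fun x =>
    mul_pos (by norm_num) (sum_pos (fun _ _ => Real.exp_pos _) univ_nonempty)
  rw [← mul_add, ← val_const_mul T hm hpos two_pos,
    ← val_inj T (fun l : Fin n × Fin (q + 1 - 1) => (l.1, Fin.castSucc (n := q) l.2))
      (Function.injective_id.prodMap (Fin.castSucc_injective q))]
  simp only [Ψs, PF, if_true, π2, Wf_site]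
  congr 2
  funext x
  rw [siteTerm, ← mul_assoc, show (2 : ℝ) * (1 / 2) = 1 by norm_num, one_mul]
  refine sum_congr rfl fun ε _ => ?_
  rw [Real.exp_add, Real.exp_sum]
  rfl

theorem right_eval (hN : 0 < N) (hm : AdmissibleExponents m) (hs : Fin N → ℝ) (n : ℕ) :
    Ex (w0 M N) (π2 M) (Φ M T m hs) n = ∑ i, ∑ kl ∈ antidiagonal n, (n.choose kl.1 : ℝ) *
      ((N : ℝ)⁻¹ ^ kl.1 * (1 - (N : ℝ)⁻¹) ^ kl.2 * (Real.log 2 + sv M T m (hs i) kl.1)) := by
  have h1 : Ex (w0 M N) (π2 M) (Φ M T m hs) n =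
      ∑ i, Ex (w0 M N) (fun a => (a.1, a.2 (Fin.last q))) (Ψs M T m (hs i) i) n := by
    simp only [Ex, right_split M T, mul_sum]
    rw [sum_comm]
  rw [h1]
  refine sum_congr rfl fun i _ => ?_
  rw [thin (fun a => a.2 ≠ i) (w0 M N) _ M.w (fun c => (c, i)) (N : ℝ)⁻¹ (1 - (N : ℝ)⁻¹) ?_ n _ ?_]
  · simp only [Ex_site M T hm]
  · intro φ z hz
    rw [Fintype.sum_prod_type]
    have e : (1 - (N : ℝ)⁻¹) * z = ∑ c, M.w c * ((1 - (N : ℝ)⁻¹) * z) := by
      rw [← sum_mul, w_sum, one_mul]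
    rw [e, mul_sum, ← sum_add_distrib]
    refine sum_congr rfl fun c _ => ?_
    simp only [w0, mul_assoc (M.w c)]
    rw [← mul_sum, marg_one (fun _ : Fin N => (N : ℝ)⁻¹) (unif_sum hN) (Fin.last q) (fun y => φ (c, y)),
      ← add_sum_erase _ _ (mem_univ i), sum_congr rfl (g := fun _ => (N : ℝ)⁻¹ * z)
        fun y hy => by rw [hz (c, y) (ne_of_mem_erase hy)]]
    have : (N : ℝ) ≠ 0 := by exact_mod_cast hN.ne'
    rw [sum_const, card_erase_of_mem (mem_univ _), card_univ, Fintype.card_fin, nsmul_eq_mul,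
      Nat.cast_pred hN]
    field_simp
  · intro n j t ht
    exact PF_del T m _ _ n j t fun σ x => by simp [ht]

include T in
theorem ac_bound (hN : 0 < N) (hm : AdmissibleExponents m) (hs : Fin N → ℝ) :
    ∃ C, ∀ k, |ac M hs k| ≤ C * (1 + k) := by
  refine ⟨|Real.log (∑ σ, yN hs σ)| + |-Real.log (1 - M.s)|, fun k => ?_⟩
  rw [← Ex_clause M T hm]
  refine abs_Ex_le (w0_nonneg M) (w0_sum M hN) _ _ _ fun t =>
    PF_bound T hm (fun _ => Real.exp_pos _) (c := -Real.log (1 - M.s)) (fun a σ x => ?_) _ _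
  have := abs_Wf_le M (fun _ => true, a.2) σ x
  split_ifs
  · exact exp_bound M.s_lt this
  · simpa using exp_bound (W := 0) M.s_lt (by simpa using (abs_nonneg _).trans this)

theorem sv_bound (hm : AdmissibleExponents m) (h : ℝ) :
    ∃ C, ∀ k, |Real.log 2 + sv M T m h k| ≤ C * (1 + k) := by
  refine ⟨|Real.log (∑ ε, Real.exp (h * spinVal ε))| + |-Real.log (1 - M.s)|, fun k => ?_⟩
  rw [← Ex_site M T hm h (0 : Fin 1)]
  refine abs_Ex_le (w_nonneg M) (w_sum M) _ _ _ fun t =>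
    PF_bound T hm (fun _ => Real.exp_pos _) (c := -Real.log (1 - M.s)) (fun a σ x => ?_) _ _
  have := abs_Wf_le M (π2 M (a.1, fun _ => (0 : Fin 1))) (fun _ => σ) x
  split_ifs
  · exact exp_bound M.s_lt this
  · simpa using exp_bound (W := 0) M.s_lt (by simpa using (abs_nonneg _).trans this)

theorem summable_poi' (lam : ℝ) {a : ℕ → ℝ} {C : ℝ} (ha : ∀ k, |a k| ≤ C * (1 + k)) :
    Summable fun k => poissonWeight lam k * a k := by
  have := (summable_poi lam ha).of_norm.mul_left (Real.exp (-lam))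
  simpa only [poissonWeight, mul_div_assoc, mul_assoc] using this

theorem fixed_fields (hp : Even (q + 1) ∨ ∀ g σ, 0 ≤ M.f g σ) (hN : 0 < N) (hm : AdmissibleExponents m) {α : ℝ}
    (hα : 0 < α) (hs : Fin N → ℝ) :
    ∑' k, poissonWeight (α * N) k * ac M hs k + N * (α * (((q + 1 : ℕ) : ℝ) - 1) * ev M T m) ≤
      ∑ i, ∑' k, poissonWeight (α * ((q + 1 : ℕ) : ℝ)) k * (Real.log 2 + sv M T m (hs i) k) := by
  have hq : (0 : ℝ) < ((q + 1 : ℕ) : ℝ) := by exact_mod_cast Nat.succ_pos q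
  have hN' : (0 : ℝ) < N := by exact_mod_cast hN
  set lam := α * ((q + 1 : ℕ) : ℝ) * N with hlam
  obtain ⟨C, hC⟩ := ac_bound M T hN hm hs
  have h1 := (hasSum_thin lam ((q + 1 : ℕ) : ℝ)⁻¹ hC).add
    ((hasSum_poi_mul lam).mul_right ((1 - ((q + 1 : ℕ) : ℝ)⁻¹) * ev M T m))
  have h2 := hasSum_sum (s := univ) fun (i : Fin N) _ =>
    hasSum_thin lam (N : ℝ)⁻¹ (sv_bound M T hm (hs i)).choose_spec
  have h3 := hasSum_le (fun n => ?_) h1 h2
  · have e1 : lam * ((q + 1 : ℕ) : ℝ)⁻¹ = α * N := by rw [hlam]; field_simp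
    have e2 : lam * (N : ℝ)⁻¹ = α * ((q + 1 : ℕ) : ℝ) := by rw [hlam]; field_simp
    have e3 : lam * ((1 - ((q + 1 : ℕ) : ℝ)⁻¹) * ev M T m) =
        N * (α * (((q + 1 : ℕ) : ℝ) - 1) * ev M T m) := by rw [hlam]; field_simp
    rwa [e1, e2, e3] at h3
  · rw [mul_assoc, ← mul_add, ← mul_sum, ← left_eval M T hN hm, ← right_eval M T hN hm]
    exact mul_le_mul_of_nonneg_left (interp M T hp hN hm hs n) (poi_nonneg (by positivity) n)

theorem tsum_avg {ι : Type} [Fintype ι] (w : ι → ℝ) (lam : ℝ) (a : ι → ℕ → ℝ)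
    (ha : ∀ i, ∃ C, ∀ k, |a i k| ≤ C * (1 + k)) :
    ∑' k, poissonWeight lam k * ∑ i, w i * a i k = ∑ i, w i * ∑' k, poissonWeight lam k * a i k := by
  have := hasSum_sum (s := univ) fun (i : ι) _ =>
    (summable_poi' lam (ha i).choose_spec).hasSum.mul_left (w i)
  rw [← this.tsum_eq]
  refine tsum_congr fun k => ?_
  rw [mul_sum]
  exact sum_congr rfl fun i _ => by ring

end Crest.Agent.R141.Up

namespace Crest.Agent.R141

open Up Crest.ProbabilityR.Diluted Finset in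
theorem partU' (p : ℕ) (hp2 : 2 ≤ p) (M : Model p) (hp : Even p ∨ ∀ g σ, 0 ≤ M.f g σ) (α : ℝ)
    (hα : 0 < α) (r : ℕ) (m : Fin r → ℝ) (T : FT) (hm : AdmissibleExponents m) (N : ℕ)
    (hN : 0 < N) : M.press α N ≤ M.gen α (T.val m) := by
  obtain ⟨q, rfl⟩ : ∃ q, p = q + 1 := ⟨p - 1, by omega⟩
  have hN' : (0 : ℝ) < N := by exact_mod_cast hN
  have e1 : M.press α N = (1 / (N : ℝ)) * ∑ hs : Fin N → M.H, (∏ i, M.wh (hs i)) *
      ∑' k, poissonWeight (α * N) k * ac M (fun i => M.h (hs i)) k := by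
    rw [← tsum_avg _ _ _ fun hs => ac_bound M T hN hm _]
    unfold Model.press ac
    congr 1
    refine tsum_congr fun k => ?_
    congr 1
    simp only [mul_sum _ _ (∏ _i, _)]
    rw [sum_comm]
    refine sum_congr rfl fun _ _ => sum_congr rfl fun _ _ => by ring
  have e2 : M.gen α (T.val m) = ∑ a, M.wh a *
      ∑' k, poissonWeight (α * ((q + 1 : ℕ) : ℝ)) k * (Real.log 2 + sv M T m (M.h a) k) -
      α * (((q + 1 : ℕ) : ℝ) - 1) * ev M T m := by
    have h1 := hasSum_sum (s := univ) fun (a : M.H) _ => (summable_poi' (α * ((q + 1 : ℕ) : ℝ))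
      (sv_bound M T hm (M.h a)).choose_spec).hasSum.mul_left (M.wh a)
    have h2 := h1.sub ((hasSum_poi_one (α * ((q + 1 : ℕ) : ℝ))).mul_right (Real.log 2))
    unfold Model.gen
    congr 1
    rw [one_mul] at h2
    rw [← eq_sub_iff_add_eq', ← h2.tsum_eq]
    refine tsum_congr fun k => ?_
    simp only [mul_left_comm (M.wh _), ← mul_sum, mul_add, sum_add_distrib, ← sum_mul, M.wh_sum,
      one_mul, add_sub_cancel_left]
    congr 1
    simp only [sv, mul_sum]
    rw [sum_comm]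
    refine sum_congr rfl fun _ _ => sum_congr rfl fun _ _ => by ring
  have hw0 : ∀ hs : Fin N → M.H, 0 ≤ ∏ i, M.wh (hs i) :=
    fun hs => prod_nonneg fun _ _ => M.wh_nonneg _
  have h3 := sum_le_sum fun (hs : Fin N → M.H) (_ : hs ∈ univ) => mul_le_mul_of_nonneg_left
    (fixed_fields M T hp hN hm hα fun i => M.h (hs i)) (hw0 hs)
  simp only [mul_add (∏ _i, _), sum_add_distrib, ← sum_mul, mul_sum _ _ (∏ _i, _),
    sum_prod_one (fun _ : Fin N => M.wh) fun _ => M.wh_sum, one_mul] at h3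
  rw [sum_comm] at h3
  simp only [fun i : Fin N => marg_one M.wh M.wh_sum i fun a =>
    ∑' k, poissonWeight (α * ((q + 1 : ℕ) : ℝ)) k * (Real.log 2 + sv M T m (M.h a) k),
    sum_const, card_univ, Fintype.card_fin, nsmul_eq_mul] at h3
  rw [e1, e2, one_div, inv_mul_le_iff₀ hN', mul_sub]
  linarith

theorem partU : PartU := fun p hp hp2 M α hα r m T hm N hN =>
  partU' p hp2 M (Or.inl hp) α hα r m T hm N hN

end Crest.Agent.R141
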