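import Crest.Agent.R141.Defs

/-! Basic facts on product kernels, nested power means and values of finite trials. -/

set_option autoImplicit false

namespace Crest.Agent.R141.Up

open Crest.ProbabilityR.Diluted Finset
open scoped BigOperators

section sums
variable {S : Type*} [Fintype S]

theorem sum_prod_eq {L : Type*} [Fintype L] [DecidableEq L] (a : L → S → ℝ) :
    ∑ s : L → S, ∏ l, a l (s l) = ∏ l, ∑ y, a l y := by
  rw [Finset.prod_univ_sum, Fintype.piFinset_univ]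

theorem sum_prod_one {L : Type*} [Fintype L] [DecidableEq L] (a : L → S → ℝ)
    (ha : ∀ l, ∑ s, a l s = 1) : ∑ s : L → S, ∏ l, a l (s l) = 1 := by
  rw [sum_prod_eq]; simp [ha]

theorem sum_sumElim {L₁ L₂ : Type*} [Fintype L₁] [DecidableEq L₁] [Fintype L₂] [DecidableEq L₂]
    (a : L₁ ⊕ L₂ → S → ℝ) (F : (L₁ ⊕ L₂ → S) → ℝ) :
    ∑ s : L₁ ⊕ L₂ → S, (∏ l, a l (s l)) * F s =
      ∑ s₁ : L₁ → S, (∏ l, a (.inl l) (s₁ l)) *
        ∑ s₂ : L₂ → S, (∏ l, a (.inr l) (s₂ l)) * F (Sum.elim s₁ s₂) := by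
  rw [← (Equiv.sumArrowEquivProdArrow L₁ L₂ S).symm.sum_comp, Fintype.sum_prod_type]
  refine sum_congr rfl fun s₁ _ => ?_
  rw [mul_sum]
  refine sum_congr rfl fun s₂ _ => ?_
  rw [Fintype.prod_sum_type, mul_assoc]
  rfl

theorem sum_equiv {L₁ L₂ : Type*} [Fintype L₁] [DecidableEq L₁] [Fintype L₂] [DecidableEq L₂]
    (e : L₁ ≃ L₂) (a : L₂ → S → ℝ) (F : (L₁ → S) → ℝ) :
    ∑ s : L₂ → S, (∏ l, a l (s l)) * F (fun l => s (e l)) =
      ∑ s : L₁ → S, (∏ l, a (e l) (s l)) * F s := by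
  rw [← (Equiv.arrowCongr e (Equiv.refl S)).sum_comp]
  refine sum_congr rfl fun s _ => ?_
  rw [← e.prod_comp]
  simp

theorem marg {L' L : Type*} [Fintype L'] [DecidableEq L'] [Fintype L] [DecidableEq L]
    (e : L' → L) (he : Function.Injective e) (a : L → S → ℝ) (ha : ∀ l, ∑ s, a l s = 1)
    (F : (L' → S) → ℝ) :
    ∑ s : L → S, (∏ l, a l (s l)) * F (fun l => s (e l)) =
      ∑ s : L' → S, (∏ l, a (e l) (s l)) * F s := by
  classical
  let E : L' ⊕ {l // ¬ l ∈ Set.range e} ≃ L :=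
    (Equiv.sumCongr (Equiv.ofInjective e he) (Equiv.refl _)).trans
      (Equiv.sumCompl (· ∈ Set.range e))
  have hE : ∀ l, E (.inl l) = e l := fun l => rfl
  have h1 := sum_equiv E a (fun s => F (fun l => s (.inl l)))
  simp only [hE] at h1
  rw [h1, sum_sumElim (fun l => a (E l))]
  refine sum_congr rfl fun s _ => ?_
  simp only [hE, Sum.elim_inl]
  rw [← sum_mul, sum_prod_one (fun l => a (E (.inr l))) (fun l => ha _), one_mul]

theorem sum_curry {I L : Type*} [Fintype I] [DecidableEq I] [Fintype L] [DecidableEq L]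
    (a : I × L → S → ℝ) (F : I → (L → S) → ℝ) :
    ∑ s : I × L → S, (∏ l, a l (s l)) * ∏ i, F i (fun l => s (i, l)) =
      ∏ i, ∑ s : L → S, (∏ l, a (i, l) (s l)) * F i s := by
  rw [← sum_prod_eq, ← (Equiv.curry I L S).symm.sum_comp]
  refine sum_congr rfl fun s _ => ?_
  rw [Fintype.prod_prod_type, ← prod_mul_distrib]
  rfl

end sums

/-- Averages against probability weights. -/
theorem avg_le {ι : Type*} [Fintype ι] {w : ι → ℝ} (h0 : ∀ i, 0 ≤ w i) (h1 : ∑ i, w i = 1)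
    {F : ι → ℝ} {c : ℝ} (hF : ∀ i, F i ≤ c) : ∑ i, w i * F i ≤ c := by
  calc ∑ i, w i * F i ≤ ∑ i, w i * c := sum_le_sum fun i _ => mul_le_mul_of_nonneg_left (hF i) (h0 i)
    _ = c := by rw [← sum_mul, h1, one_mul]

theorem le_avg {ι : Type*} [Fintype ι] {w : ι → ℝ} (h0 : ∀ i, 0 ≤ w i) (h1 : ∑ i, w i = 1)
    {F : ι → ℝ} {c : ℝ} (hF : ∀ i, c ≤ F i) : c ≤ ∑ i, w i * F i := by
  calc c = ∑ i, w i * c := by rw [← sum_mul, h1, one_mul]
    _ ≤ _ := sum_le_sum fun i _ => mul_le_mul_of_nonneg_left (hF i) (h0 i)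

theorem abs_avg_le {ι : Type*} [Fintype ι] {w : ι → ℝ} (h0 : ∀ i, 0 ≤ w i) (h1 : ∑ i, w i = 1)
    {F : ι → ℝ} {c : ℝ} (hF : ∀ i, |F i| ≤ c) : |∑ i, w i * F i| ≤ c :=
  abs_le.mpr ⟨le_avg h0 h1 fun i => (abs_le.mp (hF i)).1, avg_le h0 h1 fun i => (abs_le.mp (hF i)).2⟩

theorem avg_pos {ι : Type*} [Fintype ι] {w : ι → ℝ} (h0 : ∀ i, 0 ≤ w i) (h1 : ∑ i, w i = 1)
    {F : ι → ℝ} (hF : ∀ i, 0 < F i) : 0 < ∑ i, w i * F i := by
  obtain ⟨i, -, hi⟩ : ∃ i ∈ (univ : Finset ι), w i ≠ 0 :=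
    exists_ne_zero_of_sum_ne_zero (by rw [h1]; exact one_ne_zero)
  exact sum_pos' (fun j _ => mul_nonneg (h0 j) (hF j).le)
    ⟨i, mem_univ _, mul_pos (lt_of_le_of_ne (h0 i) hi.symm) (hF i)⟩

theorem nm_comp {Ω₁ Ω₂ : Type*} (E₁ : ℕ → (Ω₁ → ℝ) → Ω₁ → ℝ) (E₂ : ℕ → (Ω₂ → ℝ) → Ω₂ → ℝ)
    (ι : Ω₁ → Ω₂) (h : ∀ d F ω, E₁ d (fun ω' => F (ι ω')) ω = E₂ d F (ι ω)) (mm : ℕ → ℝ)
    (Z : Ω₂ → ℝ) (d : ℕ) : nm E₁ mm (fun ω => Z (ι ω)) d = fun ω => nm E₂ mm Z d (ι ω) := by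
  induction d with
  | zero => rfl
  | succ d ih =>
    funext ω
    rw [nm_succ, nm_succ, ih]
    exact congrArg (· ^ (1 / mm d)) (h d (fun ω' => nm E₂ mm Z d ω' ^ mm d) ω)

variable (T : FT)

/-- Nested means of the finite trial `T`. -/
noncomputable abbrev nT {L : Type} [Fintype L] [DecidableEq L] (mm : ℕ → ℝ)
    (Z : (L → T.S) → ℝ) (d : ℕ) : (L → T.S) → ℝ := nm (fun d => pk (T.κ d)) mm Z d

section
variable {L : Type} [Fintype L] [DecidableEq L]

theorem kw_nonneg (d : ℕ) (s s' : L → T.S) : 0 ≤ ∏ l, T.κ d (s l) (s' l) :=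
  prod_nonneg fun _ _ => T.κ_nonneg _ _ _

theorem kw_sum (d : ℕ) (s : L → T.S) : ∑ s' : L → T.S, ∏ l, T.κ d (s l) (s' l) = 1 :=
  sum_prod_one (fun l => T.κ d (s l)) fun _ => T.κ_sum _ _

theorem iw_nonneg (s : L → T.S) : 0 ≤ ∏ l, T.init (s l) :=
  prod_nonneg fun _ _ => T.init_nonneg _

theorem iw_sum : ∑ s : L → T.S, ∏ l, T.init (s l) = 1 :=
  sum_prod_one (fun _ : L => T.init) fun _ => T.init_sum

theorem nT_succ (mm : ℕ → ℝ) (Z : (L → T.S) → ℝ) (d : ℕ) (s : L → T.S) :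
    nT T mm Z (d + 1) s =
      (∑ s' : L → T.S, (∏ l, T.κ d (s l) (s' l)) * nT T mm Z d s' ^ mm d) ^ (1 / mm d) := rfl

theorem nT_pos (mm : ℕ → ℝ) {Z : (L → T.S) → ℝ} (hZ : ∀ s, 0 < Z s) (d : ℕ) :
    ∀ s, 0 < nT T mm Z d s := by
  induction d with
  | zero => exact hZ
  | succ d ih =>
    intro s
    rw [nT_succ]
    exact Real.rpow_pos_of_pos (avg_pos (kw_nonneg T d s) (kw_sum T d s)
      fun s' => Real.rpow_pos_of_pos (ih s') _) _

theorem nT_le {mm : ℕ → ℝ} (hm : ∀ d, 0 < mm d) {Z Z' : (L → T.S) → ℝ} (hZ : ∀ s, 0 < Z s)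
    {c : ℝ} (hc : 0 < c) (hZ' : ∀ s, 0 < Z' s) (h : ∀ s, Z s ≤ c * Z' s) (d : ℕ) :
    ∀ s, nT T mm Z d s ≤ c * nT T mm Z' d s := by
  induction d with
  | zero => exact h
  | succ d ih =>
    intro s
    have hp := fun s' => Real.rpow_pos_of_pos (nT_pos T mm hZ d s') (mm d)
    have hp' := fun s' => Real.rpow_pos_of_pos (nT_pos T mm hZ' d s') (mm d)
    have h1 : c = (c ^ mm d) ^ (1 / mm d) := by
      rw [← Real.rpow_mul hc.le, mul_one_div_cancel (hm d).ne', Real.rpow_one]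
    rw [nT_succ, nT_succ, h1, ← Real.mul_rpow (by positivity)
      (avg_pos (kw_nonneg T d s) (kw_sum T d s) hp').le]
    refine Real.rpow_le_rpow (avg_pos (kw_nonneg T d s) (kw_sum T d s) hp).le ?_
      (by have := hm d; positivity)
    rw [mul_sum]
    refine sum_le_sum fun s' _ => ?_
    rw [mul_left_comm, ← Real.mul_rpow hc.le (nT_pos T mm hZ' d s').le]
    exact mul_le_mul_of_nonneg_left
      (Real.rpow_le_rpow (nT_pos T mm hZ d s').le (ih s') (hm d).le) (kw_nonneg T d s s')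

theorem nT_one (mm : ℕ → ℝ) (d : ℕ) : ∀ s : L → T.S, nT T mm (fun _ => 1) d s = 1 := by
  induction d with
  | zero => intro s; rfl
  | succ d ih =>
    intro s
    rw [nT_succ]
    simp only [ih, Real.one_rpow, mul_one, kw_sum]

theorem nT_prod {I : Type} [Fintype I] [DecidableEq I] (mm : ℕ → ℝ)
    (Z : I → (L → T.S) → ℝ) (hZ : ∀ i s, 0 < Z i s) (d : ℕ) :
    nT T mm (fun s : I × L → T.S => ∏ i, Z i (fun l => s (i, l))) d =
      fun s => ∏ i, nT T mm (Z i) d (fun l => s (i, l)) := by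
  induction d with
  | zero => rfl
  | succ d ih =>
    funext s
    rw [nT_succ, ih]
    simp only [nT_succ]
    rw [Real.finsetProd_rpow _ _ (fun i _ => (avg_pos (kw_nonneg T d _) (kw_sum T d _)
      fun s' => Real.rpow_pos_of_pos (nT_pos T mm (hZ i) d s') (mm d)).le),
      ← sum_curry (fun l => T.κ d (s l)) (fun i s' => nT T mm (Z i) d s' ^ mm d)]
    congr 1
    refine sum_congr rfl fun s' _ => ?_
    rw [Real.finsetProd_rpow _ _ (fun i _ => (nT_pos T mm (hZ i) d _).le)]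

end

theorem mrev_pos {r : ℕ} {m : Fin r → ℝ} (hm : AdmissibleExponents m) (d : ℕ) : 0 < mrev m d := by
  unfold mrev
  split_ifs
  · exact (hm.2 _).1
  · exact one_pos

section val
variable {r : ℕ} {m : Fin r → ℝ} {L : Type} [Fintype L] [DecidableEq L]

theorem val_inj {L' : Type} [Fintype L'] [DecidableEq L'] (e : L' → L)
    (he : Function.Injective e) (W : (L' → ℝ) → ℝ) :
    T.val m L (fun x => W (fun l => x (e l))) = T.val m L' W := by
  unfold FT.val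
  rw [← marg e he (fun _ => T.init) (fun _ => T.init_sum)]
  refine sum_congr rfl fun s _ => ?_
  have := nm_comp (fun d => pk (L := L) (T.κ d)) (fun d => pk (L := L') (T.κ d))
    (fun s l => s (e l)) (fun d F ω => marg e he (fun l => T.κ d (ω l)) (fun _ => T.κ_sum _ _) F)
    (mrev m) (fun s' => W (fun l => T.x (s' l))) r
  rw [this]

theorem val_prod {I : Type} [Fintype I] [DecidableEq I] (W : I → (L → ℝ) → ℝ)
    (hW : ∀ i x, 0 < W i x) :
    T.val m (I × L) (fun x => ∏ i, W i (fun l => x (i, l))) = ∑ i, T.val m L (W i) := by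
  unfold FT.val
  have := nT_prod T (mrev m) (fun i s' => W i (fun l => T.x (s' l))) (fun i s => hW i _) r
  simp only [nT] at this
  rw [this]
  have h2 : ∀ i, ∑ s : L → T.S, (∏ l, T.init (s l)) *
      Real.log (nm (fun d => pk (T.κ d)) (mrev m) (fun s' => W i fun l => T.x (s' l)) r s) = _ :=
    fun i => (marg (fun l : L => (i, l)) (fun _ _ h => (Prod.ext_iff.mp h).2) (fun _ => T.init)
      (fun _ => T.init_sum) _).symm
  simp only [h2]
  rw [sum_comm]
  refine sum_congr rfl fun s _ => ?_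
  rw [Real.log_prod (fun i _ => (nT_pos T _ (fun s => hW i _) r _).ne'), mul_sum]

theorem val_le (hm : AdmissibleExponents m) {W W' : (L → ℝ) → ℝ} (hW : ∀ x, 0 < W x)
    (hW' : ∀ x, 0 < W' x) {c : ℝ} (hc : 0 < c) (h : ∀ x, W x ≤ c * W' x) :
    T.val m L W ≤ Real.log c + T.val m L W' := by
  unfold FT.val
  conv_rhs => rw [← one_mul (Real.log c), ← iw_sum T (L := L), sum_mul, ← sum_add_distrib]
  refine sum_le_sum fun s _ => ?_
  rw [← mul_add, ← Real.log_mul hc.ne' (nT_pos T _ (fun _ => hW' _) r _).ne']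
  exact mul_le_mul_of_nonneg_left (Real.log_le_log (nT_pos T _ (fun _ => hW _) r _)
    (nT_le T (mrev_pos hm) (fun _ => hW _) hc (fun _ => hW' _) (fun _ => h _) r s))
    (iw_nonneg T s)

theorem val_const_mul (hm : AdmissibleExponents m) {W : (L → ℝ) → ℝ} (hW : ∀ x, 0 < W x)
    {c : ℝ} (hc : 0 < c) : T.val m L (fun x => c * W x) = Real.log c + T.val m L W := by
  refine le_antisymm (val_le T hm (fun x => mul_pos hc (hW x)) hW hc fun x => le_rfl) ?_
  have := val_le T hm hW (fun x => mul_pos hc (hW x)) (inv_pos.mpr hc)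
    (fun x => by rw [inv_mul_cancel_left₀ hc.ne'])
  rw [Real.log_inv] at this
  linarith

theorem val_one : T.val m L (fun _ => 1) = 0 := by
  unfold FT.val
  have := nT_one T (L := L) (mrev m) r
  simp only [nT] at this
  simp [this]

theorem abs_val_le (hm : AdmissibleExponents m) {W : (L → ℝ) → ℝ} {K : ℝ}
    (hW : ∀ x, Real.exp (-K) ≤ W x ∧ W x ≤ Real.exp K) : |T.val m L W| ≤ K := by
  have hp : ∀ x, 0 < W x := fun x => (Real.exp_pos _).trans_le (hW x).1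
  have h1 := val_le T hm hp (fun _ => one_pos) (Real.exp_pos K) fun x => by simpa using (hW x).2
  have h2 := val_le T hm (fun _ => one_pos) hp (Real.exp_pos K) fun x => by
    have := mul_le_mul_of_nonneg_left (hW x).1 (Real.exp_pos K).le
    rwa [← Real.exp_add, add_neg_cancel, Real.exp_zero] at this
  rw [val_one, Real.log_exp] at h1 h2
  exact abs_le.mpr ⟨by linarith, by linarith⟩

end val

end Crest.Agent.R141.Up
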