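import Crest.Agent.R141.Up1

/-! Product expectations of sequences, hybrid argument, Poisson thinning. -/

set_option autoImplicit false

namespace Crest.Agent.R141.Up

open Crest.ProbabilityR.Diluted Finset
open scoped BigOperators

/-- Expectation of `Ψ n` at an i.i.d. sequence. -/
noncomputable def Ex {A D : Type} [Fintype A] (w : A → ℝ) (π : A → D)
    (Ψ : ∀ n : ℕ, (Fin n → D) → ℝ) (n : ℕ) : ℝ :=
  ∑ c : Fin n → A, (∏ k, w (c k)) * Ψ n (fun k => π (c k))

/-- Shift of a family of functionals. -/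
def shift {D : Type} (Ψ : ∀ n : ℕ, (Fin n → D) → ℝ) (d : D) : ∀ n : ℕ, (Fin n → D) → ℝ :=
  fun n t => Ψ (n + 1) (Fin.cons d t)

section
variable {A A' D : Type} [Fintype A] [Fintype A']

theorem Ex_zero (w : A → ℝ) (π : A → D) (Ψ : ∀ n : ℕ, (Fin n → D) → ℝ) :
    Ex w π Ψ 0 = Ψ 0 Fin.elim0 := by
  simp only [Ex, univ_unique, sum_singleton, univ_eq_empty, prod_empty, one_mul]
  congr 1
  exact Subsingleton.elim _ _

theorem Ex_succ (w : A → ℝ) (π : A → D) (Ψ : ∀ n : ℕ, (Fin n → D) → ℝ) (n : ℕ) :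
    Ex w π Ψ (n + 1) = ∑ a, w a * Ex w π (shift Ψ (π a)) n := by
  unfold Ex
  rw [← (Fin.consEquiv fun _ : Fin (n + 1) => A).sum_comp, Fintype.sum_prod_type]
  refine sum_congr rfl fun a _ => ?_
  rw [mul_sum]
  refine sum_congr rfl fun c _ => ?_
  rw [Fin.prod_univ_succ, mul_assoc]
  simp only [Fin.consEquiv_apply, Fin.cons_zero, Fin.cons_succ, shift]
  congr 3
  funext k
  cases k using Fin.cases <;> simp

theorem hybrid (d₀ : D) (w : A → ℝ) (π : A → D) (w' : A' → ℝ) (π' : A' → D) (hw : ∀ a, 0 ≤ w a)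
    (hw' : ∀ a, 0 ≤ w' a) (n : ℕ) : ∀ (Ψ : ∀ n : ℕ, (Fin n → D) → ℝ),
    (∀ (n : ℕ) (j : Fin n) (t : Fin n → D), ∑ a, w a * Ψ n (Function.update t j (π a)) ≤
      ∑ a, w' a * Ψ n (Function.update t j (π' a))) → Ex w π Ψ n ≤ Ex w' π' Ψ n := by
  induction n with
  | zero => intro Ψ _; rw [Ex_zero, Ex_zero]
  | succ n ih =>
    intro Ψ h
    rw [Ex_succ, Ex_succ]
    calc ∑ a, w a * Ex w π (shift Ψ (π a)) n ≤ ∑ a, w a * Ex w' π' (shift Ψ (π a)) n := by
          refine sum_le_sum fun a _ => mul_le_mul_of_nonneg_left (ih _ fun n j t => ?_) (hw a)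
          simp only [shift, Fin.cons_update]
          exact h _ _ _
      _ ≤ _ := by
          simp only [Ex, mul_sum]
          rw [sum_comm, sum_comm (s := (univ : Finset A'))]
          refine sum_le_sum fun c _ => ?_
          simp only [mul_left_comm _ (∏ k, w' (c k)), ← mul_sum]
          refine mul_le_mul_of_nonneg_left ?_ (prod_nonneg fun k _ => hw' _)
          have := h (n + 1) 0 (Fin.cons d₀ fun k => π' (c k))
          simpa only [Fin.update_cons_zero, shift] using this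

theorem thin (nul : D → Prop) (w : A → ℝ) (π : A → D) (w' : A' → ℝ) (π' : A' → D) (q q' : ℝ)
    (hstep : ∀ (φ : D → ℝ) (z : ℝ), (∀ d, nul d → φ d = z) →
      ∑ a, w a * φ (π a) = q * ∑ a, w' a * φ (π' a) + q' * z) (n : ℕ) :
    ∀ (Ψ : ∀ n : ℕ, (Fin n → D) → ℝ),
    (∀ (n : ℕ) (j : Fin (n + 1)) (t : Fin (n + 1) → D), nul (t j) →
      Ψ (n + 1) t = Ψ n (fun k => t (j.succAbove k))) →
    Ex w π Ψ n = ∑ kl ∈ antidiagonal n,
      (n.choose kl.1 : ℝ) * (q ^ kl.1 * q' ^ kl.2 * Ex w' π' Ψ kl.1) := by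
  induction n with
  | zero => intro Ψ _; simp [Ex_zero]
  | succ n ih =>
    intro Ψ h
    have hs : ∀ d, ∀ (n : ℕ) (j : Fin (n + 1)) (t : Fin (n + 1) → D), nul (t j) →
        shift Ψ d (n + 1) t = shift Ψ d n (fun k => t (j.succAbove k)) := by
      intro d n j t ht
      unfold shift
      rw [h (n + 1) j.succ _ (by simpa using ht)]
      congr 1
      funext k
      cases k using Fin.cases <;> simp
    rw [Ex_succ, hstep (fun d => Ex w π (shift Ψ d) n) (Ex w π Ψ n) (fun d hd => by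
      unfold Ex shift
      refine sum_congr rfl fun c _ => ?_
      rw [h n 0 _ (by simpa using hd)]
      simp)]
    rw [sum_antidiagonal_choose_succ_mul (fun k l => q ^ k * q' ^ l * Ex w' π' Ψ k), ih Ψ h,
      add_comm, mul_sum]
    congr 1
    · refine sum_congr rfl fun kl _ => ?_
      ring
    · simp only [ih _ (hs _), mul_sum, Ex_succ]
      rw [sum_comm]
      refine sum_congr rfl fun kl hkl => sum_congr rfl fun a _ => ?_
      rw [Nat.choose_symm_of_eq_add (mem_antidiagonal.mp hkl).symm]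
      ring

theorem Ex_sum (w : A → ℝ) (hw : ∑ a, w a = 1) (π : A → D) (φ : D → ℝ) (n : ℕ) :
    Ex w π (fun _ t => ∑ k, φ (t k)) n = n * ∑ a, w a * φ (π a) := by
  simp only [Ex, mul_sum]
  rw [sum_comm]
  have : ∀ k : Fin n, ∑ c : Fin n → A, (∏ k, w (c k)) * φ (π (c k)) = ∑ a, w a * φ (π a) := by
    intro k
    have := marg (fun _ : Unit => k) (fun _ _ _ => rfl) (fun _ => w) (fun _ => hw)
      (fun s => φ (π (s ())))
    rw [this, ← (Equiv.funUnique Unit A).symm.sum_comp]
    simp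
  simp only [this, sum_const, card_univ, Fintype.card_fin, nsmul_eq_mul, mul_sum]

end

theorem summable_poi (lam : ℝ) {a : ℕ → ℝ} {C : ℝ} (ha : ∀ k, |a k| ≤ C * (1 + k)) :
    Summable fun k => ‖lam ^ k / k.factorial * a k‖ := by
  refine Summable.of_nonneg_of_le (fun k => norm_nonneg _) (fun k => ?_)
    ((Real.summable_pow_div_factorial (2 * |lam|)).mul_left |C|)
  have h1 : (1 + k : ℝ) ≤ 2 ^ k := by
    have := one_add_mul_le_pow (a := (1 : ℝ)) (by norm_num) k
    norm_num at this ⊢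
    exact this
  have h2 : |a k| ≤ |C| * 2 ^ k :=
    (ha k).trans (mul_le_mul (le_abs_self C) h1 (by positivity) (abs_nonneg C))
  rw [Real.norm_eq_abs, abs_mul, abs_div, abs_pow, Nat.abs_cast, mul_pow]
  calc |lam| ^ k / k.factorial * |a k| ≤ |lam| ^ k / k.factorial * (|C| * 2 ^ k) :=
        mul_le_mul_of_nonneg_left h2 (by positivity)
    _ = _ := by ring

theorem hasSum_exp (x : ℝ) : HasSum (fun k : ℕ => x ^ k / k.factorial) (Real.exp x) := by
  rw [Real.exp_eq_exp_ℝ]
  exact NormedSpace.expSeries_div_hasSum_exp x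

theorem hasSum_thin (lam q : ℝ) {a : ℕ → ℝ} {C : ℝ} (ha : ∀ k, |a k| ≤ C * (1 + k)) :
    HasSum (fun n => poissonWeight lam n * ∑ kl ∈ antidiagonal n,
      (n.choose kl.1 : ℝ) * (q ^ kl.1 * (1 - q) ^ kl.2 * a kl.1))
      (∑' k, poissonWeight (lam * q) k * a k) := by
  have h1 := summable_poi (lam * q) ha
  have h2 := summable_poi (lam * (1 - q)) (a := fun _ => 1) (C := 1) (fun k => by simp)
  have h3 := (summable_norm_sum_mul_antidiagonal_of_summable_norm h1 h2).of_norm.hasSum
  rw [← tsum_mul_tsum_eq_tsum_sum_antidiagonal_of_summable_norm h1 h2] at h3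
  have h4 : ∑' k : ℕ, (lam * (1 - q)) ^ k / k.factorial * 1 = Real.exp (lam * (1 - q)) := by
    simp only [mul_one]
    exact (hasSum_exp _).tsum_eq
  rw [h4] at h3
  have h5 := h3.mul_left (Real.exp (-lam))
  have e1 : (fun n => poissonWeight lam n * ∑ kl ∈ antidiagonal n,
      (n.choose kl.1 : ℝ) * (q ^ kl.1 * (1 - q) ^ kl.2 * a kl.1)) = fun n => Real.exp (-lam) *
      ∑ kl ∈ antidiagonal n, (lam * q) ^ kl.1 / kl.1.factorial * a kl.1 *
        ((lam * (1 - q)) ^ kl.2 / kl.2.factorial * 1) := by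
    funext n
    rw [poissonWeight, mul_div_assoc, mul_assoc, mul_sum]
    congr 1
    refine sum_congr rfl fun kl hkl => ?_
    obtain ⟨k, l⟩ := kl
    obtain rfl : k + l = n := mem_antidiagonal.mp hkl
    rw [Nat.cast_add_choose, mul_pow, mul_pow]
    have := Nat.factorial_pos (k + l)
    field_simp
    ring
  have e2 : (∑' k, poissonWeight (lam * q) k * a k) = Real.exp (-lam) *
      ((∑' (n : ℕ), (lam * q) ^ n / n.factorial * a n) * Real.exp (lam * (1 - q))) := by
    rw [mul_left_comm, ← Real.exp_add, ← tsum_mul_right]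
    refine tsum_congr fun k => ?_
    rw [poissonWeight, show -lam + lam * (1 - q) = -(lam * q) by ring]
    ring
  rw [e1, e2]
  exact h5

theorem hasSum_poi_one (lam : ℝ) : HasSum (fun n => poissonWeight lam n) 1 := by
  have := (hasSum_exp lam).mul_left (Real.exp (-lam))
  rw [← Real.exp_add, neg_add_cancel, Real.exp_zero] at this
  simpa only [poissonWeight, mul_div_assoc] using this

theorem hasSum_poi_mul (lam : ℝ) : HasSum (fun n => poissonWeight lam n * n) lam := by
  rw [← hasSum_nat_add_iff' 1]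
  have := (hasSum_poi_one lam).mul_left lam
  simp only [range_one, sum_singleton, Nat.cast_zero, mul_zero, sub_zero]
  rw [mul_one] at this
  have e : (fun n : ℕ => poissonWeight lam (n + 1) * ((n + 1 : ℕ) : ℝ)) =
      fun n => lam * poissonWeight lam n := by
    funext n
    simp only [poissonWeight, Nat.factorial_succ]
    push_cast
    field_simp
    ring
  rw [e]
  exact this

theorem poi_nonneg {lam : ℝ} (h : 0 ≤ lam) (n : ℕ) : 0 ≤ poissonWeight lam n := by
  unfold poissonWeight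
  positivity

end Crest.Agent.R141.Up
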