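import Crest.Agent.R141.Up1

/-! The closed cone generated by a multiplicative family of functions. -/

set_option autoImplicit false

namespace Crest.Agent.R141.Up

open Finset
open scoped BigOperators

theorem choose_sign {γ : ℝ} (h0 : 0 ≤ γ) (h1 : γ ≤ 1) (k : ℕ) :
    0 ≤ (-1) ^ k * Ring.choose γ (k + 1) := by
  have h2 : ∀ k : ℕ, 0 ≤ (-1) ^ k * (descPochhammer ℤ (k + 1)).smeval γ := by
    intro k
    induction k with
    | zero => simpa [Polynomial.smeval_X] using h0
    | succ k ih =>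
      rw [descPochhammer_succ_right, Polynomial.smeval_mul, Polynomial.smeval_sub,
        Polynomial.smeval_X, Polynomial.smeval_natCast]
      have h3 : (0 : ℝ) ≤ (k + 1 : ℝ) - γ := by
        have : (0 : ℝ) ≤ k := Nat.cast_nonneg k
        linarith
      have := mul_nonneg ih h3
      simp only [pow_one, pow_zero, nsmul_eq_mul, mul_one, Nat.cast_add, Nat.cast_one]
      rw [pow_succ]
      linarith
  have h3 := h2 k
  rw [Ring.descPochhammer_eq_factorial_smul_choose, nsmul_eq_mul, mul_left_comm] at h3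
  exact nonneg_of_mul_nonneg_right h3 (by exact_mod_cast Nat.factorial_pos _)

theorem hasSum_psi (γ : ℝ) {x : ℝ} (hx : |x| < 1) :
    HasSum (fun k : ℕ => ((-1) ^ k * Ring.choose γ (k + 1)) * x ^ (k + 1)) (1 - (1 - x) ^ γ) := by
  have h1 := (Real.one_add_rpow_hasFPowerSeriesOnBall_zero (a := γ)).hasSum (y := -x) (by
    rw [Metric.mem_eball, edist_zero_right, enorm_neg, ← ofReal_norm, ENNReal.ofReal_lt_one]
    exact hx)
  simp only [binomialSeries_apply, List.ofFn_const, List.prod_replicate, smul_eq_mul,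
    zero_add] at h1
  have h2 := ((hasSum_nat_add_iff' 1).mpr h1).neg
  simp only [range_one, sum_singleton, Ring.choose_zero_right, pow_zero, mul_one, neg_sub] at h2
  have e : (fun k : ℕ => ((-1) ^ k * Ring.choose γ (k + 1)) * x ^ (k + 1)) =
      fun k => -(Ring.choose γ (k + 1) * (-x) ^ (k + 1)) := by
    funext k
    rw [neg_pow x, pow_succ (-1 : ℝ)]
    ring
  rw [e, sub_eq_add_neg 1 x]
  exact h2

variable {P : Type} (Gen : Submonoid (P → ℝ))

/-- The closed cone generated by `Gen`. -/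
noncomputable def cone : Subsemiring (P → ℝ) := Gen.subsemiringClosure.topologicalClosure

theorem cone_closed : IsClosed (cone Gen : Set (P → ℝ)) := isClosed_closure

variable {Gen}

theorem mem_cone {G : P → ℝ} (h : G ∈ Gen) : G ∈ cone Gen :=
  subset_closure (AddSubmonoid.subset_closure h)

theorem cone_ind {C : Set (P → ℝ)} (hC : IsClosed C) (h0 : 0 ∈ C)
    (hadd : ∀ x ∈ C, ∀ y ∈ C, x + y ∈ C) (hG : ∀ G ∈ Gen, G ∈ C) {G : P → ℝ}
    (h : G ∈ cone Gen) : G ∈ C := by
  refine closure_minimal (fun x hx => ?_) hC h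
  change x ∈ AddSubmonoid.closure (Gen : Set (P → ℝ)) at hx
  induction hx using AddSubmonoid.closure_induction with
  | mem x hx => exact hG x hx
  | zero => exact h0
  | add x y _ _ hx hy => exact hadd x hx y hy

theorem cone_series (hc : ∀ c : ℝ, 0 ≤ c → (fun _ => c) ∈ Gen) {G H : P → ℝ} (hG : G ∈ cone Gen)
    (c : ℕ → ℝ) (hc0 : ∀ k, 0 ≤ c k) (h : ∀ π, HasSum (fun k => c k * G π ^ (k + 1)) (H π)) :
    H ∈ cone Gen := by
  have h1 : HasSum (fun k => (fun _ => c k) * G ^ (k + 1)) H := Pi.hasSum.mpr h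
  exact (cone_closed Gen).mem_of_tendsto h1.tendsto_sum_nat (Filter.Eventually.of_forall fun n =>
    sum_mem fun k _ => mul_mem (mem_cone (hc _ (hc0 k))) (pow_mem hG _))

theorem cone_psi (hc : ∀ c : ℝ, 0 ≤ c → (fun _ => c) ∈ Gen) {G : P → ℝ} (hG : G ∈ cone Gen)
    (hG1 : ∀ π, |G π| < 1) {γ : ℝ} (h0 : 0 ≤ γ) (h1 : γ ≤ 1) :
    (fun π => 1 - (1 - G π) ^ γ) ∈ cone Gen :=
  cone_series hc hG _ (choose_sign h0 h1) fun π => hasSum_psi γ (hG1 π)

theorem cone_log (hc : ∀ c : ℝ, 0 ≤ c → (fun _ => c) ∈ Gen) {G : P → ℝ} (hG : G ∈ cone Gen)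
    (hG1 : ∀ π, |G π| < 1) : (fun π => -Real.log (1 - G π)) ∈ cone Gen :=
  cone_series hc hG (fun k => 1 / (k + 1)) (fun k => by positivity) fun π => by
    simpa only [one_div_mul_eq_div] using Real.hasSum_pow_div_log_of_abs_lt_one (hG1 π)

theorem cone_sum (hc : ∀ c : ℝ, 0 ≤ c → (fun _ => c) ∈ Gen) {ι : Type*} [Fintype ι]
    (w : ι → ℝ) (hw : ∀ i, 0 ≤ w i) (G : ι → P → ℝ) (hG : ∀ i, G i ∈ cone Gen) :
    (fun π => ∑ i, w i * G i π) ∈ cone Gen := by
  have : (fun π => ∑ i, w i * G i π) = ∑ i, (fun _ => w i) * G i := by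
    funext π; simp
  rw [this]
  exact sum_mem fun i _ => mul_mem (mem_cone (hc _ (hw i))) (hG i)

theorem even_ineq {p : ℕ} (hp : Even p) (x y : ℝ) :
    0 ≤ x ^ p + (p - 1) * y ^ p - p * (x * y ^ (p - 1)) := by
  have h1 := pow_add_mul_le_add_pow (a := |y|) (b := |x| - |y|) (abs_nonneg y)
    (by linarith [abs_nonneg x, abs_nonneg y]) p
  rw [add_sub_cancel, hp.pow_abs, hp.pow_abs] at h1
  have h2 : x * y ^ (p - 1) ≤ |x| * |y| ^ (p - 1) := by
    rw [← abs_pow, ← abs_mul]; exact le_abs_self _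
  have h3 : (p : ℝ) * (|y| ^ (p - 1) * |y|) = p * y ^ p := by
    rcases Nat.eq_zero_or_pos p with rfl | h
    · simp
    · rw [← pow_succ, Nat.sub_add_cancel h, hp.pow_abs]
  have h4 := mul_le_mul_of_nonneg_left h2 (Nat.cast_nonneg (α := ℝ) p)
  nlinarith

end Crest.Agent.R141.Up
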