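import Crest.Agent.R141.Up3

/-! The one-step comparison of the interpolation. -/

set_option autoImplicit false

namespace Crest.Agent.R141.Up

open Crest.ProbabilityR.Diluted Finset
open scoped BigOperators

theorem tilt_nonneg (x : ℝ) (s : Bool) : 0 ≤ tilt x s := by
  unfold tilt
  have := Real.cosh_pos x
  positivity

theorem tilt_sum (x : ℝ) : ∑ s, tilt x s = 1 := by
  have := Real.cosh_pos x
  simp only [Fintype.univ_bool, mem_singleton, Bool.true_eq_false, not_false_eq_true, sum_insert,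
    sum_singleton, tilt, spinVal, if_true, Bool.false_eq_true, if_false, mul_one, mul_neg]
  rw [← add_div, div_eq_one_iff_eq (by positivity), Real.cosh_eq]
  ring

variable {p : ℕ} (M : Model p) (N : ℕ)

/-- Data of a term: clause type and sites. -/
abbrev D0 : Type := M.Θ × (Fin p → Fin N)

/-- A term: pattern and data. -/
abbrev Tm : Type := (Fin p → Bool) × D0 M N

/-- Weight of the data of a term. -/
noncomputable def w0 (a : D0 M N) : ℝ := M.w a.1 * ∏ _j : Fin p, (N : ℝ)⁻¹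

variable {N}

/-- One minus the factor of a term. -/
noncomputable def Wf (δ : Tm M N) (σ : Fin N → Bool) (x : Fin p → ℝ) : ℝ :=
  M.β δ.2.1.1 * ∏ j, ∑ s : Bool, tilt (x j) s * M.f (δ.2.1.2 j) (if δ.1 j then σ (δ.2.2 j) else s)

theorem abs_Wf_le (δ : Tm M N) (σ : Fin N → Bool) (x : Fin p → ℝ) : |Wf M δ σ x| ≤ M.s := by
  unfold Wf
  rw [← sum_prod_eq, mul_sum]
  simp only [prod_mul_distrib, mul_left_comm (M.β _)]
  exact abs_avg_le (fun s => prod_nonneg fun j _ => tilt_nonneg _ _)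
    (sum_prod_one (fun j => tilt (x j)) fun j => tilt_sum _) fun s => M.bound _ _ _

theorem Bf_pos (δ : Tm M N) (σ : Fin N → Bool) (x : Fin p → ℝ) : 0 < 1 - Wf M δ σ x := by
  have := (abs_le.mp (abs_Wf_le M δ σ x)).2
  have := M.s_lt
  linarith

theorem w_nonneg (c : M.Θ) : 0 ≤ M.w c :=
  mul_nonneg (M.wb_nonneg _) (prod_nonneg fun _ _ => M.wf_nonneg _)

theorem w_sum : ∑ c, M.w c = 1 := by
  simp only [Fintype.sum_prod_type, Model.w, ← mul_sum]
  rw [sum_prod_one (fun _ : Fin p => M.wf) fun _ => M.wf_sum]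
  simp [M.wb_sum]

theorem w0_nonneg (a : D0 M N) : 0 ≤ w0 M N a :=
  mul_nonneg (w_nonneg M _) (by positivity)

theorem unif_sum (hN : 0 < N) : ∑ _i : Fin N, (N : ℝ)⁻¹ = 1 := by
  have : (N : ℝ) ≠ 0 := by exact_mod_cast hN.ne'
  simp [this]

theorem w0_sum (hN : 0 < N) : ∑ a, w0 M N a = 1 := by
  rw [Fintype.sum_prod_type]
  simp only [w0, ← mul_sum]
  rw [sum_prod_one (fun (_ : Fin p) (_ : Fin N) => (N : ℝ)⁻¹) fun _ => unif_sum hN]
  simp [w_sum]

variable (T : FT) (N)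

/-- The generators of the cone. -/
def gen : Submonoid (Tm M N × (Fin p → T.S) → ℝ) where
  carrier := {G | ∃ c : ℝ, 0 ≤ c ∧ ∃ (R : ℕ) (ζ : Bool → M.F → Fin N → T.S → ℝ),
    ((∀ g σ, 0 ≤ M.f g σ) → ∀ a b i s, 0 ≤ ζ a b i s) ∧
    G = fun π => c * M.β π.1.2.1.1 ^ R * ∏ j, ζ (π.1.1 j) (π.1.2.1.2 j) (π.1.2.2 j) (π.2 j)}
  one_mem' := ⟨1, zero_le_one, 0, fun _ _ _ _ => 1, fun _ _ _ _ _ => zero_le_one,
    by funext π; simp⟩
  mul_mem' := by
    rintro _ _ ⟨c, hc, R, ζ, hζ, rfl⟩ ⟨c', hc', R', ζ', hζ', rfl⟩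
    refine ⟨c * c', mul_nonneg hc hc', R + R', fun a b i s => ζ a b i s * ζ' a b i s,
      fun h a b i s => mul_nonneg (hζ h a b i s) (hζ' h a b i s), ?_⟩
    funext π
    simp only [Pi.mul_apply, prod_mul_distrib]
    ring

theorem const_mem_gen (c : ℝ) (hc : 0 ≤ c) : (fun _ => c) ∈ gen M N T :=
  ⟨c, hc, 0, fun _ _ _ _ => 1, fun _ _ _ _ _ => zero_le_one, by funext π; simp⟩

variable {N}

theorem kernel_mem (d : ℕ) {G : Tm M N × (Fin p → T.S) → ℝ} (hG : G ∈ cone (gen M N T)) :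
    (fun π : Tm M N × (Fin p → T.S) => ∑ s' : Fin p → T.S,
      (∏ l, T.κ d (π.2 l) (s' l)) * G (π.1, s')) ∈ cone (gen M N T) := by
  refine cone_ind (C := {G | (fun π : Tm M N × (Fin p → T.S) => ∑ s' : Fin p → T.S,
      (∏ l, T.κ d (π.2 l) (s' l)) * G (π.1, s')) ∈ cone (gen M N T)}) ?_ ?_ ?_ ?_ hG
  · exact (cone_closed _).preimage (by fun_prop)
  · simp only [Set.mem_ofPred_eq, Pi.zero_apply, mul_zero, sum_const_zero]
    exact zero_mem (cone (gen M N T))
  · intro x hx y hy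
    simp only [Set.mem_ofPred_eq, Pi.add_apply, mul_add, sum_add_distrib] at hx hy ⊢
    exact add_mem hx hy
  · rintro _ ⟨c, hc, R, ζ, hζ, rfl⟩
    refine mem_cone ⟨c, hc, R, fun a b i s => ∑ s', T.κ d s s' * ζ a b i s',
      fun h a b i s => sum_nonneg fun s' _ => mul_nonneg (T.κ_nonneg _ _ _) (hζ h a b i s'), ?_⟩
    funext π
    rw [← sum_prod_eq, mul_sum]
    refine sum_congr rfl fun s' _ => ?_
    rw [prod_mul_distrib]
    ring

/-- Average over the data and the labels, for a fixed pattern. -/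
noncomputable def Av (P : Fin p → Bool) (H : Tm M N × (Fin p → T.S) → ℝ) : ℝ :=
  ∑ a : D0 M N, w0 M N a * ∑ s : Fin p → T.S, (∏ l, T.init (s l)) * H ((P, a), s)

theorem Av_gen (P : Fin p → Bool) (c : ℝ) (R : ℕ) (ζ : Bool → M.F → Fin N → T.S → ℝ) :
    Av M T P (fun π => c * M.β π.1.2.1.1 ^ R *
      ∏ j, ζ (π.1.1 j) (π.1.2.1.2 j) (π.1.2.2 j) (π.2 j)) =
    c * (∑ b, M.wb b * M.β b ^ R) *
      ∏ j, ∑ g, ∑ i, ∑ s, M.wf g * (N : ℝ)⁻¹ * T.init s * ζ (P j) g i s := by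
  unfold Av
  rw [Fintype.sum_prod_type, Fintype.sum_prod_type, mul_assoc, sum_mul, mul_sum]
  refine sum_congr rfl fun b _ => ?_
  rw [← sum_prod_eq, mul_sum, mul_sum]
  refine sum_congr rfl fun g _ => ?_
  rw [← sum_prod_eq, mul_sum, mul_sum]
  refine sum_congr rfl fun i _ => ?_
  rw [← sum_prod_eq, mul_sum, mul_sum, mul_sum]
  refine sum_congr rfl fun s _ => ?_
  simp only [w0, Model.w, prod_mul_distrib]
  ring

theorem Lam_nonneg (hp : Even p ∨ ∀ g σ, 0 ≤ M.f g σ) (j₀ : Fin p) {H : Tm M N × (Fin p → T.S) → ℝ}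
    (hH : H ∈ cone (gen M N T)) :
    0 ≤ Av M T (fun _ => true) H + (p - 1) * Av M T (fun _ => false) H
      - p * Av M T (fun j => decide (j = j₀)) H := by
  refine cone_ind (C := {H | 0 ≤ Av M T (fun _ => true) H + (p - 1) * Av M T (fun _ => false) H
      - p * Av M T (fun j => decide (j = j₀)) H}) ?_ ?_ ?_ ?_ hH
  · refine isClosed_le continuous_const ?_
    unfold Av
    fun_prop
  · simp [Av]
  · intro x hx y hy
    simp only [Set.mem_ofPred_eq, Av, Pi.add_apply, mul_add, sum_add_distrib] at hx hy ⊢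
    linarith
  · rintro _ ⟨c, hc, R, ζ, hζ, rfl⟩
    simp only [Set.mem_ofPred_eq, Av_gen]
    set X : Bool → ℝ := fun τ => ∑ g, ∑ i, ∑ s, M.wf g * (N : ℝ)⁻¹ * T.init s * ζ τ g i s with hX
    have h1 : ∏ j : Fin p, X (decide (j = j₀)) = X true * X false ^ (p - 1) := by
      rw [← mul_prod_erase _ _ (mem_univ j₀), prod_congr rfl (g := fun _ => X false)
        fun j hj => by simp [ne_of_mem_erase hj]]
      simp [card_erase_of_mem]
    change 0 ≤ _ * ∏ _j : Fin p, X true + _ * (_ * ∏ _j : Fin p, X false) -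
      _ * (_ * ∏ j : Fin p, X (decide (j = j₀)))
    rw [h1]
    simp only [prod_const, card_univ, Fintype.card_fin]
    have h0 : 0 ≤ X true ^ p + (p - 1) * X false ^ p - p * (X true * X false ^ (p - 1)) := by
      rcases hp with hp | hp
      · exact even_ineq hp _ _
      · have hX0 : ∀ τ, 0 ≤ X τ := fun τ => sum_nonneg fun g _ => sum_nonneg fun i _ =>
          sum_nonneg fun s _ => mul_nonneg (mul_nonneg (mul_nonneg (M.wf_nonneg g)
            (by positivity)) (T.init_nonneg s)) (hζ hp τ g i s)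
        have h3 := pow_add_mul_le_add_pow (a := X false) (b := X true - X false) (hX0 _)
          (by linarith [hX0 true, hX0 false]) p
        have h4 : X false ^ (p - 1) * X false = X false ^ p := by
          rw [← pow_succ, Nat.sub_add_cancel j₀.pos]
        rw [add_sub_cancel] at h3
        have h5 : (p : ℝ) * X false ^ (p - 1) * (X true - X false) =
            p * (X true * X false ^ (p - 1)) - p * X false ^ p := by rw [← h4]; ring
        linarith
    have h2 := mul_nonneg (mul_nonneg hc (M.mom R)) h0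
    linarith

section main
variable {L : Type} [Fintype L] [DecidableEq L]

theorem ratio_mem {mm μ : ℕ → ℝ} (hm : ∀ d, 0 < mm d) (hμ0 : μ 0 = 1)
    (hμ : ∀ d, μ (d + 1) = mm d) {r : ℕ} (hle : ∀ d < r, mm d ≤ μ d)
    (Y : (Fin N → Bool) → (L → T.S) → ℝ) (hY : ∀ σ ω, 0 < Y σ ω) (d : ℕ) (hd : d ≤ r) :
    ∀ ω : L → T.S, (fun π : Tm M N × (Fin p → T.S) => 1 -
      (nT T mm (fun s : L ⊕ Fin p → T.S => ∑ σ, Y σ (fun l => s (.inl l)) *
        (1 - Wf M π.1 σ (fun j => T.x (s (.inr j))))) d (Sum.elim ω π.2) /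
      nT T mm (fun ω => ∑ σ, Y σ ω) d ω) ^ μ d) ∈ cone (gen M N T) ∧
    ∀ π : Tm M N × (Fin p → T.S),
      (nT T mm (fun s : L ⊕ Fin p → T.S => ∑ σ, Y σ (fun l => s (.inl l)) *
        (1 - Wf M π.1 σ (fun j => T.x (s (.inr j))))) d (Sum.elim ω π.2) /
      nT T mm (fun ω => ∑ σ, Y σ ω) d ω) ^ μ d ≤ 1 + M.s := by
  have hZ : ∀ ω, 0 < ∑ σ, Y σ ω := fun ω => sum_pos (fun σ _ => hY σ ω) univ_nonempty
  have hZB : ∀ (δ : Tm M N) (s : L ⊕ Fin p → T.S), 0 < ∑ σ, Y σ (fun l => s (.inl l)) *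
      (1 - Wf M δ σ (fun j => T.x (s (.inr j)))) := fun δ s =>
    sum_pos (fun σ _ => mul_pos (hY _ _) (Bf_pos M _ _ _)) univ_nonempty
  induction d with
  | zero =>
    intro ω
    have h1 : ∀ π : Tm M N × (Fin p → T.S),
        (nT T mm (fun s : L ⊕ Fin p → T.S => ∑ σ, Y σ (fun l => s (.inl l)) *
          (1 - Wf M π.1 σ (fun j => T.x (s (.inr j))))) 0 (Sum.elim ω π.2) /
        nT T mm (fun ω => ∑ σ, Y σ ω) 0 ω) ^ μ 0 =
        1 - ∑ σ, (Y σ ω / ∑ σ, Y σ ω) * Wf M π.1 σ (fun j => T.x (π.2 j)) := by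
      intro π
      have := hZ ω
      simp only [nT, nm_zero, hμ0, Real.rpow_one, Sum.elim_inl, Sum.elim_inr, mul_sub, mul_one,
        sum_sub_distrib, div_mul_eq_mul_div, ← sum_div]
      field_simp
    simp only [h1, sub_sub_cancel]
    have hw : ∀ σ, 0 ≤ Y σ ω / ∑ σ, Y σ ω := fun σ => div_nonneg (hY _ _).le (hZ _).le
    refine ⟨cone_sum (const_mem_gen M N T) _ hw _ fun σ => mem_cone ⟨1, zero_le_one, 1,
      fun τ g i s => ∑ y : Bool, tilt (T.x s) y * M.f g (if τ then σ i else y),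
      fun h τ g i s => sum_nonneg fun y _ => mul_nonneg (tilt_nonneg _ _) (h _ _), ?_⟩,
      fun π => ?_⟩
    · funext π
      simp [Wf]
    · have := abs_avg_le hw (by rw [← sum_div, div_self (hZ _).ne'])
        fun σ => abs_Wf_le M π.1 σ (fun j => T.x (π.2 j))
      linarith [(abs_le.mp this).1]
  | succ d ih =>
    intro ω
    replace ih := ih (by omega)
    set U : (L → T.S) → Tm M N × (Fin p → T.S) → ℝ := fun ω π =>
      (nT T mm (fun s : L ⊕ Fin p → T.S => ∑ σ, Y σ (fun l => s (.inl l)) *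
        (1 - Wf M π.1 σ (fun j => T.x (s (.inr j))))) d (Sum.elim ω π.2) /
      nT T mm (fun ω => ∑ σ, Y σ ω) d ω) ^ μ d with hU
    have hμd : 0 < μ d := (hm d).trans_le (hle d (by omega))
    have hUpos : ∀ ω π, 0 < U ω π := fun ω π => Real.rpow_pos_of_pos
      (div_pos (nT_pos T mm (hZB _) _ _) (nT_pos T mm hZ _ _)) _
    have hγ0 : 0 ≤ mm d / μ d := (div_pos (hm d) hμd).le
    have hγ1 : mm d / μ d ≤ 1 := (div_le_one hμd).mpr (hle d (by omega))
    have hden := avg_pos (kw_nonneg T d ω) (kw_sum T d ω)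
      fun s' => Real.rpow_pos_of_pos (nT_pos T mm hZ d s') (mm d)
    set den := ∑ s' : L → T.S, (∏ l, T.κ d (ω l) (s' l)) *
      nT T mm (fun ω => ∑ σ, Y σ ω) d s' ^ mm d with hden'
    set ρ : (L → T.S) → ℝ := fun s' => (∏ l, T.κ d (ω l) (s' l)) *
      nT T mm (fun ω => ∑ σ, Y σ ω) d s' ^ mm d / den with hρ
    have hρ0 : ∀ s', 0 ≤ ρ s' := fun s' => div_nonneg (mul_nonneg (kw_nonneg T _ _ _)
      (Real.rpow_pos_of_pos (nT_pos T mm hZ d s') _).le) hden.le
    have hρ1 : ∑ s', ρ s' = 1 := by rw [← sum_div, div_self hden.ne']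
    have h1 : ∀ π : Tm M N × (Fin p → T.S),
        (nT T mm (fun s : L ⊕ Fin p → T.S => ∑ σ, Y σ (fun l => s (.inl l)) *
          (1 - Wf M π.1 σ (fun j => T.x (s (.inr j))))) (d + 1) (Sum.elim ω π.2) /
        nT T mm (fun ω => ∑ σ, Y σ ω) (d + 1) ω) ^ μ (d + 1) =
        ∑ ω', ρ ω' * ∑ s' : Fin p → T.S,
          (∏ l, T.κ d (π.2 l) (s' l)) * U ω' (π.1, s') ^ (mm d / μ d) := by
      intro π
      have hnum := avg_pos (kw_nonneg T d (Sum.elim ω π.2)) (kw_sum T d _)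
        fun s' => Real.rpow_pos_of_pos (nT_pos T mm (hZB π.1) d s') (mm d)
      rw [hμ, nT_succ, nT_succ, ← Real.div_rpow hnum.le hden.le,
        ← Real.rpow_mul (div_pos hnum hden).le, one_div_mul_cancel (hm d).ne', Real.rpow_one,
        sum_sumElim (fun l => T.κ d (Sum.elim ω π.2 l)), sum_div]
      refine sum_congr rfl fun ω' _ => ?_
      simp only [hρ, Sum.elim_inl, Sum.elim_inr]
      rw [div_mul_eq_mul_div, mul_assoc, mul_sum _ _ (_ ^ mm d)]
      congr 2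
      refine sum_congr rfl fun s' _ => ?_
      have ha := nT_pos T mm (hZB π.1) d (Sum.elim ω' s')
      have hb := nT_pos T mm hZ d ω'
      rw [mul_left_comm, hU]
      dsimp only
      rw [← Real.rpow_mul (div_pos ha hb).le, mul_div_cancel₀ _ hμd.ne',
        ← Real.mul_rpow hb.le (div_pos ha hb).le, mul_div_cancel₀ _ hb.ne']
    simp only [h1]
    constructor
    · have h2 : (fun π : Tm M N × (Fin p → T.S) => 1 - ∑ ω', ρ ω' * ∑ s' : Fin p → T.S,
          (∏ l, T.κ d (π.2 l) (s' l)) * U ω' (π.1, s') ^ (mm d / μ d)) =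
          fun π => ∑ ω', ρ ω' * ∑ s' : Fin p → T.S, (∏ l, T.κ d (π.2 l) (s' l)) *
            (1 - (1 - (1 - U ω' (π.1, s'))) ^ (mm d / μ d)) := by
        funext π
        simp only [sub_sub_cancel, mul_sub, mul_one, sum_sub_distrib, kw_sum, hρ1]
      rw [h2]
      refine cone_sum (const_mem_gen M N T) _ hρ0 _ fun ω' => ?_
      refine kernel_mem M T d (G := fun π => 1 - (1 - (1 - U ω' π)) ^ (mm d / μ d))
        (cone_psi (const_mem_gen M N T) (ih ω').1 (fun π => ?_) hγ0 hγ1)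
      have h3 : U ω' π ≤ 1 + M.s := (ih ω').2 π
      have := M.s_lt
      have := hUpos ω' π
      exact abs_lt.mpr ⟨by linarith, by linarith⟩
    · intro π
      have hs : 0 ≤ M.s := (abs_nonneg _).trans (abs_Wf_le M π.1 (fun _ => true) fun _ => 0)
      refine avg_le hρ0 hρ1 fun ω' => avg_le (kw_nonneg T d _) (kw_sum T d _) fun s' => ?_
      calc U ω' (π.1, s') ^ (mm d / μ d) ≤ (1 + M.s) ^ (mm d / μ d) :=
            Real.rpow_le_rpow (hUpos _ _).le ((ih ω').2 _) hγ0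
        _ ≤ (1 + M.s) ^ (1 : ℝ) := Real.rpow_le_rpow_of_exponent_le (by linarith) hγ1
        _ = _ := Real.rpow_one _

theorem step (hp : Even p ∨ ∀ g σ, 0 ≤ M.f g σ) (hN : 0 < N) (j₀ : Fin p) {r : ℕ}
    {m : Fin r → ℝ}
    (hm : AdmissibleExponents m) (Y : (Fin N → Bool) → (L → ℝ) → ℝ) (hY : ∀ σ x, 0 < Y σ x)
    (Γ : Tm M N → ℝ) (hΓ : ∀ δ, Γ δ = T.val m (L ⊕ Fin p) (fun x => ∑ σ, Y σ (fun l => x (.inl l)) *
        (1 - Wf M δ σ (fun j => x (.inr j))))) :
    ∑ a, w0 M N a * Γ (fun _ => true, a) + (p - 1) * ∑ a, w0 M N a * Γ (fun _ => false, a) ≤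
      p * ∑ a, w0 M N a * Γ (fun j => decide (j = j₀), a) := by
  let μ : ℕ → ℝ := fun d => Nat.casesOn d 1 (mrev m)
  have hμpos : 0 < μ r := by
    cases r with
    | zero => exact one_pos
    | succ r => exact mrev_pos hm _
  have hle : ∀ d < r, mrev m d ≤ μ d := by
    intro d hd
    cases d with
    | zero =>
      simp only [μ, mrev, dif_pos hd]
      exact (hm.2 _).2.le
    | succ d =>
      simp only [μ, mrev, dif_pos hd, dif_pos (show d < r by omega)]
      exact hm.1.monotone (Fin.mk_le_mk.mpr (by omega))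
  have key := ratio_mem M T (mrev_pos hm) (μ := μ) rfl (fun _ => rfl) hle
    (fun σ ω => Y σ (fun l => T.x (ω l))) (fun _ _ => hY _ _) r le_rfl
  have hZ : ∀ ω : L → T.S, 0 < ∑ σ, Y σ (fun l => T.x (ω l)) :=
    fun ω => sum_pos (fun σ _ => hY σ _) univ_nonempty
  have hZB : ∀ (δ : Tm M N) (s : L ⊕ Fin p → T.S), 0 < ∑ σ, Y σ (fun l => T.x (s (.inl l))) *
      (1 - Wf M δ σ (fun j => T.x (s (.inr j)))) := fun δ s =>
    sum_pos (fun σ _ => mul_pos (hY _ _) (Bf_pos M _ _ _)) univ_nonempty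
  set A : Tm M N → (L ⊕ Fin p → T.S) → ℝ := fun δ => nT T (mrev m)
    (fun s : L ⊕ Fin p → T.S => ∑ σ, Y σ (fun l => T.x (s (.inl l))) *
      (1 - Wf M δ σ (fun j => T.x (s (.inr j))))) r with hA
  set B : (L → T.S) → ℝ := nT T (mrev m) (fun ω => ∑ σ, Y σ (fun l => T.x (ω l))) r with hB
  have hApos : ∀ δ s, 0 < A δ s := fun δ s => nT_pos T _ (hZB δ) _ _
  have hBpos : ∀ ω, 0 < B ω := fun ω => nT_pos T _ hZ _ _
  have h1 : ∀ ω, (fun π : Tm M N × (Fin p → T.S) =>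
      Real.log (B ω) - Real.log (A π.1 (Sum.elim ω π.2))) ∈ cone (gen M N T) := by
    intro ω
    have h2 := cone_log (const_mem_gen M N T) (key ω).1 (fun π => by
      have h3 : (A π.1 (Sum.elim ω π.2) / B ω) ^ μ r ≤ 1 + M.s := (key ω).2 π
      have h4 := M.s_lt
      have h5 := Real.rpow_pos_of_pos (div_pos (hApos π.1 (Sum.elim ω π.2)) (hBpos ω)) (μ r)
      change |1 - (A π.1 (Sum.elim ω π.2) / B ω) ^ μ r| < 1
      exact abs_lt.mpr ⟨by linarith, by linarith⟩)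
    have h3 := mul_mem (mem_cone (const_mem_gen M N T (μ r)⁻¹ (inv_pos.mpr hμpos).le)) h2
    convert h3 using 1
    funext π
    change _ = (μ r)⁻¹ * -Real.log (1 - (1 - (A π.1 (Sum.elim ω π.2) / B ω) ^ μ r))
    rw [sub_sub_cancel, Real.log_rpow (div_pos (hApos _ _) (hBpos _)),
      Real.log_div (hApos _ _).ne' (hBpos _).ne']
    field_simp
    ring
  have h2 : ∀ P : Fin p → Bool, ∑ ω : L → T.S, (∏ l, T.init (ω l)) * Av M T P (fun π =>
      Real.log (B ω) - Real.log (A π.1 (Sum.elim ω π.2))) =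
      ∑ ω : L → T.S, (∏ l, T.init (ω l)) * Real.log (B ω) - ∑ a, w0 M N a * Γ (P, a) := by
    intro P
    simp only [Av, mul_sub, sum_sub_distrib, ← sum_mul, iw_sum, w0_sum M hN, one_mul]
    congr 1
    simp only [mul_sum _ _ (∏ l, T.init _)]
    rw [sum_comm]
    refine sum_congr rfl fun a _ => ?_
    rw [hΓ, FT.val, sum_sumElim (fun _ => T.init), mul_sum]
    refine sum_congr rfl fun ω _ => ?_
    rw [mul_left_comm]
  have h3 : 0 ≤ ∑ ω : L → T.S, (∏ l, T.init (ω l)) * _ := sum_nonneg fun ω _ =>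
    mul_nonneg (iw_nonneg T ω) (Lam_nonneg M T hp j₀ (h1 ω))
  simp only [mul_sub, mul_add, sum_sub_distrib, sum_add_distrib,
    mul_left_comm (∏ l, T.init _), ← mul_sum, h2] at h3
  linarith

end main

end Crest.Agent.R141.Up
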