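import Crest.Agent.R141.Up2
import Crest.Agent.R141.Up4

/-! Evaluation of the two ends of the interpolation. -/

set_option autoImplicit false

namespace Crest.Agent.R141.Up

open Crest.ProbabilityR.Diluted Finset
open scoped BigOperators

theorem marg_one {S L : Type} [Fintype S] [Fintype L] [DecidableEq L] (w : S → ℝ)
    (hw : ∑ s, w s = 1) (k : L) (φ : S → ℝ) :
    ∑ s : L → S, (∏ l, w (s l)) * φ (s k) = ∑ y, w y * φ y := by
  have := marg (fun _ : Unit => k) (fun _ _ _ => rfl) (fun _ => w) (fun _ => hw)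
    (fun s => φ (s ()))
  rw [this, ← (Equiv.funUnique Unit S).symm.sum_comp]
  simp

theorem abs_Ex_le {A D : Type} [Fintype A] {w : A → ℝ} (h0 : ∀ a, 0 ≤ w a) (h1 : ∑ a, w a = 1)
    (π : A → D) (Ψ : ∀ n : ℕ, (Fin n → D) → ℝ) (n : ℕ) {K : ℝ} (h : ∀ t, |Ψ n t| ≤ K) :
    |Ex w π Ψ n| ≤ K :=
  abs_avg_le (fun _ => prod_nonneg fun _ _ => h0 _) (sum_prod_one (fun _ => w) fun _ => h1)
    fun _ => h _

section PF
variable (T : FT) {r : ℕ} (m : Fin r → ℝ) {p : ℕ} {Sg D : Type} [Fintype Sg]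

/-- Value of a partition function with one group of labels per term. -/
noncomputable def PF (y : Sg → ℝ) (Bq : D → Sg → (Fin p → ℝ) → ℝ) :
    ∀ n : ℕ, (Fin n → D) → ℝ := fun n t =>
  T.val m (Fin n × Fin p) (fun x => ∑ σ, y σ * ∏ k, Bq (t k) σ (fun j => x (k, j)))

theorem PF_del (y : Sg → ℝ) (Bq : D → Sg → (Fin p → ℝ) → ℝ) (n : ℕ) (j : Fin (n + 1))
    (t : Fin (n + 1) → D) (h : ∀ σ x, Bq (t j) σ x = 1) :
    PF T m y Bq (n + 1) t = PF T m y Bq n (fun k => t (j.succAbove k)) := by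
  unfold PF
  rw [← val_inj T (fun q : Fin n × Fin p => (j.succAbove q.1, q.2))
    (Fin.succAbove_right_injective.prodMap Function.injective_id)]
  simp only [Fin.prod_univ_succAbove _ j, h, one_mul]

theorem PF_update (y : Sg → ℝ) (Bq : D → Sg → (Fin p → ℝ) → ℝ) (n : ℕ) (j : Fin (n + 1))
    (t : Fin (n + 1) → D) (d : D) :
    PF T m y Bq (n + 1) (Function.update t j d) = T.val m ((Fin n × Fin p) ⊕ Fin p)
      (fun x => ∑ σ, (y σ * ∏ k, Bq (t (j.succAbove k)) σ (fun l => x (.inl (k, l)))) *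
        Bq d σ (fun l => x (.inr l))) := by
  unfold PF
  rw [← val_inj T (Sum.elim (fun q : Fin n × Fin p => (j.succAbove q.1, q.2)) (fun l => (j, l)))
    (Function.Injective.sumElim (Fin.succAbove_right_injective.prodMap Function.injective_id)
      (fun _ _ h => (Prod.ext_iff.mp h).2)
      (fun a b h => Fin.succAbove_ne j a.1 (Prod.ext_iff.mp h).1))]
  congr 1
  funext x
  refine sum_congr rfl fun σ _ => ?_
  rw [Fin.prod_univ_succAbove _ j]
  simp only [Function.update_self, Function.update_of_ne (Fin.succAbove_ne j _), Sum.elim_inl,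
    Sum.elim_inr]
  ring

variable {m}

theorem PF_bound [Nonempty Sg] (hm : AdmissibleExponents m) {y : Sg → ℝ} (hy : ∀ σ, 0 < y σ)
    {Bq : D → Sg → (Fin p → ℝ) → ℝ} {c : ℝ}
    (hB : ∀ d σ x, Real.exp (-c) ≤ Bq d σ x ∧ Bq d σ x ≤ Real.exp c) (n : ℕ) (t : Fin n → D) :
    |PF T m y Bq n t| ≤ (|Real.log (∑ σ, y σ)| + |c|) * (1 + n) := by
  have hs : 0 < ∑ σ, y σ := sum_pos (fun σ _ => hy σ) univ_nonempty
  have h1 : |PF T m y Bq n t| ≤ |Real.log (∑ σ, y σ)| + n * c := by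
    refine abs_val_le T hm fun x => ⟨?_, ?_⟩
    · calc Real.exp (-(|Real.log (∑ σ, y σ)| + n * c))
          ≤ Real.exp (Real.log (∑ σ, y σ) + n * (-c)) :=
            Real.exp_le_exp.mpr (by linarith [neg_abs_le (Real.log (∑ σ, y σ))])
        _ = ∑ σ, y σ * ∏ _k : Fin n, Real.exp (-c) := by
            rw [Real.exp_add, Real.exp_log hs, Real.exp_nat_mul, sum_mul]; simp
        _ ≤ _ := sum_le_sum fun σ _ => mul_le_mul_of_nonneg_left
            (prod_le_prod (fun _ _ => (Real.exp_pos _).le) fun k _ => (hB _ _ _).1) (hy σ).le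
    · calc _ ≤ ∑ σ, y σ * ∏ _k : Fin n, Real.exp c :=
            sum_le_sum fun σ _ => mul_le_mul_of_nonneg_left
              (prod_le_prod (fun _ _ => ((Real.exp_pos _).trans_le (hB _ _ _).1).le)
                fun k _ => (hB _ _ _).2) (hy σ).le
        _ = Real.exp (Real.log (∑ σ, y σ) + n * c) := by
            rw [Real.exp_add, Real.exp_log hs, Real.exp_nat_mul, sum_mul]; simp
        _ ≤ _ := Real.exp_le_exp.mpr (by linarith [le_abs_self (Real.log (∑ σ, y σ))])
  have h2 : (0 : ℝ) ≤ n := Nat.cast_nonneg n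
  nlinarith [le_abs_self c, abs_nonneg c, abs_nonneg (Real.log (∑ σ, y σ))]

theorem val_const (hm : AdmissibleExponents m) {L : Type} [Fintype L] [DecidableEq L] {c : ℝ}
    (hc : 0 < c) : T.val m L (fun _ => c) = Real.log c := by
  have := val_const_mul T (L := L) hm (W := fun _ => 1) (fun _ => one_pos) hc
  simpa [val_one] using this

end PF

theorem exp_bound {s W : ℝ} (hs : s < 1) (h : |W| ≤ s) :
    Real.exp (-(-Real.log (1 - s))) ≤ 1 - W ∧ 1 - W ≤ Real.exp (-Real.log (1 - s)) := by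
  have h1 := abs_le.mp h
  rw [neg_neg, Real.exp_neg, Real.exp_log (by linarith)]
  refine ⟨by linarith, ?_⟩
  rw [← one_div, le_div_iff₀ (by linarith)]
  nlinarith

theorem sum_tilt {J : Type} [Fintype J] [DecidableEq J] (x : J → ℝ) (F : J → Bool → ℝ) (B : ℝ) :
    ∑ s : J → Bool, (1 - B * ∏ j, F j (s j)) * ∏ j, tilt (x j) (s j) =
      1 - B * ∏ j, ∑ s, tilt (x j) s * F j s := by
  simp only [sub_mul, sum_sub_distrib, one_mul]
  rw [sum_prod_one (fun j => tilt (x j)) fun j => tilt_sum _, ← sum_prod_eq, mul_sum]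
  congr 1
  refine sum_congr rfl fun s _ => ?_
  rw [prod_mul_distrib]
  ring

section model
variable {p : ℕ} (M : Model p) {N : ℕ}

theorem exp_θ (c : M.Θ) (s : Fin p → Bool) :
    Real.exp (M.θ c s) = 1 - M.β c.1 * ∏ j, M.f (c.2 j) (s j) := by
  have := (abs_le.mp (M.bound c.1 c.2 s)).2
  have := M.s_lt
  exact Real.exp_log (by linarith)

theorem Wf_clause (a : D0 M N) (σ : Fin N → Bool) (x : Fin p → ℝ) :
    1 - Wf M (fun _ => true, a) σ x = Real.exp (M.θ a.1 fun l => σ (a.2 l)) := by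
  simp only [Wf, if_true, ← sum_mul, tilt_sum, one_mul, exp_θ]

theorem Wf_edge (a : D0 M N) (σ : Fin N → Bool) (x : Fin p → ℝ) :
    1 - Wf M (fun _ => false, a) σ x = edgeTerm (M.θ a.1) x := by
  simp only [Wf, Bool.false_eq_true, if_false, edgeTerm, exp_θ]
  rw [sum_tilt x (fun j => M.f (a.1.2 j))]

end model

theorem Wf_site {q : ℕ} (M : Model (q + 1)) {N : ℕ} (a : D0 M N) (σ : Fin N → Bool)
    (x : Fin (q + 1) → ℝ) :
    1 - Wf M (fun j => decide (j = Fin.last q), a) σ x =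
      Real.exp (siteMessage (M.θ a.1) (fun l : Fin q => x l.castSucc) (σ (a.2 (Fin.last q)))) := by
  have h1 : 1 - Wf M (fun j => decide (j = Fin.last q), a) σ x =
      ∑ s' : Fin q → Bool, Real.exp (M.θ a.1 (fun ℓ => if h : ℓ.val < q then s' ⟨ℓ.val, h⟩
        else σ (a.2 (Fin.last q)))) * ∏ ℓ : Fin q, tilt (x ℓ.castSucc) (s' ℓ) := by
    have h2 := sum_tilt (fun l : Fin q => x l.castSucc) (fun l => M.f (a.1.2 l.castSucc))
      (M.β a.1.1 * M.f (a.1.2 (Fin.last q)) (σ (a.2 (Fin.last q))))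
    simp only [Wf, exp_θ, Fin.prod_univ_castSucc, Fin.castSucc_ne_last, decide_false,
      Bool.false_eq_true, if_false, decide_true, if_true, ← sum_mul, tilt_sum, one_mul,
      Fin.val_castSucc, Fin.is_lt, dite_true, Fin.val_last, lt_irrefl, dite_false, Fin.eta]
    rw [mul_comm (∏ _i : Fin q, _), ← mul_assoc, ← h2]
    refine sum_congr rfl fun s _ => ?_
    ring
  have h2 := Bf_pos M (fun j => decide (j = Fin.last q), a) σ x
  rw [h1] at h2 ⊢
  exact (Real.exp_log h2).symm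

end Crest.Agent.R141.Up
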